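import Crest.Agent.R95.L2

/-!
R95 (helper364): density of `span M' ξ`, closure lemma (RED1), completeness of bounded sets.
-/

set_option autoImplicit false

open scoped InnerProductSpace ENNReal
open Filter Topology

namespace Crest.Agent.R95

open Crest.OpAlg

variable {H : Type*} [NormedAddCommGroup H] [InnerProductSpace ℂ H] [CompleteSpace H]
variable {M : VonNeumannAlgebra H} {ξ : ℕ → H}

/-- the span of `M' ξ` -/
def comSpan (M : VonNeumannAlgebra H) (ξ : ℕ → H) : Submodule ℂ H :=
  Submodule.span ℂ {v | ∃ m ∈ M.commutant, ∃ n, v = m (ξ n)}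

theorem comSpan_inv {m : H →L[ℂ] H} (hm : m ∈ M.commutant) {v : H} (hv : v ∈ comSpan M ξ) :
    m v ∈ comSpan M ξ := by
  unfold comSpan at *
  induction hv using Submodule.span_induction with
  | mem x hx =>
    obtain ⟨m', hm', n, rfl⟩ := hx
    exact Submodule.subset_span ⟨m * m', mul_mem hm hm', n, rfl⟩
  | zero => simp
  | add x y _ _ hx hy => rw [map_add]; exact add_mem hx hy
  | smul c x _ hx => rw [map_smul]; exact Submodule.smul_mem _ _ hx

/-- if the `ξ n` are separating for `M` then `span M' ξ` is dense. -/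
theorem comSpan_dense (hsep : ∀ x ∈ M, (∀ n, x (ξ n) = 0) → x = 0) :
    (comSpan M ξ).topologicalClosure = ⊤ := by
  set K := (comSpan M ξ).topologicalClosure with hK
  have hinv : ∀ m ∈ M.commutant, ∀ v ∈ K, m v ∈ K := by
    intro m hm v hv
    have hmaps : Set.MapsTo m (comSpan M ξ : Set H) (comSpan M ξ : Set H) :=
      fun w hw => comSpan_inv hm hw
    exact hmaps.closure m.continuous hv
  have : CompleteSpace K := (Submodule.isClosed_topologicalClosure _).completeSpace_coe
  -- the projection onto `Kᗮ` commutes with `M'`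
  set p := Kᗮ.starProjection with hp
  have hp1 : p ∈ M := by
    rw [← M.commutant_commutant, VonNeumannAlgebra.mem_commutant_iff]
    intro m hm
    have hinv' : ∀ v ∈ Kᗮ, m v ∈ Kᗮ := by
      intro v hv w hw
      have h1 : ⟪w, m v⟫_ℂ = ⟪(star m) w, v⟫_ℂ := by
        rw [ContinuousLinearMap.star_eq_adjoint, ContinuousLinearMap.adjoint_inner_left]
      rw [h1]
      exact hv _ (hinv _ (star_mem hm) w hw)
    ext v
    have hdecomp : v = K.starProjection v + p v := by
      rw [hp, Submodule.starProjection_orthogonal']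
      simp
    have hKv : m (K.starProjection v) ∈ K := hinv m hm _ (Submodule.starProjection_apply_mem _ _)
    have hpv : m (p v) ∈ Kᗮ := hinv' _ (Submodule.starProjection_apply_mem _ _)
    change m (p v) = p (m v)
    conv_rhs => rw [hdecomp, map_add, map_add]
    have e1 : p (m (K.starProjection v)) = 0 := by
      rw [hp, Submodule.starProjection_apply_eq_zero_iff]
      rwa [Submodule.orthogonal_orthogonal]
    have e2 : p (m (p v)) = m (p v) := Submodule.starProjection_eq_self_iff.2 hpv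
    rw [e1, e2, zero_add]
  have hp2 : p = 0 := by
    apply hsep p hp1
    intro n
    rw [hp, Submodule.starProjection_apply_eq_zero_iff, Submodule.orthogonal_orthogonal]
    apply Submodule.le_topologicalClosure
    exact Submodule.subset_span ⟨1, one_mem _, n, rfl⟩
  rw [← Submodule.orthogonal_eq_bot_iff]
  rw [eq_bot_iff]
  intro v hv
  have : p v = v := Submodule.starProjection_eq_self_iff.2 hv
  rw [hp2] at this
  simpa using this.symm

theorem dense_comSpan (hξ : IsFaithfulTracialVectorState M ξ) :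
    Dense (comSpan M ξ : Set H) := by
  exact (Submodule.dense_iff_topologicalClosure_eq_top).2 (comSpan_dense hξ.2.2)

/-- 2-norm convergence in `M` implies pointwise convergence on `span M' ξ`. -/
theorem tendsto_apply_of_N2 (hξ : IsFaithfulTracialVectorState M ξ) {α : Type*} {l : Filter α}
    {x : α → H →L[ℂ] H} {y : H →L[ℂ] H} (hx : ∀ k, x k ∈ M) (hy : y ∈ M)
    (h : Tendsto (fun k => N2 ξ (x k - y)) l (𝓝 0)) {v : H} (hv : v ∈ comSpan M ξ) :
    Tendsto (fun k => x k v) l (𝓝 (y v)) := by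
  unfold comSpan at hv
  induction hv using Submodule.span_induction with
  | mem w hw =>
    obtain ⟨m, hm, n, rfl⟩ := hw
    have hm' := VonNeumannAlgebra.mem_commutant_iff.1 hm
    have e1 : ∀ k, x k (m (ξ n)) = m (x k (ξ n)) := fun k => by
      have := congrArg (fun T : H →L[ℂ] H => T (ξ n)) (hm' (x k) (hx k))
      simpa using this
    have e2 : y (m (ξ n)) = m (y (ξ n)) := by
      have := congrArg (fun T : H →L[ℂ] H => T (ξ n)) (hm' y hy)
      simpa using this
    simp only [e1, e2]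
    refine (m.continuous.tendsto _).comp ?_
    rw [tendsto_iff_norm_sub_tendsto_zero]
    refine squeeze_zero (fun _ => norm_nonneg _) (fun k => ?_) h
    exact norm_apply_le_N2 (sqSum hξ) (x k - y) n
  | zero => simpa using tendsto_const_nhds
  | add a b _ _ ha hb => simpa using ha.add hb
  | smul c a _ ha => simpa using ha.const_smul c

/-- **RED1**: a von Neumann subalgebra is 2-norm closed in `M` (no boundedness needed). -/
theorem mem_of_tendsto_N2 (hξ : IsFaithfulTracialVectorState M ξ) {N : VonNeumannAlgebra H}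
    (hN : N ≤ M) {α : Type*} {l : Filter α} [l.NeBot] {x : α → H →L[ℂ] H} {y : H →L[ℂ] H}
    (hx : ∀ k, x k ∈ N) (hy : y ∈ M)
    (h : Tendsto (fun k => N2 ξ (x k - y)) l (𝓝 0)) : y ∈ N := by
  have hd := dense_comSpan hξ
  have hxM : ∀ k, x k ∈ M := fun k => hN (hx k)
  have hstar : Tendsto (fun k => N2 ξ (star (x k) - star y)) l (𝓝 0) := by
    refine h.congr fun k => ?_
    rw [← star_sub, N2_star hξ (sub_mem (hxM k) hy)]
  rw [← N.commutant_commutant, VonNeumannAlgebra.mem_commutant_iff]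
  intro c hc
  have hc' := VonNeumannAlgebra.mem_commutant_iff.1 hc
  have key : ∀ v ∈ comSpan M ξ, c (y v) = y (c v) := by
    intro v hv
    refine hd.eq_of_inner_right ℂ fun w hw => ?_
    have h1 : Tendsto (fun k => ⟪w, c (x k v)⟫_ℂ) l (𝓝 ⟪w, c (y v)⟫_ℂ) :=
      tendsto_const_nhds.inner ((c.continuous.tendsto _).comp (tendsto_apply_of_N2 hξ hxM hy h hv))
    have h2 : Tendsto (fun k => ⟪star (x k) w, c v⟫_ℂ) l (𝓝 ⟪star y w, c v⟫_ℂ) :=
      (tendsto_apply_of_N2 hξ (fun k => star_mem (hxM k)) (star_mem hy) hstar hw).inner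
        tendsto_const_nhds
    have h3 : ∀ k, ⟪star (x k) w, c v⟫_ℂ = ⟪w, c (x k v)⟫_ℂ := by
      intro k
      rw [ContinuousLinearMap.star_eq_adjoint, ContinuousLinearMap.adjoint_inner_left]
      have := congrArg (fun T : H →L[ℂ] H => T v) (hc' (x k) (hx k))
      simp only [mul_apply_eq_comp] at this
      rw [this]
    have h4 : ⟪star y w, c v⟫_ℂ = ⟪w, y (c v)⟫_ℂ := by
      rw [ContinuousLinearMap.star_eq_adjoint, ContinuousLinearMap.adjoint_inner_left]
    rw [← h4]
    simp only [h3] at h2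
    exact tendsto_nhds_unique h1 h2
  ext v
  change c (y v) = y (c v)
  have hcl : IsClosed {v | c (y v) = y (c v)} :=
    isClosed_eq (by fun_prop) (by fun_prop)
  exact hcl.closure_subset_iff.2 (fun w hw => key w hw) (hd v)

/-- `ε`-form of RED1 -/
theorem mem_of_forall_N2_lt (hξ : IsFaithfulTracialVectorState M ξ) {N : VonNeumannAlgebra H}
    (hN : N ≤ M) {y : H →L[ℂ] H} (hy : y ∈ M)
    (h : ∀ ε : ℝ, 0 < ε → ∃ x ∈ N, N2 ξ (x - y) < ε) : y ∈ N := by
  have h' : ∀ k : ℕ, ∃ x ∈ N, N2 ξ (x - y) < 1 / ((k : ℝ) + 1) := fun k => h _ (by positivity)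
  choose x hx hxy using h'
  refine mem_of_tendsto_N2 (l := atTop) hξ hN hx hy ?_
  exact squeeze_zero (fun _ => N2_nonneg _) (fun k => (hxy k).le)
    tendsto_one_div_add_atTop_nhds_zero_nat

omit [CompleteSpace H] in
/-- pointwise convergence on the `ξ n` of a bounded sequence implies 2-norm convergence -/
theorem tendsto_N2_of_pointwise (hξ : SqSum ξ) {x : ℕ → H →L[ℂ] H}
    {y : H →L[ℂ] H} {C : ℝ} (hC : ∀ k, ‖x k‖ ≤ C)
    (h : ∀ n, Tendsto (fun k => x k (ξ n)) atTop (𝓝 (y (ξ n)))) :
    Tendsto (fun k => N2 ξ (x k - y)) atTop (𝓝 0) := by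
  have h1 : Tendsto (fun k => traceNormSq ξ (x k - y)) atTop (𝓝 (∑' _ : ℕ, (0 : ℝ))) := by
    unfold traceNormSq
    refine tendsto_tsum_of_dominated_convergence (bound := fun n => (C + ‖y‖) ^ 2 * ‖ξ n‖ ^ 2)
      (Summable.mul_left _ hξ) (fun n => ?_) (Eventually.of_forall fun k n => ?_)
    · have := ((h n).sub_const (y (ξ n))).norm.pow 2
      simpa using this
    · rw [Real.norm_of_nonneg (by positivity)]
      calc ‖(x k - y) (ξ n)‖ ^ 2 ≤ (‖x k - y‖ * ‖ξ n‖) ^ 2 := by
            gcongr; exact (x k - y).le_opNorm _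
        _ ≤ ((C + ‖y‖) * ‖ξ n‖) ^ 2 := by
            gcongr
            exact (norm_sub_le _ _).trans (by gcongr; exact hC k)
        _ = _ := by ring
  rw [tsum_zero] at h1
  have h2 := (Real.continuous_sqrt.tendsto 0).comp h1
  simpa [N2, Function.comp_def] using h2

/-- 2-norm completeness of bounded subsets of `M` -/
theorem exists_lim_of_cauchy (hξ : IsFaithfulTracialVectorState M ξ) {x : ℕ → H →L[ℂ] H}
    (hx : ∀ k, x k ∈ M) {C : ℝ} (hC : ∀ k, ‖x k‖ ≤ C)
    (hcau : ∀ ε : ℝ, 0 < ε → ∃ n₀ : ℕ, ∀ m ≥ n₀, ∀ n ≥ n₀, N2 ξ (x m - x n) < ε) :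
    ∃ y ∈ M, ‖y‖ ≤ C ∧ Tendsto (fun k => N2 ξ (x k - y)) atTop (𝓝 0) ∧
      ∀ v : H, Tendsto (fun k => x k v) atTop (𝓝 (y v)) := by
  have hd := dense_comSpan hξ
  have hC0 : 0 ≤ C := (norm_nonneg _).trans (hC 0)
  -- Cauchy on the dense subspace
  have h1 : ∀ v ∈ comSpan M ξ, CauchySeq fun k => x k v := by
    intro v hv
    unfold comSpan at hv
    induction hv using Submodule.span_induction with
    | mem w hw =>
      obtain ⟨m, hm, n, rfl⟩ := hw
      have hm' := VonNeumannAlgebra.mem_commutant_iff.1 hm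
      have e1 : ∀ k, x k (m (ξ n)) = m (x k (ξ n)) := fun k => by
        have := congrArg (fun T : H →L[ℂ] H => T (ξ n)) (hm' (x k) (hx k))
        simpa using this
      simp only [e1]
      have : CauchySeq fun k => x k (ξ n) := by
        rw [Metric.cauchySeq_iff]
        intro ε hε
        obtain ⟨n₀, hn₀⟩ := hcau ε hε
        refine ⟨n₀, fun a ha b hb => ?_⟩
        rw [dist_eq_norm]
        exact (norm_apply_le_N2 (sqSum hξ) (x a - x b) n).trans_lt (hn₀ a ha b hb)
      exact this.map m.uniformContinuous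
    | zero => simpa using cauchySeq_const (0 : H)
    | add a b _ _ ha hb =>
      have := ha.add hb
      simp only [map_add]
      exact this
    | smul c a _ ha =>
      simp only [map_smul]
      exact ha.map (uniformContinuous_const_smul c)
  have h2 : ∀ v : H, CauchySeq fun k => x k v := by
    intro v
    rw [Metric.cauchySeq_iff]
    intro ε hε
    obtain ⟨w, hw, hvw⟩ := Metric.mem_closure_iff.1 (hd v) (ε / (3 * (C + 1))) (by positivity)
    obtain ⟨n₀, hn₀⟩ := Metric.cauchySeq_iff.1 (h1 w hw) (ε / 3) (by positivity)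
    refine ⟨n₀, fun a ha b hb => ?_⟩
    have e1 : ∀ k, dist (x k v) (x k w) < ε / 3 := by
      intro k
      rw [dist_eq_norm, ← map_sub]
      calc ‖x k (v - w)‖ ≤ ‖x k‖ * ‖v - w‖ := (x k).le_opNorm _
        _ ≤ C * ‖v - w‖ := by gcongr; exact hC k
        _ ≤ C * (ε / (3 * (C + 1))) := by
            gcongr; rw [← dist_eq_norm]; exact hvw.le
        _ < ε / 3 := by
            rw [mul_div_assoc', div_lt_div_iff₀ (by positivity) (by norm_num)]
            nlinarith
    calc dist (x a v) (x b v) ≤ dist (x a v) (x a w) + dist (x a w) (x b w) + dist (x b w) (x b v) :=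
          dist_triangle4 _ _ _ _
      _ < ε / 3 + ε / 3 + ε / 3 := by
          gcongr
          · exact e1 a
          · exact hn₀ a ha b hb
          · rw [dist_comm]; exact e1 b
      _ = ε := by ring
  choose f hf using fun v => cauchySeq_tendsto_of_complete (h2 v)
  let y₀ : H →ₗ[ℂ] H :=
    { toFun := f
      map_add' := fun a b => tendsto_nhds_unique (hf (a + b)) (by simpa using (hf a).add (hf b))
      map_smul' := fun c a => tendsto_nhds_unique (hf (c • a)) (by simpa using (hf a).const_smul c) }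
  have hy₀ : ∀ v, ‖y₀ v‖ ≤ C * ‖v‖ := by
    intro v
    refine le_of_tendsto (hf v).norm (Eventually.of_forall fun k => ?_)
    exact ((x k).le_opNorm v).trans (by gcongr; exact hC k)
  let y : H →L[ℂ] H := y₀.mkContinuous C hy₀
  have hy : ∀ v, Tendsto (fun k => x k v) atTop (𝓝 (y v)) := hf
  refine ⟨y, ?_, LinearMap.mkContinuous_norm_le _ hC0 _,
    tendsto_N2_of_pointwise (sqSum hξ) hC fun n => hy (ξ n), hy⟩
  rw [← M.commutant_commutant, VonNeumannAlgebra.mem_commutant_iff]
  intro m hm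
  have hm' := VonNeumannAlgebra.mem_commutant_iff.1 hm
  ext v
  change m (y v) = y (m v)
  refine tendsto_nhds_unique ((m.continuous.tendsto _).comp (hy v)) ?_
  refine (hy (m v)).congr fun k => ?_
  have := congrArg (fun T : H →L[ℂ] H => T v) (hm' (x k) (hx k))
  simpa using this

/-- products of bounded 2-norm convergent sequences -/
theorem tendsto_N2_mul (hξ : IsFaithfulTracialVectorState M ξ) {α : Type*} {l : Filter α}
    {a b : α → H →L[ℂ] H} {a' b' : H →L[ℂ] H} {C : ℝ} (hCa : ∀ k, ‖a k‖ ≤ C)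
    (ha : ∀ k, a k ∈ M) (ha' : a' ∈ M) (hb' : b' ∈ M)
    (h1 : Tendsto (fun k => N2 ξ (a k - a')) l (𝓝 0))
    (h2 : Tendsto (fun k => N2 ξ (b k - b')) l (𝓝 0)) :
    Tendsto (fun k => N2 ξ (a k * b k - a' * b')) l (𝓝 0) := by
  have h3 : Tendsto (fun k => C * N2 ξ (b k - b') + N2 ξ (a k - a') * ‖b'‖) l (𝓝 0) := by
    simpa using (h2.const_mul C).add (h1.mul_const ‖b'‖)
  refine squeeze_zero (fun _ => N2_nonneg _) (fun k => ?_) h3
  have e1 : a k * b k - a' * b' = a k * (b k - b') + (a k - a') * b' := by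
    rw [mul_sub, sub_mul]; abel
  rw [e1]
  refine (N2_add_le (sqSum hξ) _ _).trans (add_le_add ?_ ?_)
  · refine (N2_mul_left (sqSum hξ) _ _).trans ?_
    gcongr
    · exact N2_nonneg _
    · exact hCa k
  · exact N2_mul_right hξ (sub_mem (ha k) ha') hb'

theorem tendsto_N2_star (hξ : IsFaithfulTracialVectorState M ξ) {α : Type*} {l : Filter α}
    {a : α → H →L[ℂ] H} {a' : H →L[ℂ] H}
    (ha : ∀ k, a k ∈ M) (ha' : a' ∈ M)
    (h1 : Tendsto (fun k => N2 ξ (a k - a')) l (𝓝 0)) :
    Tendsto (fun k => N2 ξ (star (a k) - star a')) l (𝓝 0) := by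
  refine h1.congr fun k => ?_
  rw [← star_sub, N2_star hξ (sub_mem (ha k) ha')]

/-- uniqueness of 2-norm limits -/
theorem N2_lim_unique (hξ : IsFaithfulTracialVectorState M ξ) {α : Type*} {l : Filter α}
    [l.NeBot] {a : α → H →L[ℂ] H} {x y : H →L[ℂ] H} (hx : x ∈ M) (hy : y ∈ M)
    (h1 : Tendsto (fun k => N2 ξ (a k - x)) l (𝓝 0))
    (h2 : Tendsto (fun k => N2 ξ (a k - y)) l (𝓝 0)) : x = y := by
  apply eq_of_N2 hξ hx hy
  have h3 : Tendsto (fun k => N2 ξ (a k - x) + N2 ξ (a k - y)) l (𝓝 0) := by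
    simpa using h1.add h2
  refine le_antisymm (ge_of_tendsto' h3 fun k => ?_) (N2_nonneg _)
  have := N2_triangle (sqSum hξ) x (a k) y
  rwa [N2_sub_comm x (a k)] at this

end Crest.Agent.R95
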