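import Crest.Agent.R95.Defs
import Crest.Agent.R95.Closure

/-!
R95 (helper364): bridge between a von Neumann algebra with a faithful tracial vector state and an
abstract C*-algebra with a `TracialState`; the density lemma (double commutant theorem on
`ℓ²(ℕ, H)`); the concrete form of the core statement.
-/

set_option autoImplicit false

open scoped InnerProductSpace ENNReal
open Filter Topology

namespace Crest.Agent.R95

open Crest.OpAlg

universe u

section bridge

variable {H : Type u} [NormedAddCommGroup H] [InnerProductSpace ℂ H] [CompleteSpace H]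
variable {M : VonNeumannAlgebra H} {ξ : ℕ → H}

omit [CompleteSpace H] in
theorem n2_eq_N2 (ξ : ℕ → H) (x : H →L[ℂ] H) : n2 ξ x = N2 ξ x := rfl

theorem isClosed_vn (M : VonNeumannAlgebra H) :
    IsClosed (M.toStarSubalgebra : Set (H →L[ℂ] H)) := by
  have h : (M.toStarSubalgebra : Set (H →L[ℂ] H)) =
      Set.centralizer (Set.centralizer (M : Set (H →L[ℂ] H))) := by
    rw [VonNeumannAlgebra.centralizer_centralizer]; rfl
  rw [h]
  exact Set.isClosed_centralizer _

noncomputable instance instCStarVN (M : VonNeumannAlgebra H) :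
    CStarAlgebra M.toStarSubalgebra :=
  StarSubalgebra.cstarAlgebra _ (h_closed := isClosed_vn M)

/-- the tracial state of a von Neumann algebra given by a faithful tracial vector state -/
noncomputable def vnTrace (hξ : IsFaithfulTracialVectorState M ξ) :
    TracialState M.toStarSubalgebra where
  τ :=
    { toFun := fun x => tr ξ (x : H →L[ℂ] H)
      map_add' := fun x y => tr_add (sqSum hξ) _ _
      map_smul' := fun c x => tr_smul (sqSum hξ) _ _ }
  one := tr_one hξ
  tr a b := tr_mul_comm hξ a.2 b.2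
  star' a := tr_star (sqSum hξ) _
  pos a := by
    change 0 ≤ (tr ξ (star (a : H →L[ℂ] H) * a)).re
    rw [tr_star_mul_self (sqSum hξ), Complex.ofReal_re]
    positivity
  bdd a b := by
    change (tr ξ (star ((a : H →L[ℂ] H) * b) * ((a : H →L[ℂ] H) * b))).re ≤
      ‖(a : H →L[ℂ] H)‖ ^ 2 * (tr ξ (star (b : H →L[ℂ] H) * b)).re
    rw [tr_star_mul_self (sqSum hξ), tr_star_mul_self (sqSum hξ), Complex.ofReal_re,
      Complex.ofReal_re, ← mul_pow]
    exact pow_le_pow_left₀ (N2_nonneg _) (N2_mul_left (sqSum hξ) _ _) 2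

@[simp] theorem vnTrace_τ (hξ : IsFaithfulTracialVectorState M ξ) (x : M.toStarSubalgebra) :
    (vnTrace hξ).τ x = vectorState ξ (x : H →L[ℂ] H) := rfl

@[simp] theorem vnTrace_nrm2 (hξ : IsFaithfulTracialVectorState M ξ) (x : M.toStarSubalgebra) :
    (vnTrace hξ).nrm2 x = N2 ξ (x : H →L[ℂ] H) := by
  have : ((vnTrace hξ).τ (star x * x)).re = N2 ξ (x : H →L[ℂ] H) ^ 2 := by
    change (tr ξ (star (x : H →L[ℂ] H) * x)).re = _
    rw [tr_star_mul_self (sqSum hξ), Complex.ofReal_re]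
  rw [TracialState.nrm2, this, Real.sqrt_sq (N2_nonneg _)]

end bridge

section density

variable {H : Type u} [NormedAddCommGroup H] [InnerProductSpace ℂ H] [CompleteSpace H]

omit [InnerProductSpace ℂ H] [CompleteSpace H] in
theorem sqSum_coe (f : L2 H) : SqSum (fun n => f n) := by
  have h1 := lp.memℓp f
  have h2 := (memℓp_gen_iff (by norm_num)).1 h1
  simpa [SqSum] using h2

omit [InnerProductSpace ℂ H] [CompleteSpace H] in
theorem norm_sq_L2 (f : L2 H) : ‖f‖ ^ 2 = ∑' n, ‖f n‖ ^ 2 := by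
  have h : ‖f‖ ^ (2 : ℝ≥0∞).toReal = ∑' i, ‖f i‖ ^ (2 : ℝ≥0∞).toReal :=
    lp.norm_rpow_eq_tsum (by norm_num) f
  simpa using h

/-- the amplification of an operator to `ℓ²(ℕ, H)` -/
noncomputable def ampL (a : H →L[ℂ] H) : L2 H →L[ℂ] L2 H :=
  LinearMap.mkContinuous
    { toFun := fun f => ⟨fun n => a (f n), ((sqSum_coe f).apply a).memℓp⟩
      map_add' := fun f g => by ext n; exact map_add a _ _
      map_smul' := fun c f => by ext n; exact map_smul a _ _ }
    ‖a‖ (fun f => by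
      rw [← sq_le_sq₀ (norm_nonneg _) (by positivity), mul_pow, norm_sq_L2, norm_sq_L2,
        ← tsum_mul_left]
      refine Summable.tsum_le_tsum (fun n => ?_) ((sqSum_coe f).apply a)
        (Summable.mul_left _ (sqSum_coe f))
      change ‖a (f n)‖ ^ 2 ≤ _
      calc ‖a (f n)‖ ^ 2 ≤ (‖a‖ * ‖f n‖) ^ 2 := by gcongr; exact a.le_opNorm _
        _ = _ := by ring)

omit [CompleteSpace H] in
@[simp] theorem ampL_apply (a : H →L[ℂ] H) (f : L2 H) (n : ℕ) : ampL a f n = a (f n) := rfl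

/-- **density lemma** (double commutant theorem, amplified): every element `x` of the double
commutant of a unital star subalgebra `S` is a limit of elements of `S` in `∑ ‖· (ξ n)‖²`. -/
theorem exists_near_of_centralizer {ξ : ℕ → H} (hξ : SqSum ξ)
    (S : StarSubalgebra ℂ (H →L[ℂ] H)) {x : H →L[ℂ] H}
    (hx : x ∈ Set.centralizer (Set.centralizer (S : Set (H →L[ℂ] H)))) {ε : ℝ} (hε : 0 < ε) :
    ∃ y ∈ S, N2 ξ (y - x) < ε := by
  set V : Submodule ℂ (L2 H) :=
    (Submodule.map (io hξ) (Subalgebra.toSubmodule S.toSubalgebra)).topologicalClosure with hV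
  have : CompleteSpace V := (Submodule.isClosed_topologicalClosure _).completeSpace_coe
  -- invariance
  have hinv : ∀ s ∈ S, ∀ f ∈ V, ampL s f ∈ V := by
    intro s hs f hf
    have hmaps : Set.MapsTo (ampL s)
        (Submodule.map (io hξ) (Subalgebra.toSubmodule S.toSubalgebra) : Set (L2 H))
        (Submodule.map (io hξ) (Subalgebra.toSubmodule S.toSubalgebra) : Set (L2 H)) := by
      rintro g ⟨t, ht, rfl⟩
      refine ⟨s * t, S.mul_mem hs ht, ?_⟩
      ext n; rfl
    exact hmaps.closure (ampL s).continuous hf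
  have hinner : ∀ (s : H →L[ℂ] H) (f g : L2 H), ⟪f, ampL s g⟫_ℂ = ⟪ampL (star s) f, g⟫_ℂ := by
    intro s f g
    rw [lp.inner_eq_tsum, lp.inner_eq_tsum]
    congr 1
    ext n
    rw [ampL_apply, ampL_apply, ContinuousLinearMap.star_eq_adjoint,
      ContinuousLinearMap.adjoint_inner_left]
  have hinv' : ∀ s ∈ S, ∀ f ∈ Vᗮ, ampL s f ∈ Vᗮ := by
    intro s hs f hf g hg
    rw [hinner]
    exact hf _ (hinv _ (star_mem hs) g hg)
  set p := V.starProjection with hp
  have hcomm : ∀ s ∈ S, ∀ f, ampL s (p f) = p (ampL s f) := by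
    intro s hs f
    have hdecomp : f = p f + Vᗮ.starProjection f := by
      rw [Submodule.starProjection_orthogonal']
      simp [hp]
    have h1 : ampL s (p f) ∈ V := hinv s hs _ (Submodule.starProjection_apply_mem _ _)
    have h2 : ampL s (Vᗮ.starProjection f) ∈ Vᗮ := hinv' s hs _ (Submodule.starProjection_apply_mem _ _)
    conv_rhs => rw [hdecomp, map_add, map_add]
    have e1 : p (ampL s (p f)) = ampL s (p f) := Submodule.starProjection_eq_self_iff.2 h1
    have e2 : p (ampL s (Vᗮ.starProjection f)) = 0 := by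
      rw [hp, Submodule.starProjection_apply_eq_zero_iff]; exact h2
    rw [e1, e2, add_zero]
  -- matrix entries of `p`
  let q : ℕ → ℕ → (H →L[ℂ] H) := fun i j =>
    (lp.evalCLM ℂ (fun _ : ℕ => H) 2 i).comp (p.comp (lp.singleContinuousLinearMap ℂ (fun _ : ℕ => H) 2 j))
  have hq : ∀ i j h, q i j h = p (lp.single 2 j h) i := fun i j h => rfl
  have hsingle : ∀ (a : H →L[ℂ] H) (j : ℕ) (h : H),
      ampL a (lp.single 2 j h) = lp.single 2 j (a h) := by
    intro a j h
    ext n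
    rw [ampL_apply]
    by_cases hn : n = j
    · subst hn; simp
    · rw [lp.single_apply_ne _ _ _ hn, lp.single_apply_ne _ _ _ hn, map_zero]
  have hqS : ∀ i j, q i j ∈ Set.centralizer (S : Set (H →L[ℂ] H)) := by
    intro i j s hs
    ext h
    change s (q i j h) = q i j (s h)
    rw [hq, hq, ← hsingle, ← hcomm s hs, ampL_apply]
  have hxq : ∀ i j h, x (q i j h) = q i j (x h) := by
    intro i j h
    have := hx (q i j) (hqS i j)
    exact (congrArg (fun T : H →L[ℂ] H => T h) this).symm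
  have hxp : ∀ f, ampL x (p f) = p (ampL x f) := by
    intro f
    have h1 : HasSum (fun j => lp.single 2 j (f j)) f := lp.hasSum_single (by norm_num) f
    have h2 := (h1.mapL p).mapL (ampL x)
    have h3 := (h1.mapL (ampL x)).mapL p
    have h4 : (fun j => p (ampL x (lp.single 2 j (f j)))) =
        fun j => ampL x (p (lp.single 2 j (f j))) := by
      funext j
      ext i
      rw [hsingle, ampL_apply, ← hq, ← hq, hxq]
    rw [h4] at h3
    exact h2.unique h3
  have h1V : io hξ 1 ∈ V :=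
    Submodule.le_topologicalClosure _ ⟨1, S.one_mem, rfl⟩
  have hxV : io hξ x ∈ V := by
    have e1 : io hξ x = ampL x (io hξ 1) := by ext n; rfl
    have e2 : p (io hξ 1) = io hξ 1 := Submodule.starProjection_eq_self_iff.2 h1V
    rw [e1, ← e2, hxp]
    exact Submodule.starProjection_apply_mem _ _
  obtain ⟨g, ⟨y, hy, rfl⟩, hg⟩ := Metric.mem_closure_iff.1 (show io hξ x ∈ closure _ from hxV) ε hε
  refine ⟨y, hy, ?_⟩
  rw [dist_comm, dist_eq_norm, ← map_sub, norm_io] at hg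
  exact hg

/-- density lemma for generated von Neumann algebras: every `x` lying in all von Neumann algebras
containing the unital star subalgebra `S` is a 2-norm limit of elements of `S`. -/
theorem exists_near_of_forall_vn {ξ : ℕ → H} (hξ : SqSum ξ)
    (S : StarSubalgebra ℂ (H →L[ℂ] H)) {x : H →L[ℂ] H}
    (hx : ∀ N : VonNeumannAlgebra H, (∀ s ∈ S, s ∈ N) → x ∈ N) {ε : ℝ} (hε : 0 < ε) :
    ∃ y ∈ S, N2 ξ (y - x) < ε := by
  refine exists_near_of_centralizer hξ S ?_ hε
  have h := hx (vnGen (S : Set (H →L[ℂ] H))) ?_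
  · have h' : x ∈ ((StarSubalgebra.centralizer ℂ
      ((StarSubalgebra.centralizer ℂ (S : Set (H →L[ℂ] H)) : StarSubalgebra ℂ (H →L[ℂ] H)) :
        Set (H →L[ℂ] H)) : StarSubalgebra ℂ (H →L[ℂ] H)) : Set (H →L[ℂ] H)) := h
    rw [StarSubalgebra.coe_centralizer_centralizer] at h'
    have hs : (S : Set (H →L[ℂ] H)) ∪ star (S : Set (H →L[ℂ] H)) = S := by
      rw [Set.union_eq_left]
      intro s hs
      have := star_mem (s := S) (show star s ∈ S from hs)
      rwa [star_star] at this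
    rwa [hs] at h'
  · intro s hs
    change s ∈ ((StarSubalgebra.centralizer ℂ
      ((StarSubalgebra.centralizer ℂ (S : Set (H →L[ℂ] H)) : StarSubalgebra ℂ (H →L[ℂ] H)) :
        Set (H →L[ℂ] H)) : StarSubalgebra ℂ (H →L[ℂ] H)) : Set (H →L[ℂ] H))
    rw [StarSubalgebra.coe_centralizer_centralizer]
    exact Set.subset_centralizer_centralizer (Or.inl hs)

theorem coe_vnGen (S : Set (H →L[ℂ] H)) :
    ((vnGen S : VonNeumannAlgebra H) : Set (H →L[ℂ] H)) = (S ∪ star S).centralizer.centralizer := by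
  change ((StarSubalgebra.centralizer ℂ ((StarSubalgebra.centralizer ℂ S :
      StarSubalgebra ℂ (H →L[ℂ] H)) : Set (H →L[ℂ] H)) : StarSubalgebra ℂ (H →L[ℂ] H)) :
        Set (H →L[ℂ] H)) = _
  rw [StarSubalgebra.coe_centralizer_centralizer]

theorem subset_vnGen (S : Set (H →L[ℂ] H)) : ∀ s ∈ S, s ∈ vnGen S := by
  intro s hs
  rw [← SetLike.mem_coe, coe_vnGen]
  exact Set.subset_centralizer_centralizer (Or.inl hs)

theorem vnGen_le {S : Set (H →L[ℂ] H)} {N : VonNeumannAlgebra H} (h : ∀ s ∈ S, s ∈ N) :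
    vnGen S ≤ N := by
  intro x hx
  rw [← SetLike.mem_coe, coe_vnGen] at hx
  rw [← SetLike.mem_coe, ← VonNeumannAlgebra.centralizer_centralizer]
  have hsub : S ∪ star S ⊆ (N : Set (H →L[ℂ] H)) := by
    rintro s (hs | hs)
    · exact h s hs
    · have := star_mem (h _ hs)
      rwa [star_star] at this
  exact Set.centralizer_subset (Set.centralizer_subset hsub) hx

theorem mem_vnGen_iff {S : Set (H →L[ℂ] H)} {x : H →L[ℂ] H} :
    x ∈ vnGen S ↔ ∀ N : VonNeumannAlgebra H, (∀ s ∈ S, s ∈ N) → x ∈ N :=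
  ⟨fun hx _ hN => vnGen_le hN hx, fun h => h _ (subset_vnGen S)⟩

/-- density lemma for `vnGen`: elements of `vnGen S` are 2-norm limits of elements of the unital
star algebra generated by `S`. -/
theorem exists_near_of_mem_vnGen {ξ : ℕ → H} (hξ : SqSum ξ) {S : Set (H →L[ℂ] H)}
    {x : H →L[ℂ] H} (hx : x ∈ vnGen S) {ε : ℝ} (hε : 0 < ε) :
    ∃ y ∈ StarAlgebra.adjoin ℂ S, N2 ξ (y - x) < ε := by
  refine exists_near_of_forall_vn hξ _ (fun N hN => ?_) hε
  exact mem_vnGen_iff.1 hx N fun s hs => hN s (StarAlgebra.subset_adjoin ℂ S hs)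

end density

section core

/-- commuting pairs of anticommuting self-adjoint unitaries in a C*-algebra -/
def PauliPairs {A : Type u} [CStarAlgebra A] (u v : ℕ → A) : Prop :=
  (∀ j, IsSelfAdjoint (u j) ∧ IsSelfAdjoint (v j) ∧
    u j * u j = 1 ∧ v j * v j = 1 ∧ u j * v j = -(v j * u j)) ∧
  (∀ j k, j ≠ k → u j * u k = u k * u j ∧ u j * v k = v k * u j ∧ v j * v k = v k * v j)

/-- the abstract core statement (the key lemma (*)), to be proved in `Core.lean` -/
def CoreStatement : Prop :=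
  ∀ (A : Type u) [CStarAlgebra A] (T : TracialState A) (u v : ℕ → A), PauliPairs u v →
    ∀ R s₀ : ℝ, 0 < s₀ → ∃ κ : ℝ, 0 < κ ∧ ∀ y₀ : A, IsSelfAdjoint y₀ → ‖y₀‖ ≤ R →
      s₀ ≤ T.nrm2 y₀ → ∀ X : A, IsSelfAdjoint X → ∀ ε : ℝ, 0 < ε →
        ∃ Z Y : A, IsSelfAdjoint Z ∧ T.nrm2 (Z - X) < ε ∧ T.nrm2 Y ≤ 1 ∧
          κ ≤ (T.τ (Y * y₀)).re ∧
          ∀ S : StarSubalgebra ℂ A, IsClosed (S : Set A) → (∀ j, u j ∈ S ∧ v j ∈ S) → Z ∈ S → Y ∈ S

variable {H : Type u} [NormedAddCommGroup H] [InnerProductSpace ℂ H] [CompleteSpace H]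

/-- the concrete form of the core statement -/
theorem core_concrete_of (hcore : CoreStatement.{u}) {M : VonNeumannAlgebra H} {ξ : ℕ → H}
    (hξ : IsFaithfulTracialVectorState M ξ) {u v : ℕ → H →L[ℂ] H} (huv : HasPauli M u v)
    (R s₀ : ℝ) (hs₀ : 0 < s₀) :
    ∃ κ : ℝ, 0 < κ ∧ ∀ y₀ ∈ M, IsSelfAdjoint y₀ → ‖y₀‖ ≤ R → s₀ ≤ N2 ξ y₀ →
      ∀ X ∈ M, IsSelfAdjoint X → ∀ ε : ℝ, 0 < ε →
        ∃ Z ∈ M, ∃ Y ∈ M, IsSelfAdjoint Z ∧ N2 ξ (Z - X) < ε ∧ N2 ξ Y ≤ 1 ∧
          κ ≤ (vectorState ξ (Y * y₀)).re ∧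
          ∀ N : VonNeumannAlgebra H, (∀ j, u j ∈ N ∧ v j ∈ N) → Z ∈ N → Y ∈ N := by
  let u' : ℕ → M.toStarSubalgebra := fun j => ⟨u j, (huv.1 j).1⟩
  let v' : ℕ → M.toStarSubalgebra := fun j => ⟨v j, (huv.1 j).2.1⟩
  have hp : PauliPairs u' v' := by
    refine ⟨fun j => ?_, fun j k hjk => ?_⟩
    · obtain ⟨-, -, h1, h2, h3, h4, h5⟩ := huv.1 j
      exact ⟨Subtype.ext h1, Subtype.ext h2, Subtype.ext h3, Subtype.ext h4, Subtype.ext h5⟩
    · obtain ⟨h1, h2, h3⟩ := huv.2 j k hjk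
      exact ⟨Subtype.ext h1, Subtype.ext h2, Subtype.ext h3⟩
  obtain ⟨κ, hκ, hmain⟩ := hcore M.toStarSubalgebra (vnTrace hξ) u' v' hp R s₀ hs₀
  refine ⟨κ, hκ, fun y₀ hy₀ hsa hR hs X hX hXsa ε hε => ?_⟩
  obtain ⟨Z, Y, hZsa, hZX, hY1, hcorr, halg⟩ := hmain ⟨y₀, hy₀⟩ (Subtype.ext hsa) hR
    (by rw [vnTrace_nrm2]; exact hs) ⟨X, hX⟩ (Subtype.ext hXsa) ε hε
  refine ⟨Z, Z.2, Y, Y.2, congrArg Subtype.val hZsa, ?_, ?_, hcorr, ?_⟩
  · rw [vnTrace_nrm2] at hZX; exact hZX
  · rw [vnTrace_nrm2] at hY1; exact hY1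
  · intro N hN hZN
    have h := halg (N.toStarSubalgebra.comap M.toStarSubalgebra.subtype) ?_ ?_ ?_
    · exact h
    · exact (isClosed_vn N).preimage continuous_subtype_val
    · exact fun j => hN j
    · exact hZN

end core

end Crest.Agent.R95
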