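import Crest.Agent.R95.Factor4
import Crest.Agent.R95.Defs

/-! Pairs of anticommuting self-adjoint unitaries in a II₁ factor; the relative commutant of such
a pair is again a II₁ factor (same trace vectors); infinite sequence of commuting pairs. -/

set_option autoImplicit false

namespace Crest.Agent.R95

open scoped InnerProductSpace
open Filter Topology Crest.OpAlg

variable {H : Type*} [NormedAddCommGroup H] [InnerProductSpace ℂ H] [CompleteSpace H]

/-- Relative commutant of a pair in `M`. -/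
noncomputable def relComm (M : VonNeumannAlgebra H) (u v : H →L[ℂ] H) : VonNeumannAlgebra H :=
  commSet ((M.commutant : Set (H →L[ℂ] H)) ∪ {u, v})

theorem mem_relComm {M : VonNeumannAlgebra H} {u v x : H →L[ℂ] H} (hu : star u = u)
    (hv : star v = v) : x ∈ relComm M u v ↔ x ∈ M ∧ u * x = x * u ∧ v * x = x * v := by
  rw [relComm, mem_commSet]
  constructor
  · intro h
    refine ⟨?_, (h u (Or.inr (Or.inl rfl))).1, (h v (Or.inr (Or.inr rfl))).1⟩
    apply mem_of_comm
    intro y hy
    exact (h y (Or.inl hy)).1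
  · rintro ⟨h1, h2, h3⟩ y hy
    rcases hy with hy | hy | hy
    · exact ⟨(comm_of_mem h1 hy).symm, (comm_of_mem h1 (star_mem hy)).symm⟩
    · rw [hy]; exact ⟨h2, by rw [hu]; exact h2⟩
    · rw [Set.mem_singleton_iff.mp hy]; exact ⟨h3, by rw [hv]; exact h3⟩

/-- an anticommuting pair of self-adjoint unitaries -/
structure ACPair (u v : H →L[ℂ] H) : Prop where
  us : star u = u
  vs : star v = v
  uu : u * u = 1
  vv : v * v = 1
  anti : u * v = -(v * u)

theorem exists_acpair {M : VonNeumannAlgebra H} {ξ : ℕ → H}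
    (hξ : IsFaithfulTracialVectorState M ξ) (hM : IsFactor M)
    (hinf : ¬ FiniteDimensional ℂ M.toStarSubalgebra) :
    ∃ u ∈ M, ∃ v ∈ M, ACPair u v := by
  obtain ⟨w, hw, hw1⟩ := exists_half hξ hM hinf
  have hsq : w * w = 0 := hw.sq
  have hss : star w * star w = 0 := by
    have := congrArg star hsq
    simpa only [star_mul, star_zero] using this
  have hpi : w * star w * w = w := hw.pi
  have hpi' : star w * w * star w = star w := by
    have := congrArg star hpi
    simpa only [star_mul, star_star, mul_assoc] using this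
  refine ⟨star w * w - w * star w, sub_mem (mul_mem (star_mem hw.mem) hw.mem)
    (mul_mem hw.mem (star_mem hw.mem)), w + star w, add_mem hw.mem (star_mem hw.mem), ?_⟩
  refine ⟨by simp, by simp [add_comm], ?_, ?_, ?_⟩
  · have e : (star w * w - w * star w) * (star w * w - w * star w) =
        star w * (w * star w * w) + (w * star w * w) * star w - star w * (w * w) * star w
          - w * (star w * star w) * w := by noncomm_ring
    rw [e, hpi, hsq, hss]
    simp [hw1]
  · have e : (w + star w) * (w + star w) = w * w + star w * star w + (star w * w + w * star w) := by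
      noncomm_ring
    rw [e, hsq, hss, hw1]; simp
  · have e1 : (star w * w - w * star w) * (w + star w) =
        star w * (w * w) + star w * w * star w - w * star w * w - w * (star w * star w) := by
      noncomm_ring
    have e2 : (w + star w) * (star w * w - w * star w) =
        w * star w * w - (w * w) * star w + (star w * star w) * w - star w * w * star w := by
      noncomm_ring
    rw [e1, e2, hsq, hss, hpi, hpi']
    simp

section rel

variable {M : VonNeumannAlgebra H} {u v : H →L[ℂ] H}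

/-- averaging over the pair -/
noncomputable def Eav (u v y : H →L[ℂ] H) : H →L[ℂ] H :=
  (4 : ℂ)⁻¹ • (y + u * y * u + v * y * v + u * v * y * (v * u))

theorem Eav_mem (h : ACPair u v) (hu : u ∈ M) (hv : v ∈ M) {y : H →L[ℂ] H} (hy : y ∈ M) :
    Eav u v y ∈ relComm M u v := by
  have a1 : ∀ z, u * (u * z) = z := fun z => by rw [← mul_assoc, h.uu, one_mul]
  have a2 : ∀ z, v * (v * z) = z := fun z => by rw [← mul_assoc, h.vv, one_mul]
  have a3 : ∀ z, v * (u * z) = -(u * (v * z)) := fun z => by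
    rw [← mul_assoc, ← mul_assoc, h.anti, neg_mul, neg_neg]
  have a4 : v * u = -(u * v) := by rw [h.anti, neg_neg]
  rw [mem_relComm h.us h.vs]
  refine ⟨?_, ?_, ?_⟩
  · exact smul_mem' _ (add_mem (add_mem (add_mem hy (mul_mem (mul_mem hu hy) hu))
      (mul_mem (mul_mem hv hy) hv)) (mul_mem (mul_mem (mul_mem hu hv) hy) (mul_mem hv hu)))
  · simp only [Eav, mul_smul_comm, smul_mul_assoc]
    congr 1
    simp only [mul_add, add_mul, mul_assoc, a1, a2, a3, a4, h.uu, h.vv, mul_neg, neg_mul, mul_one,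
      neg_neg]
    abel
  · simp only [Eav, mul_smul_comm, smul_mul_assoc]
    congr 1
    simp only [mul_add, add_mul, mul_assoc, a1, a2, a3, a4, h.uu, h.vv, mul_neg, neg_mul, mul_one,
      neg_neg]
    abel

theorem decomp_pair (h : ACPair u v) (y : H →L[ℂ] H) :
    y = Eav u v y + Eav u v (y * u) * u + Eav u v (y * v) * v + Eav u v (y * (v * u)) * (u * v) := by
  have a1 : ∀ z, u * (u * z) = z := fun z => by rw [← mul_assoc, h.uu, one_mul]
  have a2 : ∀ z, v * (v * z) = z := fun z => by rw [← mul_assoc, h.vv, one_mul]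
  have a3 : ∀ z, v * (u * z) = -(u * (v * z)) := fun z => by
    rw [← mul_assoc, ← mul_assoc, h.anti, neg_mul, neg_neg]
  have a4 : v * u = -(u * v) := by rw [h.anti, neg_neg]
  simp only [Eav, smul_mul_assoc, ← smul_add]
  rw [eq_comm, inv_smul_eq_iff₀ (by norm_num : (4 : ℂ) ≠ 0)]
  simp only [add_mul, mul_assoc, a1, a2, a3, a4, h.uu, h.vv, mul_neg, neg_mul, mul_one,
      neg_neg]
  have : (4 : ℂ) • y = y + y + y + y := by
    rw [show (4 : ℂ) = 1 + 1 + 1 + 1 by norm_num]
    simp only [add_smul, one_smul]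
  rw [this]
  abel

theorem relComm_factor (h : ACPair u v) (hu : u ∈ M) (hv : v ∈ M) (hM : IsFactor M) :
    IsFactor (relComm M u v) := by
  intro x hx hcomm
  have hx' := (mem_relComm h.us h.vs).mp hx
  apply hM x hx'.1
  intro y hy
  have c : ∀ z ∈ M, x * Eav u v z = Eav u v z * x := fun z hz => hcomm _ (Eav_mem h hu hv hz)
  have d1 : x * u = u * x := hx'.2.1.symm
  have d2 : x * v = v * x := hx'.2.2.symm
  rw [decomp_pair h y]
  have c1 := c y hy
  have c2 := c _ (mul_mem hy hu)
  have c3 := c _ (mul_mem hy hv)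
  have c4 := c _ (mul_mem hy (mul_mem hv hu))
  simp only [mul_add, add_mul]
  rw [c1]
  congr 1
  · congr 1
    · congr 1
      rw [← mul_assoc, c2, mul_assoc, d1, ← mul_assoc]
    · rw [← mul_assoc, c3, mul_assoc, d2, ← mul_assoc]
  · rw [← mul_assoc, c4, mul_assoc, ← mul_assoc x u v, d1, mul_assoc u x v, d2]
    simp only [mul_assoc]

theorem relComm_inf (h : ACPair u v) (hu : u ∈ M) (hv : v ∈ M)
    (hinf : ¬ FiniteDimensional ℂ M.toStarSubalgebra) :
    ¬ FiniteDimensional ℂ (relComm M u v).toStarSubalgebra := by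
  intro hfin
  apply hinf
  set N := relComm M u v with hN
  set S : Submodule ℂ (H →L[ℂ] H) := N.toStarSubalgebra.toSubalgebra.toSubmodule with hS
  have hSfin : FiniteDimensional ℂ S := hfin
  have hle : M.toStarSubalgebra.toSubalgebra.toSubmodule ≤
      S ⊔ S.map (LinearMap.mulRight ℂ u) ⊔ S.map (LinearMap.mulRight ℂ v) ⊔
        S.map (LinearMap.mulRight ℂ (u * v)) := by
    intro y hy
    have hy' : y ∈ M := hy
    rw [decomp_pair h y]
    refine Submodule.add_mem _ (Submodule.add_mem _ (Submodule.add_mem _ ?_ ?_) ?_) ?_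
    · apply Submodule.mem_sup_left
      apply Submodule.mem_sup_left
      apply Submodule.mem_sup_left
      exact Eav_mem h hu hv hy'
    · apply Submodule.mem_sup_left
      apply Submodule.mem_sup_left
      apply Submodule.mem_sup_right
      exact ⟨_, Eav_mem h hu hv (mul_mem hy' hu), rfl⟩
    · apply Submodule.mem_sup_left
      apply Submodule.mem_sup_right
      exact ⟨_, Eav_mem h hu hv (mul_mem hy' hv), rfl⟩
    · apply Submodule.mem_sup_right
      exact ⟨_, Eav_mem h hu hv (mul_mem hy' (mul_mem hv hu)), rfl⟩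
  exact Submodule.finiteDimensional_of_le hle

theorem relComm_faithful {ξ : ℕ → H} (h : ACPair u v) (hξ : IsFaithfulTracialVectorState M ξ) :
    IsFaithfulTracialVectorState (relComm M u v) ξ := by
  refine ⟨hξ.1, ?_, ?_⟩
  · intro x hx y hy
    exact hξ.2.1 x ((mem_relComm h.us h.vs).mp hx).1 y ((mem_relComm h.us h.vs).mp hy).1
  · intro x hx hx0
    exact hξ.2.2 x ((mem_relComm h.us h.vs).mp hx).1 hx0

end rel

/-- The data carried along the induction: a II₁ factor with the fixed trace vectors. -/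
structure IsII1 (M : VonNeumannAlgebra H) (ξ : ℕ → H) : Prop where
  fac : IsFactor M
  inf : ¬ FiniteDimensional ℂ M.toStarSubalgebra
  tr : IsFaithfulTracialVectorState M ξ

theorem IsII1.relComm {M : VonNeumannAlgebra H} {ξ : ℕ → H} (hM : IsII1 M ξ)
    {u v : H →L[ℂ] H} (h : ACPair u v) (hu : u ∈ M) (hv : v ∈ M) : IsII1 (relComm M u v) ξ :=
  ⟨relComm_factor h hu hv hM.fac, relComm_inf h hu hv hM.inf, relComm_faithful h hM.tr⟩

theorem IsII1.isTypeIIOne {M : VonNeumannAlgebra H} {ξ : ℕ → H} (hM : IsII1 M ξ) :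
    IsTypeIIOneFactor M := ⟨hM.fac, hM.inf, ξ, hM.tr⟩

/-- Every II₁ factor contains an infinite sequence of commuting pairs of anticommuting
self-adjoint unitaries. -/
theorem IsII1.exists_hasPauli {M : VonNeumannAlgebra H} {ξ : ℕ → H} (hM : IsII1 M ξ) :
    ∃ u v : ℕ → H →L[ℂ] H, HasPauli M u v := by
  have step : ∀ N : {N : VonNeumannAlgebra H // IsII1 N ξ}, ∃ uv : (H →L[ℂ] H) × (H →L[ℂ] H),
      uv.1 ∈ N.1 ∧ uv.2 ∈ N.1 ∧ ACPair uv.1 uv.2 := by
    rintro ⟨N, hN⟩
    obtain ⟨u, hu, v, hv, huv⟩ := exists_acpair hN.tr hN.fac hN.inf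
    exact ⟨(u, v), hu, hv, huv⟩
  choose f hf1 hf2 hf3 using step
  let nxt : {N : VonNeumannAlgebra H // IsII1 N ξ} → {N : VonNeumannAlgebra H // IsII1 N ξ} :=
    fun N => ⟨Crest.Agent.R95.relComm N.1 (f N).1 (f N).2, N.2.relComm (hf3 N) (hf1 N) (hf2 N)⟩
  let A : ℕ → {N : VonNeumannAlgebra H // IsII1 N ξ} := fun n => nxt^[n] ⟨M, hM⟩
  have hA0 : A 0 = ⟨M, hM⟩ := rfl
  have hAs : ∀ n, A (n + 1) = nxt (A n) := fun n => Function.iterate_succ_apply' nxt n _
  have hanti : ∀ n x, x ∈ (A (n + 1)).1 → x ∈ (A n).1 ∧ (f (A n)).1 * x = x * (f (A n)).1 ∧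
      (f (A n)).2 * x = x * (f (A n)).2 := by
    intro n x hx
    rw [hAs] at hx
    exact (mem_relComm (hf3 (A n)).us (hf3 (A n)).vs).mp hx
  have hle : ∀ n m, n ≤ m → ∀ x, x ∈ (A m).1 → x ∈ (A n).1 := by
    intro n m hnm
    induction m, hnm using Nat.le_induction with
    | base => exact fun x hx => hx
    | succ m hnm ih => exact fun x hx => ih x (hanti m x hx).1
  have hcomm : ∀ n m, n < m → ∀ x, x ∈ (A m).1 → (f (A n)).1 * x = x * (f (A n)).1 ∧
      (f (A n)).2 * x = x * (f (A n)).2 := by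
    intro n m hnm x hx
    exact (hanti n x (hle (n + 1) m hnm x hx)).2
  refine ⟨fun n => (f (A n)).1, fun n => (f (A n)).2, ?_, ?_⟩
  · intro j
    have h := hf3 (A j)
    exact ⟨hle 0 j (Nat.zero_le j) _ (hf1 (A j)), hle 0 j (Nat.zero_le j) _ (hf2 (A j)), h.us,
      h.vs, h.uu, h.vv, h.anti⟩
  · intro j k hjk
    rcases lt_or_gt_of_ne hjk with h | h
    · obtain ⟨c1, c2⟩ := hcomm j k h _ (hf1 (A k))
      obtain ⟨c3, c4⟩ := hcomm j k h _ (hf2 (A k))
      exact ⟨c1, c3, c4⟩
    · obtain ⟨c1, c2⟩ := hcomm k j h _ (hf1 (A j))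
      obtain ⟨c3, c4⟩ := hcomm k j h _ (hf2 (A j))
      exact ⟨c1.symm, c2.symm, c4.symm⟩

theorem hasPauli_of_factor (P : VonNeumannAlgebra H) (hP : IsTypeIIOneFactor P) :
    ∃ u v : ℕ → H →L[ℂ] H, HasPauli P u v := by
  obtain ⟨h1, h2, ξ, h3⟩ := hP
  exact IsII1.exists_hasPauli (ξ := ξ) ⟨h1, h2, h3⟩

end Crest.Agent.R95
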