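import Crest.Agent.R95.Defs

/-!
Row 95 (S0125/S0126): Pauli systems inside a C*-algebra, conditional expectation onto the
relative commutant, coordinates.  (helper449)
-/

set_option autoImplicit false
set_option linter.unusedSectionVars false

namespace Crest.Agent.R95

open Finset

namespace PauliSys

variable {A : Type*} [CStarAlgebra A] {ι : Type} [Fintype ι] [DecidableEq ι]

section Basic

variable (F : PauliSys A ι)

include F in
theorem card_pos : 0 < Fintype.card ι := Fintype.card_pos_iff.mpr ⟨F.o⟩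

include F in
theorem card_ne : (Fintype.card ι : ℂ) ≠ 0 := by
  exact_mod_cast F.card_pos.ne'

theorem star_f (i : ι) : star (F.f i) = F.f i := F.sa i

theorem c_mul_self (i j : ι) : F.c i j * F.c i j = 1 := by
  rcases F.c_sq i j with h | h <;> rw [h] <;> norm_num

theorem mem_unitary (i : ι) : F.f i ∈ unitary A := by
  rw [Unitary.mem_iff, F.star_f]
  exact ⟨F.sq i, F.sq i⟩

theorem norm_f_le (i : ι) : ‖F.f i‖ ≤ 1 := by
  rcases subsingleton_or_nontrivial A with h | h
  · rw [Subsingleton.elim (F.f i) 0, norm_zero]; exact zero_le_one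
  · exact (CStarRing.norm_of_mem_unitary (F.mem_unitary i)).le

theorem E_def (x : A) : F.E x = ((Fintype.card ι : ℂ)⁻¹) • ∑ i, F.f i * x * F.f i := rfl

theorem E_add (x y : A) : F.E (x + y) = F.E x + F.E y := by
  simp only [E_def, mul_add, add_mul, Finset.sum_add_distrib, smul_add]

theorem E_smul (r : ℂ) (x : A) : F.E (r • x) = r • F.E x := by
  simp only [E_def, mul_smul_comm, smul_mul_assoc, ← Finset.smul_sum]
  rw [smul_comm]

/-- `E` as a linear map -/
noncomputable def El : A →ₗ[ℂ] A where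
  toFun := F.E
  map_add' := F.E_add
  map_smul' := F.E_smul

theorem El_apply (x : A) : F.El x = F.E x := rfl

theorem E_zero : F.E 0 = 0 := map_zero F.El
theorem E_neg (x : A) : F.E (-x) = -F.E x := map_neg F.El x
theorem E_sub (x y : A) : F.E (x - y) = F.E x - F.E y := map_sub F.El x y
theorem E_sum {α : Type*} (s : Finset α) (x : α → A) :
    F.E (∑ k ∈ s, x k) = ∑ k ∈ s, F.E (x k) := map_sum F.El x s

theorem exists_perm_conj (j : ι) : ∃ σ : Equiv.Perm ι, ∀ (i : ι) (x : A),
    F.f j * (F.f i * x * F.f i) * F.f j = F.f (σ i) * x * F.f (σ i) := by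
  obtain ⟨σ, hσ⟩ := F.perm j
  refine ⟨σ, fun i x => ?_⟩
  obtain ⟨z, hz, h⟩ := hσ i
  have h1 : F.f i * F.f j = star z • F.f (σ i) := by
    have := congrArg star h
    rw [star_mul, F.star_f, F.star_f, star_smul, F.star_f] at this
    exact this
  have hz2 : z * star z = 1 := by
    have := Complex.mul_conj z
    rw [Complex.normSq_eq_norm_sq, hz] at this
    simpa using this
  calc F.f j * (F.f i * x * F.f i) * F.f j = (F.f j * F.f i) * x * (F.f i * F.f j) := by
        noncomm_ring
    _ = _ := by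
        rw [h, h1]
        simp only [smul_mul_assoc, mul_smul_comm, smul_smul]
        rw [mul_comm (star z) z, hz2, one_smul]

theorem conj_E (j : ι) (x : A) : F.f j * F.E x * F.f j = F.E x := by
  obtain ⟨σ, hσ⟩ := F.exists_perm_conj j
  rw [E_def, mul_smul_comm, smul_mul_assoc, Finset.mul_sum, Finset.sum_mul]
  congr 1
  simp_rw [hσ]
  exact Equiv.sum_comp σ (fun i => F.f i * x * F.f i)

theorem E_inQ (x : A) : F.InQ (F.E x) := by
  intro j
  have h := F.conj_E j x
  calc F.f j * F.E x = F.f j * F.E x * (F.f j * F.f j) := by rw [F.sq, mul_one]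
    _ = (F.f j * F.E x * F.f j) * F.f j := by noncomm_ring
    _ = F.E x * F.f j := by rw [h]

theorem conj_of_inQ {q : A} (hq : F.InQ q) (i : ι) : F.f i * q * F.f i = q := by
  rw [hq i, mul_assoc, F.sq, mul_one]

theorem E_of_inQ {q : A} (hq : F.InQ q) : F.E q = q := by
  rw [E_def]
  simp_rw [F.conj_of_inQ hq]
  rw [Finset.sum_const, Finset.card_univ, ← Nat.cast_smul_eq_nsmul ℂ, smul_smul,
    inv_mul_cancel₀ F.card_ne, one_smul]

theorem inQ_one : F.InQ 1 := fun i => by rw [mul_one, one_mul]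

theorem inQ_zero : F.InQ 0 := fun i => by rw [mul_zero, zero_mul]

theorem inQ_mul {p q : A} (hp : F.InQ p) (hq : F.InQ q) : F.InQ (p * q) := fun i => by
  rw [← mul_assoc, hp i, mul_assoc, hq i, mul_assoc]

theorem inQ_add {p q : A} (hp : F.InQ p) (hq : F.InQ q) : F.InQ (p + q) := fun i => by
  rw [mul_add, add_mul, hp i, hq i]

theorem inQ_neg {p : A} (hp : F.InQ p) : F.InQ (-p) := fun i => by
  rw [mul_neg, neg_mul, hp i]

theorem inQ_sub {p q : A} (hp : F.InQ p) (hq : F.InQ q) : F.InQ (p - q) := fun i => by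
  rw [mul_sub, sub_mul, hp i, hq i]

theorem inQ_smul {p : A} (r : ℂ) (hp : F.InQ p) : F.InQ (r • p) := fun i => by
  rw [mul_smul_comm, smul_mul_assoc, hp i]

theorem inQ_star {p : A} (hp : F.InQ p) : F.InQ (star p) := fun i => by
  have := congrArg star (hp i)
  rw [star_mul, star_mul, F.star_f] at this
  exact this.symm

theorem inQ_sum {α : Type*} (s : Finset α) (p : α → A) (h : ∀ k ∈ s, F.InQ (p k)) :
    F.InQ (∑ k ∈ s, p k) := fun i => by
  rw [Finset.mul_sum, Finset.sum_mul]
  exact Finset.sum_congr rfl fun k hk => h k hk i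

theorem inQ_pow {p : A} (hp : F.InQ p) (n : ℕ) : F.InQ (p ^ n) := by
  induction n with
  | zero => rw [pow_zero]; exact F.inQ_one
  | succ n ih => rw [pow_succ]; exact F.inQ_mul ih hp

theorem inQ_inverse {p : A} (hp : F.InQ p) : F.InQ (Ring.inverse p) := fun i => by
  by_cases hu : IsUnit p
  · obtain ⟨u, rfl⟩ := hu
    rw [Ring.inverse_unit]
    exact Commute.units_inv_right (hp i)
  · rw [Ring.inverse_non_unit _ hu, mul_zero, zero_mul]

theorem inQ_res {p : A} (hp : F.InQ p) : F.InQ (res p) :=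
  F.inQ_inverse (F.inQ_sub F.inQ_one (F.inQ_smul _ hp))

theorem inQ_cay {p : A} (hp : F.InQ p) : F.InQ (cay p) :=
  F.inQ_mul (F.inQ_add F.inQ_one (F.inQ_smul _ hp)) (F.inQ_res hp)

theorem inQ_pr {g : ℕ → A} {k : ℕ} (h : ∀ l < k, F.InQ (g l)) : F.InQ (pr g k) := by
  induction k with
  | zero => exact F.inQ_one
  | succ k ih => exact F.inQ_mul (ih fun l hl => h l (by omega)) (h k (by omega))

theorem E_one : F.E 1 = 1 := F.E_of_inQ F.inQ_one

theorem E_E (x : A) : F.E (F.E x) = F.E x := F.E_of_inQ (F.E_inQ x)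

theorem E_mul_left {q : A} (hq : F.InQ q) (x : A) : F.E (q * x) = q * F.E x := by
  rw [E_def, E_def, mul_smul_comm, Finset.mul_sum]
  congr 1
  refine Finset.sum_congr rfl fun i _ => ?_
  calc F.f i * (q * x) * F.f i = (F.f i * q) * x * F.f i := by noncomm_ring
    _ = q * (F.f i * x * F.f i) := by rw [hq i]; noncomm_ring

theorem E_mul_right {q : A} (hq : F.InQ q) (x : A) : F.E (x * q) = F.E x * q := by
  rw [E_def, E_def, smul_mul_assoc, Finset.sum_mul]
  congr 1
  refine Finset.sum_congr rfl fun i _ => ?_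
  calc F.f i * (x * q) * F.f i = F.f i * x * (q * F.f i) := by noncomm_ring
    _ = F.f i * x * F.f i * q := by rw [← hq i]; noncomm_ring

theorem E_star (x : A) : F.E (star x) = star (F.E x) := by
  rw [E_def, E_def, star_smul, star_sum]
  congr 1
  · simp
  · refine Finset.sum_congr rfl fun i _ => ?_
    rw [star_mul, star_mul, F.star_f, mul_assoc]

theorem norm_E_le (x : A) : ‖F.E x‖ ≤ ‖x‖ := by
  have hN : (0 : ℝ) < Fintype.card ι := by exact_mod_cast F.card_pos
  have h1 : ‖∑ i, F.f i * x * F.f i‖ ≤ (Fintype.card ι : ℝ) * ‖x‖ := by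
    calc ‖∑ i, F.f i * x * F.f i‖ ≤ ∑ _i : ι, ‖x‖ := by
          refine norm_sum_le_of_le _ fun i _ => ?_
          calc ‖F.f i * x * F.f i‖ ≤ ‖F.f i‖ * ‖x‖ * ‖F.f i‖ :=
                (norm_mul_le _ _).trans
                  (mul_le_mul_of_nonneg_right (norm_mul_le _ _) (norm_nonneg _))
            _ ≤ 1 * ‖x‖ * 1 := by
                gcongr
                · exact F.norm_f_le i
                · exact F.norm_f_le i
            _ = ‖x‖ := by ring
      _ = _ := by simp
  rw [E_def, norm_smul, norm_inv, Complex.norm_natCast]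
  rw [inv_mul_le_iff₀ hN]
  exact h1

theorem f_mul_f_mul_f (k i : ι) : F.f k * F.f i * F.f k = (F.c k i : ℂ) • F.f i := by
  rw [F.comm k i, smul_mul_assoc, mul_assoc, F.sq, mul_one]

theorem E_ff (i j : ι) : F.E (F.f i * F.f j) = if i = j then 1 else 0 := by
  rw [E_def]
  have h : ∀ k, F.f k * (F.f i * F.f j) * F.f k
      = ((F.c k i * F.c k j : ℝ) : ℂ) • (F.f i * F.f j) := by
    intro k
    calc F.f k * (F.f i * F.f j) * F.f k
        = (F.f k * F.f i * F.f k) * (F.f k * F.f j * F.f k) := by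
          have : F.f k * (F.f i * F.f j) * F.f k
              = F.f k * F.f i * (F.f k * F.f k) * F.f j * F.f k := by
            rw [F.sq]; noncomm_ring
          rw [this]; noncomm_ring
      _ = _ := by
          rw [F.f_mul_f_mul_f, F.f_mul_f_mul_f, smul_mul_assoc, mul_smul_comm, smul_smul,
            Complex.ofReal_mul]
  simp_rw [h]
  rw [← Finset.sum_smul, ← Complex.ofReal_sum, F.ortho, smul_smul]
  split_ifs with hij
  · subst hij
    rw [F.sq, Complex.ofReal_natCast, inv_mul_cancel₀ F.card_ne, one_smul]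
  · rw [Complex.ofReal_zero, mul_zero, zero_smul]

theorem E_fqf {q : A} (hq : F.InQ q) (i j : ι) :
    F.E (F.f i * F.f j * q) = if i = j then q else 0 := by
  rw [F.E_mul_right hq, F.E_ff]
  split_ifs <;> simp

theorem c_o [Nontrivial A] (i : ι) : F.c i F.o = 1 := by
  rcases F.c_sq i F.o with h | h
  · exact h
  · exfalso
    have h1 := F.comm i F.o
    rw [F.f_o, mul_one, one_mul, h] at h1
    have h2 : (2 : ℂ) • F.f i = 0 := by
      rw [two_smul]
      nth_rw 1 [h1]
      simp
    have h3 : F.f i = 0 := by simpa using h2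
    have h4 := F.sq i
    rw [h3, mul_zero] at h4
    exact zero_ne_one h4

theorem sum_f_mul_f_mul_f (j : ι) :
    ∑ i, F.f i * F.f j * F.f i = if j = F.o then (Fintype.card ι : ℂ) • (1 : A) else 0 := by
  rcases subsingleton_or_nontrivial A with h | h
  · exact Subsingleton.elim _ _
  simp_rw [F.f_mul_f_mul_f]
  have hs : ∑ k, F.c k j = if j = F.o then (Fintype.card ι : ℝ) else 0 := by
    have := F.ortho j F.o
    simp_rw [F.c_o, mul_one] at this
    exact this
  rw [← Finset.sum_smul, ← Complex.ofReal_sum, hs]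
  split_ifs with h
  · rw [h, F.f_o, Complex.ofReal_natCast]
  · rw [Complex.ofReal_zero, zero_smul]

/-- coordinate expansion -/
theorem decomp (x : A) : x = ∑ i, F.f i * F.E (F.f i * x) := by
  simp_rw [E_def, mul_smul_comm, Finset.mul_sum]
  rw [← Finset.smul_sum, Finset.sum_comm]
  have h : ∀ j, ∑ i, F.f i * (F.f j * (F.f i * x) * F.f j)
      = (∑ i, F.f i * F.f j * F.f i) * x * F.f j := by
    intro j
    rw [Finset.sum_mul, Finset.sum_mul]
    exact Finset.sum_congr rfl fun i _ => by noncomm_ring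
  simp_rw [h, F.sum_f_mul_f_mul_f]
  rw [Finset.sum_eq_single F.o]
  · rw [if_pos rfl, F.f_o, smul_mul_assoc, one_mul, mul_one, smul_smul,
      inv_mul_cancel₀ F.card_ne, one_smul]
  · intro j _ hj
    rw [if_neg hj, zero_mul, zero_mul]
  · intro h; exact absurd (mem_univ _) h

/-- The average is "central for the matrix part". -/
theorem E_f_comm (i : ι) (x : A) : F.E (F.f i * x) = F.E (x * F.f i) := by
  rw [← F.conj_E i (x * F.f i)]
  rw [E_def, E_def, mul_smul_comm, smul_mul_assoc, Finset.mul_sum, Finset.sum_mul]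
  congr 1
  refine Finset.sum_congr rfl fun j _ => ?_
  have h1 : F.f i * F.f j * F.f i = (F.c i j : ℂ) • F.f j := F.f_mul_f_mul_f i j
  have h2 : F.f i * F.f j = (F.c i j : ℂ) • (F.f j * F.f i) := F.comm i j
  calc F.f j * (F.f i * x) * F.f j = (F.f j * F.f i) * x * F.f j := by noncomm_ring
    _ = ((F.c i j : ℂ) * (F.c i j : ℂ)) • ((F.f j * F.f i) * x * F.f j) := by
        rw [← Complex.ofReal_mul, F.c_mul_self, Complex.ofReal_one, one_smul]
    _ = (((F.c i j : ℂ)) • (F.f j * F.f i)) * x * ((F.c i j : ℂ) • F.f j) := by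
        simp only [smul_mul_assoc, mul_smul_comm, smul_smul]
    _ = (F.f i * F.f j) * x * (F.f i * F.f j * F.f i) := by rw [h1, h2]
    _ = _ := by noncomm_ring

/-- another form of the expansion -/
theorem decomp' (x : A) : x = ∑ i, F.E (x * F.f i) * F.f i := by
  conv_lhs => rw [F.decomp x]
  refine Finset.sum_congr rfl fun i _ => ?_
  rw [← F.E_f_comm, ← F.E_inQ]

/-- `∑ E(f_i a) E(f_i b) = E(a b)` -/
theorem sum_E_mul_E (a b : A) : ∑ i, F.E (F.f i * a) * F.E (F.f i * b) = F.E (a * b) := by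
  conv_rhs => rw [F.decomp b, Finset.mul_sum, F.E_sum]
  refine Finset.sum_congr rfl fun i _ => ?_
  rw [← mul_assoc, F.E_mul_right (F.E_inQ _), F.E_f_comm i a]

theorem sum_sq {y : A} (_hy : IsSelfAdjoint y) :
    ∑ i, F.E (F.f i * y) * F.E (F.f i * y) = F.E (y * y) :=
  F.sum_E_mul_E y y

theorem E_comm {X : A} (_hX : IsSelfAdjoint X) (i : ι) : F.E (X * F.f i) = F.E (F.f i * X) :=
  (F.E_f_comm i X).symm

theorem star_E_f (i : ι) (x : A) : star (F.E (F.f i * x)) = F.E (F.f i * star x) := by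
  rw [← F.E_star, star_mul, F.star_f, F.E_f_comm]

theorem E_sa {x : A} (hx : IsSelfAdjoint x) (i : ι) : IsSelfAdjoint (F.E (F.f i * x)) := by
  rw [isSelfAdjoint_iff, F.star_E_f, hx.star_eq]

/-- coordinates of a sum `∑ f_i δ_i` with `δ_i` in the relative commutant -/
theorem coord (δ : ι → A) (hδ : ∀ i, F.InQ (δ i)) (i : ι) :
    F.E (F.f i * ∑ j, F.f j * δ j) = δ i := by
  rw [Finset.mul_sum, F.E_sum]
  have h : ∀ j, F.E (F.f i * (F.f j * δ j)) = if i = j then δ j else 0 := by
    intro j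
    rw [← mul_assoc, F.E_fqf (hδ j)]
  simp_rw [h]
  simp

/-- a sum `∑ f_i δ_i` with self-adjoint `δ_i` in the relative commutant is self-adjoint -/
theorem sum_isSelfAdjoint {δ : ι → A} (hδ : ∀ i, F.InQ (δ i)) (h : ∀ i, IsSelfAdjoint (δ i)) :
    IsSelfAdjoint (∑ i, F.f i * δ i) := by
  rw [isSelfAdjoint_iff, star_sum]
  refine Finset.sum_congr rfl fun i _ => ?_
  rw [star_mul, F.star_f, (h i).star_eq, hδ i]

/-- the coordinates of `x + ∑ f_i δ_i` -/
theorem coord_add {δ : ι → A} (hδ : ∀ i, F.InQ (δ i)) (x : A) (i : ι) :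
    F.E (F.f i * (x + ∑ j, F.f j * δ j)) = F.E (F.f i * x) + δ i := by
  rw [mul_add, F.E_add, F.coord δ hδ]

theorem E_mem {S : StarSubalgebra ℂ A} (hS : ∀ i, F.f i ∈ S) {x : A} (hx : x ∈ S) :
    F.E x ∈ S := by
  rw [E_def]
  exact S.smul_mem (sum_mem fun i _ => mul_mem (mul_mem (hS i) hx) (hS i)) _

end Basic

section Trace

variable (F : PauliSys A ι) (T : TracialState A)

theorem tau_E' (x : A) : T.τ (F.E x) = T.τ x := by
  rw [E_def, map_smul, map_sum]
  have h : ∀ i, T.τ (F.f i * x * F.f i) = T.τ x := by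
    intro i
    rw [T.tr, ← mul_assoc, F.sq, one_mul]
  simp_rw [h]
  rw [Finset.sum_const, Finset.card_univ, nsmul_eq_mul, smul_eq_mul, ← mul_assoc,
    inv_mul_cancel₀ F.card_ne, one_mul]

theorem tau_E (q Y : A) (hq : F.InQ q) : T.τ (q * Y) = T.τ (q * F.E Y) := by
  rw [← F.E_mul_left hq, F.tau_E' T]

theorem tau_E_right {q : A} (hq : F.InQ q) (Y : A) : T.τ (Y * q) = T.τ (F.E Y * q) := by
  rw [← F.E_mul_right hq, F.tau_E' T]

theorem orth {q : A} (hq : F.InQ q) (g h : ι) :
    T.τ (F.f g * F.f h * q) = if g = h then T.τ q else 0 := by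
  rw [← F.tau_E' T, F.E_fqf hq]
  split_ifs <;> simp

/-- `τ ((∑ f_i q_i) (∑ f_j p_j)) = ∑ τ (q_i p_i)` -/
theorem tau_sum_mul_sum {q p : ι → A} (hq : ∀ i, F.InQ (q i)) (hp : ∀ i, F.InQ (p i)) :
    T.τ ((∑ i, F.f i * q i) * ∑ i, F.f i * p i) = ∑ i, T.τ (q i * p i) := by
  rw [← F.tau_E' T, ← F.sum_E_mul_E, map_sum]
  refine Finset.sum_congr rfl fun i _ => ?_
  rw [F.coord q hq, F.coord p hp]

/-- `τ ((∑ f_i q_i) y) = ∑ τ (q_i E (f_i y))` -/
theorem tau_sum_mul {q : ι → A} (hq : ∀ i, F.InQ (q i)) (y : A) :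
    T.τ ((∑ i, F.f i * q i) * y) = ∑ i, T.τ (q i * F.E (F.f i * y)) := by
  conv_lhs => rw [F.decomp y]
  exact F.tau_sum_mul_sum T hq fun i => F.E_inQ _

theorem nrm2_sum_sq (δ : ι → A) (hδ : ∀ i, F.InQ (δ i)) :
    T.nrm2 (∑ i, F.f i * δ i) ^ 2 = ∑ i, T.nrm2 (δ i) ^ 2 := by
  have h : ∀ x : A, T.nrm2 x ^ 2 = (T.τ (star x * x)).re := fun x =>
    Real.sq_sqrt (T.pos x)
  simp_rw [h]
  have h1 : star (∑ i, F.f i * δ i) = ∑ i, F.f i * star (δ i) := by
    rw [star_sum]
    refine Finset.sum_congr rfl fun i _ => ?_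
    rw [star_mul, F.star_f, ← F.inQ_star (hδ i) i]
  rw [h1, F.tau_sum_mul_sum T (fun i => F.inQ_star (hδ i)) hδ, Complex.re_sum]

theorem nrm2_sq_eq_sum (x : A) : T.nrm2 x ^ 2 = ∑ i, T.nrm2 (F.E (F.f i * x)) ^ 2 := by
  conv_lhs => rw [F.decomp x]
  exact F.nrm2_sum_sq T _ fun i => F.E_inQ _

end Trace

section Constructions

/-- the trivial system -/
def unit : PauliSys A Unit where
  f _ := 1
  c _ _ := 1
  o := ()
  sa _ := IsSelfAdjoint.one A
  sq _ := one_mul _
  f_o := rfl
  c_sq _ _ := Or.inl rfl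
  comm _ _ := by simp
  ortho _ _ := by simp
  perm k := ⟨Equiv.refl _, fun h => ⟨1, by simp, by simp⟩⟩

/-- product of two commuting systems -/
def prod {κ : Type} [Fintype κ] [DecidableEq κ] (S : PauliSys A ι) (T : PauliSys A κ)
    (h : ∀ i k, S.f i * T.f k = T.f k * S.f i) : PauliSys A (ι × κ) where
  f p := S.f p.1 * T.f p.2
  c p q := S.c p.1 q.1 * T.c p.2 q.2
  o := (S.o, T.o)
  sa p := by rw [isSelfAdjoint_iff, star_mul, S.star_f, T.star_f, h]
  sq p := by
    calc S.f p.1 * T.f p.2 * (S.f p.1 * T.f p.2) = S.f p.1 * (T.f p.2 * S.f p.1) * T.f p.2 := by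
          noncomm_ring
      _ = (S.f p.1 * S.f p.1) * (T.f p.2 * T.f p.2) := by rw [← h]; noncomm_ring
      _ = 1 := by rw [S.sq, T.sq, one_mul]
  f_o := by rw [S.f_o, T.f_o, one_mul]
  c_sq p q := by
    rcases S.c_sq p.1 q.1 with h1 | h1 <;> rcases T.c_sq p.2 q.2 with h2 | h2 <;>
      rw [h1, h2] <;> norm_num
  comm p q := by
    calc S.f p.1 * T.f p.2 * (S.f q.1 * T.f q.2) = S.f p.1 * (T.f p.2 * S.f q.1) * T.f q.2 := by
          noncomm_ring
      _ = (S.f p.1 * S.f q.1) * (T.f p.2 * T.f q.2) := by rw [← h]; noncomm_ring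
      _ = ((S.c p.1 q.1 * T.c p.2 q.2 : ℝ) : ℂ) •
            ((S.f q.1 * S.f p.1) * (T.f q.2 * T.f p.2)) := by
          rw [S.comm p.1, T.comm p.2]
          simp only [smul_mul_assoc, mul_smul_comm, smul_smul, Complex.ofReal_mul]
          rw [mul_comm]
      _ = _ := by
          congr 1
          calc (S.f q.1 * S.f p.1) * (T.f q.2 * T.f p.2)
              = S.f q.1 * (S.f p.1 * T.f q.2) * T.f p.2 := by noncomm_ring
            _ = _ := by rw [h]; noncomm_ring
  ortho p q := by
    have h1 := S.ortho p.1 q.1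
    have h2 := T.ortho p.2 q.2
    rw [Fintype.sum_prod_type]
    calc ∑ x, ∑ y, S.c x p.1 * T.c y p.2 * (S.c x q.1 * T.c y q.2)
        = (∑ x, S.c x p.1 * S.c x q.1) * ∑ y, T.c y p.2 * T.c y q.2 := by
          rw [Finset.sum_mul]
          refine Finset.sum_congr rfl fun x _ => ?_
          rw [Finset.mul_sum]
          exact Finset.sum_congr rfl fun y _ => by ring
      _ = _ := by
          rw [h1, h2, Fintype.card_prod]
          by_cases ha : p.1 = q.1 <;> by_cases hb : p.2 = q.2 <;> simp [ha, hb, Prod.ext_iff]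
  perm p := by
    obtain ⟨σ, hσ⟩ := S.perm p.1
    obtain ⟨ρ, hρ⟩ := T.perm p.2
    refine ⟨σ.prodCongr ρ, fun q => ?_⟩
    obtain ⟨z, hz, h1⟩ := hσ q.1
    obtain ⟨y, hy, h2⟩ := hρ q.2
    refine ⟨z * y, by rw [norm_mul, hz, hy, one_mul], ?_⟩
    calc S.f p.1 * T.f p.2 * (S.f q.1 * T.f q.2) = S.f p.1 * (T.f p.2 * S.f q.1) * T.f q.2 := by
          noncomm_ring
      _ = (S.f p.1 * S.f q.1) * (T.f p.2 * T.f q.2) := by rw [← h]; noncomm_ring
      _ = _ := by
          rw [h1, h2]
          simp only [smul_mul_assoc, mul_smul_comm, smul_smul, Equiv.prodCongr_apply, Prod.map]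
          rw [mul_comm y z]

/-- transport along a bijection of index types -/
def transport {κ : Type} [Fintype κ] [DecidableEq κ] (S : PauliSys A ι) (e : κ ≃ ι) :
    PauliSys A κ where
  f i := S.f (e i)
  c i j := S.c (e i) (e j)
  o := e.symm S.o
  sa i := S.sa _
  sq i := S.sq _
  f_o := by simp [S.f_o]
  c_sq i j := S.c_sq _ _
  comm i j := S.comm _ _
  ortho i j := by
    rw [Equiv.sum_comp e (fun k => S.c k (e i) * S.c k (e j)), S.ortho, Fintype.card_congr e]
    simp only [EmbeddingLike.apply_eq_iff_eq]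
  perm i := by
    obtain ⟨σ, hσ⟩ := S.perm (e i)
    refine ⟨(e.trans σ).trans e.symm, fun j => ?_⟩
    obtain ⟨z, hz, h⟩ := hσ (e j)
    exact ⟨z, hz, by simpa using h⟩

/-- four Pauli matrices from an anticommuting pair -/
noncomputable def pairF (u w : A) : Fin 4 → A := ![1, u, w, Complex.I • (u * w)]

/-- xor on `Fin 4` -/
def xor4 : Fin 4 → Fin 4 → Fin 4 :=
  ![![0, 1, 2, 3], ![1, 0, 3, 2], ![2, 3, 0, 1], ![3, 2, 1, 0]]

theorem xor4_xor4 (i j : Fin 4) : xor4 i (xor4 i j) = j := by
  revert i j; decide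

/-- integer commutation signs of the four Pauli matrices -/
def sign4 : Fin 4 → Fin 4 → ℤ :=
  ![![1, 1, 1, 1], ![1, 1, -1, -1], ![1, -1, 1, -1], ![1, -1, -1, 1]]

theorem sign4_eq (i j : Fin 4) : sign4 i j = 1 ∨ sign4 i j = -1 := by
  revert i j; decide

theorem sign4_orth (i j : Fin 4) : ∑ k, sign4 k i * sign4 k j = if i = j then 4 else 0 := by
  revert i j; decide

/-- phases of the four Pauli matrices `1, u, w, i u w` -/
noncomputable def phase4 : Fin 4 → Fin 4 → ℂ :=
  ![![1, 1, 1, 1], ![1, 1, -Complex.I, Complex.I], ![1, Complex.I, 1, -Complex.I],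
    ![1, -Complex.I, Complex.I, 1]]

theorem phase4_norm (i j : Fin 4) : ‖phase4 i j‖ = 1 := by
  fin_cases i <;> fin_cases j <;> simp [phase4]

/-- the system on four elements generated by an anticommuting pair of self-adjoint unitaries -/
noncomputable def pair (u w : A) (hu : star u = u) (hw : star w = w) (huu : u * u = 1)
    (hww : w * w = 1) (huw : w * u = -(u * w)) : PauliSys A (Fin 4) where
  f := pairF u w
  c i j := (sign4 i j : ℝ)
  o := 0
  sa i := by
    rw [isSelfAdjoint_iff]
    fin_cases i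
    · simp [pairF]
    · simp [pairF, hu]
    · simp [pairF, hw]
    · simp [pairF, hu, hw, huw]
  sq i := by
    fin_cases i
    · simp [pairF]
    · simp [pairF, huu]
    · simp [pairF, hww]
    · have h1 : u * w * (u * w) = -1 := by
        calc u * w * (u * w) = u * (w * u) * w := by noncomm_ring
          _ = -((u * u) * (w * w)) := by rw [huw]; noncomm_ring
          _ = -1 := by rw [huu, hww, one_mul]
      simp only [pairF, Fin.reduceFinMk, Matrix.cons_val]
      rw [smul_mul_assoc, mul_smul_comm, smul_smul, Complex.I_mul_I, h1]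
      simp
  f_o := by simp [pairF]
  c_sq i j := by
    rcases sign4_eq i j with h | h <;> rw [h] <;> simp
  comm i j := by
    have h1 : u * (u * w) = w := by rw [← mul_assoc, huu, one_mul]
    have h2 : w * (u * w) = -u := by
      calc w * (u * w) = (w * u) * w := by noncomm_ring
        _ = -(u * (w * w)) := by rw [huw]; noncomm_ring
        _ = -u := by rw [hww, mul_one]
    have h3 : (u * w) * u = -w := by
      calc (u * w) * u = u * (w * u) := by noncomm_ring
        _ = -((u * u) * w) := by rw [huw]; noncomm_ring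
        _ = -w := by rw [huu, one_mul]
    have h4 : (u * w) * w = u := by rw [mul_assoc, hww, mul_one]
    fin_cases i <;> fin_cases j <;>
      simp [pairF, sign4, huu, hww, huw, h1, h2, h3, h4]
  ortho i j := by
    have := sign4_orth i j
    rw [Fintype.card_fin]
    exact_mod_cast this
  perm i := by
    refine ⟨⟨xor4 i, xor4 i, xor4_xor4 i, xor4_xor4 i⟩, fun j => ⟨phase4 i j, phase4_norm i j, ?_⟩⟩
    have h1 : u * (u * w) = w := by rw [← mul_assoc, huu, one_mul]
    have h2 : w * (u * w) = -u := by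
      calc w * (u * w) = (w * u) * w := by noncomm_ring
        _ = -(u * (w * w)) := by rw [huw]; noncomm_ring
        _ = -u := by rw [hww, mul_one]
    have h3 : (u * w) * u = -w := by
      calc (u * w) * u = u * (w * u) := by noncomm_ring
        _ = -((u * u) * w) := by rw [huw]; noncomm_ring
        _ = -w := by rw [huu, one_mul]
    have h4 : (u * w) * w = u := by rw [mul_assoc, hww, mul_one]
    have h5 : u * w * (u * w) = -1 := by
      calc u * w * (u * w) = u * (w * u) * w := by noncomm_ring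
        _ = -((u * u) * (w * w)) := by rw [huw]; noncomm_ring
        _ = -1 := by rw [huu, hww, one_mul]
    fin_cases i <;> fin_cases j <;>
      simp [pairF, phase4, xor4, huu, hww, huw, h1, h2, h3, h4, h5, smul_smul]

theorem pair_f_mem {u w : A} {hu : star u = u} {hw : star w = w} {huu : u * u = 1}
    {hww : w * w = 1} {huw : w * u = -(u * w)} (B : Subalgebra ℂ A) (h1 : u ∈ B) (h2 : w ∈ B)
    (i : Fin 4) : (pair u w hu hw huu hww huw).f i ∈ B := by
  change pairF u w i ∈ B
  fin_cases i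
  · simp [pairF]
  · simpa [pairF] using h1
  · simpa [pairF] using h2
  · simpa [pairF] using B.smul_mem (B.mul_mem h1 h2) Complex.I

/-- `J` mutually commuting anticommuting pairs of self-adjoint unitaries give a Pauli system
with `4 ^ J` elements, contained in every subalgebra containing the pairs. -/
theorem exists_of_pairs (u w : ℕ → A) (J : ℕ) (hu : ∀ k < J, star (u k) = u k)
    (hw : ∀ k < J, star (w k) = w k) (huu : ∀ k < J, u k * u k = 1)
    (hww : ∀ k < J, w k * w k = 1) (huw : ∀ k < J, w k * u k = -(u k * w k))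
    (h1 : ∀ j k, j < k → k < J → u j * u k = u k * u j)
    (h2 : ∀ j k, j < k → k < J → u j * w k = w k * u j)
    (h3 : ∀ j k, j < k → k < J → w j * u k = u k * w j)
    (h4 : ∀ j k, j < k → k < J → w j * w k = w k * w j) :
    ∃ S : PauliSys A (Fin (4 ^ J)), ∀ B : Subalgebra ℂ A,
      (∀ k < J, u k ∈ B ∧ w k ∈ B) → ∀ i, S.f i ∈ B := by
  induction J with
  | zero =>
    refine ⟨(unit (A := A)).transport (Fintype.equivOfCardEq (by simp)), fun B _ i => ?_⟩
    exact B.one_mem
  | succ J ih =>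
    obtain ⟨S, hS⟩ := ih (fun k hk => hu k (by omega)) (fun k hk => hw k (by omega))
      (fun k hk => huu k (by omega)) (fun k hk => hww k (by omega))
      (fun k hk => huw k (by omega)) (fun j k hjk hk => h1 j k hjk (by omega))
      (fun j k hjk hk => h2 j k hjk (by omega)) (fun j k hjk hk => h3 j k hjk (by omega))
      (fun j k hjk hk => h4 j k hjk (by omega))
    let T := pair (u J) (w J) (hu J (by omega)) (hw J (by omega)) (huu J (by omega))
      (hww J (by omega)) (huw J (by omega))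
    have hT : ∀ B : Subalgebra ℂ A, u J ∈ B → w J ∈ B → ∀ i, T.f i ∈ B :=
      fun B hu' hw' i => pair_f_mem B hu' hw' i
    have hcomm : ∀ i k, S.f i * T.f k = T.f k * S.f i := by
      intro i
      have hSu : S.f i * u J = u J * S.f i := by
        have := hS (Subalgebra.centralizer ℂ {u J}) (fun k hk => ⟨?_, ?_⟩) i
        · rw [Subalgebra.mem_centralizer_iff] at this
          exact (this (u J) rfl).symm
        · rw [Subalgebra.mem_centralizer_iff]
          rintro g rfl
          exact (h1 k J hk (by omega)).symm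
        · rw [Subalgebra.mem_centralizer_iff]
          rintro g rfl
          exact (h3 k J hk (by omega)).symm
      have hSw : S.f i * w J = w J * S.f i := by
        have := hS (Subalgebra.centralizer ℂ {w J}) (fun k hk => ⟨?_, ?_⟩) i
        · rw [Subalgebra.mem_centralizer_iff] at this
          exact (this (w J) rfl).symm
        · rw [Subalgebra.mem_centralizer_iff]
          rintro g rfl
          exact (h2 k J hk (by omega)).symm
        · rw [Subalgebra.mem_centralizer_iff]
          rintro g rfl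
          exact (h4 k J hk (by omega)).symm
      intro k
      have := hT (Subalgebra.centralizer ℂ {S.f i}) ?_ ?_ k
      · rw [Subalgebra.mem_centralizer_iff] at this
        exact this (S.f i) rfl
      · rw [Subalgebra.mem_centralizer_iff]
        rintro g rfl
        exact hSu
      · rw [Subalgebra.mem_centralizer_iff]
        rintro g rfl
        exact hSw
    refine ⟨(S.prod T hcomm).transport (Fintype.equivOfCardEq (by simp [pow_succ])),
      fun B hB i => ?_⟩
    exact B.mul_mem (hS B (fun k hk => hB k (by omega)) _)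
      (hT B (hB J (by omega)).1 (hB J (by omega)).2 _)

/-- The form used by the core: an infinite sequence of mutually commuting anticommuting pairs
gives for every `J` a Pauli system on `Fin (4 ^ J)`, inside every star subalgebra containing the
pairs. (`huv` is the second and first half of `HasPauli` stated inside `A`.) -/
theorem exists_pauliSys (u v : ℕ → A)
    (hp : ∀ j, IsSelfAdjoint (u j) ∧ IsSelfAdjoint (v j) ∧ u j * u j = 1 ∧ v j * v j = 1 ∧
      u j * v j = -(v j * u j))
    (hc : ∀ j k, j ≠ k → u j * u k = u k * u j ∧ u j * v k = v k * u j ∧ v j * v k = v k * v j)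
    (J : ℕ) :
    ∃ F : PauliSys A (Fin (4 ^ J)), ∀ S : StarSubalgebra ℂ A,
      (∀ j, u j ∈ S ∧ v j ∈ S) → ∀ i, F.f i ∈ S := by
  obtain ⟨F, hF⟩ := exists_of_pairs u v J (fun k _ => (hp k).1) (fun k _ => (hp k).2.1)
    (fun k _ => (hp k).2.2.1) (fun k _ => (hp k).2.2.2.1)
    (fun k _ => by rw [(hp k).2.2.2.2, neg_neg])
    (fun j k hjk _ => (hc j k hjk.ne).1) (fun j k hjk _ => (hc j k hjk.ne).2.1)
    (fun j k hjk _ => ((hc k j hjk.ne').2.1).symm) (fun j k hjk _ => (hc j k hjk.ne).2.2)
  exact ⟨F, fun S hS => hF S.toSubalgebra fun k _ => hS k⟩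

end Constructions

section SpecNames

variable (F : PauliSys A ι)

theorem InQ.add {p q : A} (hp : F.InQ p) (hq : F.InQ q) : F.InQ (p + q) := F.inQ_add hp hq
theorem InQ.mul {p q : A} (hp : F.InQ p) (hq : F.InQ q) : F.InQ (p * q) := F.inQ_mul hp hq
theorem InQ.smul {p : A} (c : ℂ) (hp : F.InQ p) : F.InQ (c • p) := F.inQ_smul c hp
theorem InQ.star {p : A} (hp : F.InQ p) : F.InQ (star p) := F.inQ_star hp
theorem InQ.one : F.InQ (1 : A) := F.inQ_one
theorem InQ.sum {κ : Type*} (s : Finset κ) (g : κ → A) (h : ∀ i ∈ s, F.InQ (g i)) :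
    F.InQ (∑ i ∈ s, g i) := F.inQ_sum s g h
theorem InQ.res {p : A} (_hsa : IsSelfAdjoint p) (hp : F.InQ p) :
    F.InQ (Crest.Agent.R95.res p) := F.inQ_res hp
theorem InQ.cay {p : A} (_hsa : IsSelfAdjoint p) (hp : F.InQ p) :
    F.InQ (Crest.Agent.R95.cay p) := F.inQ_cay hp

end SpecNames

end PauliSys

/-- existence of Pauli systems of arbitrarily large size from commuting anticommuting pairs -/
theorem exists_pauliSys {A : Type*} [CStarAlgebra A] (u v : ℕ → A)
    (h1 : ∀ j, IsSelfAdjoint (u j) ∧ IsSelfAdjoint (v j) ∧ u j * u j = 1 ∧ v j * v j = 1 ∧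
      u j * v j = -(v j * u j))
    (h2 : ∀ j k, j ≠ k → u j * u k = u k * u j ∧ u j * v k = v k * u j ∧ v j * v k = v k * v j)
    (m : ℕ) :
    ∃ (ι : Type) (_ : Fintype ι) (_ : DecidableEq ι) (F : PauliSys A ι), m ≤ Fintype.card ι ∧
      ∀ S : StarSubalgebra ℂ A, (∀ j, u j ∈ S ∧ v j ∈ S) → ∀ i, F.f i ∈ S := by
  obtain ⟨F, hF⟩ := PauliSys.exists_pauliSys u v h1 h2 m
  refine ⟨Fin (4 ^ m), inferInstance, inferInstance, F, ?_, hF⟩
  rw [Fintype.card_fin]
  exact (Nat.lt_pow_self (by norm_num)).le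

end Crest.Agent.R95
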