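import Crest.Agent.R95.Bridge

/-!
R95 (helper364): (ii) clamping a self-adjoint element does not increase the 2-distance to bounded
elements; positivity of the trace on products of positive elements.
-/

set_option autoImplicit false

open scoped InnerProductSpace ENNReal ComplexConjugate
open Filter Topology Complex

namespace Crest.Agent.R95

open Crest.OpAlg

variable {H : Type*} [NormedAddCommGroup H] [InnerProductSpace ℂ H] [CompleteSpace H]
variable {M : VonNeumannAlgebra H} {ξ : ℕ → H}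

theorem cfc_real_mem (M : VonNeumannAlgebra H) (f : ℝ → ℝ) {a : H →L[ℂ] H} (ha : a ∈ M) :
    cfc f a ∈ M := by
  have h := cfc_mem (𝕜' := ℂ) (s := M.toStarSubalgebra) (hs := isClosed_vn M) f (a := a) ha
  exact h

theorem cfc_real_mem_of_closed (f : ℝ → ℝ) {a : H →L[ℂ] H} {S : StarSubalgebra ℂ (H →L[ℂ] H)}
    (hS : IsClosed (S : Set (H →L[ℂ] H))) (ha : a ∈ S) : cfc f a ∈ S :=
  cfc_mem (𝕜' := ℂ) (hs := hS) f ha

/-- square root inside `M` -/
theorem exists_sqrt_mem {a : H →L[ℂ] H} (ha : a ∈ M) (h0 : 0 ≤ a) :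
    ∃ s ∈ M, IsSelfAdjoint s ∧ s * s = a := by
  have hsa : IsSelfAdjoint a := IsSelfAdjoint.of_nonneg h0
  refine ⟨cfc Real.sqrt a, cfc_real_mem M _ ha, cfc_predicate _ _, ?_⟩
  rw [← cfc_mul Real.sqrt Real.sqrt a Real.continuous_sqrt.continuousOn
    Real.continuous_sqrt.continuousOn]
  conv_rhs => rw [← cfc_id ℝ a]
  refine cfc_congr fun t ht => ?_
  exact Real.mul_self_sqrt (spectrum_nonneg_of_nonneg h0 ht)

/-- the trace of a product of two positive elements is nonnegative -/
theorem tr_mul_nonneg (hξ : IsFaithfulTracialVectorState M ξ) {a b : H →L[ℂ] H} (ha : a ∈ M)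
    (hb : b ∈ M) (h0a : 0 ≤ a) (h0b : 0 ≤ b) : 0 ≤ (tr ξ (a * b)).re := by
  obtain ⟨s, hs, hss, rfl⟩ := exists_sqrt_mem ha h0a
  obtain ⟨r, hr, hrs, rfl⟩ := exists_sqrt_mem hb h0b
  have h1 : tr ξ (s * s * (r * r)) = tr ξ (star (s * r) * (s * r)) := by
    rw [star_mul, hss.star_eq, hrs.star_eq]
    have : s * s * (r * r) = (s * s * r) * r := by simp only [mul_assoc]
    rw [this, tr_mul_comm hξ (mul_mem (mul_mem hs hs) hr) hr]
    simp only [mul_assoc]
  rw [h1, tr_star_mul_self (sqSum hξ), Complex.ofReal_re]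
  positivity

theorem tr_nonneg (hξ : IsFaithfulTracialVectorState M ξ) {a : H →L[ℂ] H} (ha : a ∈ M)
    (h0a : 0 ≤ a) : 0 ≤ (tr ξ a).re := by
  have := tr_mul_nonneg hξ ha (one_mem M) h0a zero_le_one
  rwa [mul_one] at this

/-- clamp a self-adjoint operator to norm at most `R` -/
noncomputable def cl (R : ℝ) (y : H →L[ℂ] H) : H →L[ℂ] H := cfc (fun t : ℝ => max (-R) (min R t)) y

theorem cl_mem {R : ℝ} {y : H →L[ℂ] H} (hy : y ∈ M) : cl R y ∈ M := cfc_real_mem M _ hy

theorem cl_mem_of_closed {R : ℝ} {y : H →L[ℂ] H} {S : StarSubalgebra ℂ (H →L[ℂ] H)}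
    (hS : IsClosed (S : Set (H →L[ℂ] H))) (hy : y ∈ S) : cl R y ∈ S :=
  cfc_real_mem_of_closed _ hS hy

theorem isSelfAdjoint_cl (R : ℝ) (y : H →L[ℂ] H) : IsSelfAdjoint (cl R y) := cfc_predicate _ _

theorem norm_cl_le {R : ℝ} (hR : 0 ≤ R) (y : H →L[ℂ] H) : ‖cl R y‖ ≤ R := by
  refine norm_cfc_le hR fun t _ => ?_
  rw [Real.norm_eq_abs, abs_le]
  constructor
  · exact le_max_left _ _
  · exact max_le (by linarith) (min_le_left _ _)

/-- **(ii)** clamping decreases the 2-distance to bounded self-adjoint elements. -/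
theorem N2_sub_cl_le (hξ : IsFaithfulTracialVectorState M ξ) {x y : H →L[ℂ] H} (hx : x ∈ M)
    (hy : y ∈ M) (hxs : IsSelfAdjoint x) (hys : IsSelfAdjoint y) {R : ℝ} (hxR : ‖x‖ ≤ R) :
    N2 ξ (x - cl R y) ≤ N2 ξ (x - y) := by
  have hR : 0 ≤ R := (norm_nonneg _).trans hxR
  have hS := sqSum hξ
  set f := cl R y with hf
  set p := cfc (fun t : ℝ => max (t - R) 0) y with hp
  set n := cfc (fun t : ℝ => max (-t - R) 0) y with hn
  have hfM : f ∈ M := cl_mem hy
  have hpM : p ∈ M := cfc_real_mem M _ hy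
  have hnM : n ∈ M := cfc_real_mem M _ hy
  have hp0 : 0 ≤ p := cfc_nonneg fun t _ => le_max_right _ _
  have hn0 : 0 ≤ n := cfc_nonneg fun t _ => le_max_right _ _
  have hps : IsSelfAdjoint p := cfc_predicate _ _
  have hns : IsSelfAdjoint n := cfc_predicate _ _
  have hfs : IsSelfAdjoint f := isSelfAdjoint_cl _ _
  have hyid : cfc (fun t : ℝ => t) y = y := cfc_id' ℝ y
  have hcc : Continuous fun t : ℝ => max (-R) (min R t) := by fun_prop
  have hcp : Continuous fun t : ℝ => max (t - R) 0 := by fun_prop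
  have hcn : Continuous fun t : ℝ => max (-t - R) 0 := by fun_prop
  have e1 : y - f = p - n := by
    have h1 : y - f = cfc (fun t : ℝ => t - max (-R) (min R t)) y := by
      rw [cfc_sub (fun t : ℝ => t) (fun t : ℝ => max (-R) (min R t)) y continuousOn_id
        hcc.continuousOn, hyid]
      rfl
    have h2 : p - n = cfc (fun t : ℝ => max (t - R) 0 - max (-t - R) 0) y := by
      rw [cfc_sub (fun t : ℝ => max (t - R) 0) (fun t : ℝ => max (-t - R) 0) y hcp.continuousOn
        hcn.continuousOn]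
    rw [h1, h2]
    congr 1
    ext t
    rcases le_total t R with h | h
    · rcases le_total (-R) t with h' | h'
      · rw [min_eq_right h, max_eq_right h', max_eq_right (by linarith), max_eq_right (by linarith)]
        ring
      · rw [min_eq_right h, max_eq_left h', max_eq_right (by linarith), max_eq_left (by linarith)]
        ring
    · rw [min_eq_left h, max_eq_right (by linarith), max_eq_left (by linarith),
        max_eq_right (by linarith)]
      ring
  have hadd : y + f = cfc (fun t : ℝ => t + max (-R) (min R t)) y := by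
    rw [cfc_add y (fun t : ℝ => t) (fun t : ℝ => max (-R) (min R t)) continuousOn_id
      hcc.continuousOn, hyid]
    rfl
  have e2 : p * (y + f) = (2 * R : ℝ) • p + p * p := by
    rw [hadd, hp, ← cfc_mul _ _ y hcp.continuousOn (by fun_prop),
      ← cfc_mul _ _ y hcp.continuousOn hcp.continuousOn,
      ← cfc_smul (2 * R : ℝ) (fun t : ℝ => max (t - R) 0) y hcp.continuousOn,
      ← cfc_add y (fun t : ℝ => (2 * R : ℝ) • max (t - R) 0)
        (fun t : ℝ => max (t - R) 0 * max (t - R) 0) (by fun_prop) (by fun_prop)]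
    congr 1
    ext t
    rcases le_total t R with h | h
    · rw [max_eq_right (by linarith : t - R ≤ 0)]; simp
    · rw [max_eq_left (by linarith : 0 ≤ t - R), min_eq_left h, max_eq_right (by linarith)]
      simp only [smul_eq_mul]
      ring
  have e3 : n * (y + f) = -((2 * R : ℝ) • n) - n * n := by
    rw [hadd, hn, ← cfc_mul _ _ y hcn.continuousOn (by fun_prop),
      ← cfc_mul _ _ y hcn.continuousOn hcn.continuousOn,
      ← cfc_smul (2 * R : ℝ) (fun t : ℝ => max (-t - R) 0) y hcn.continuousOn,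
      ← cfc_neg, ← cfc_sub (fun t : ℝ => -((2 * R : ℝ) • max (-t - R) 0))
        (fun t : ℝ => max (-t - R) 0 * max (-t - R) 0) y (by fun_prop) (by fun_prop)]
    congr 1
    ext t
    rcases le_total (-R) t with h | h
    · rw [max_eq_right (by linarith : -t - R ≤ 0)]; simp
    · rw [max_eq_left (by linarith : 0 ≤ -t - R), min_eq_right (by linarith), max_eq_left h]
      simp only [smul_eq_mul]
      ring
  have hxle : x ≤ algebraMap ℝ (H →L[ℂ] H) ‖x‖ := hxs.le_algebraMap_norm_self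
  have hxge : -x ≤ algebraMap ℝ (H →L[ℂ] H) ‖x‖ := by
    have := (IsSelfAdjoint.neg hxs).le_algebraMap_norm_self
    rwa [norm_neg] at this
  have hRle : algebraMap ℝ (H →L[ℂ] H) ‖x‖ ≤ algebraMap ℝ (H →L[ℂ] H) R :=
    algebraMap_mono _ hxR
  have hRx : 0 ≤ algebraMap ℝ (H →L[ℂ] H) R - x := sub_nonneg.2 (hxle.trans hRle)
  have hRx' : 0 ≤ algebraMap ℝ (H →L[ℂ] H) R + x := by
    have := sub_nonneg.2 (hxge.trans hRle)
    rwa [sub_neg_eq_add] at this
  have hRM : algebraMap ℝ (H →L[ℂ] H) R ∈ M := by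
    have : algebraMap ℝ (H →L[ℂ] H) R = algebraMap ℂ (H →L[ℂ] H) (R : ℂ) := by
      rw [Algebra.algebraMap_eq_smul_one, Algebra.algebraMap_eq_smul_one]
      rfl
    rw [this]
    exact M.toStarSubalgebra.algebraMap_mem _
  have hmulR : ∀ a : H →L[ℂ] H, a * algebraMap ℝ (H →L[ℂ] H) R = (R : ℂ) • a := by
    intro a
    rw [Algebra.algebraMap_eq_smul_one, mul_smul_comm, mul_one]
    rfl
  have t1 := tr_mul_nonneg hξ hpM (sub_mem hRM hx) hp0 hRx
  have t2 := tr_mul_nonneg hξ hnM (add_mem hRM hx) hn0 hRx'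
  rw [mul_sub, hmulR, tr_sub hS, tr_smul hS, Complex.sub_re, Complex.re_ofReal_mul] at t1
  rw [mul_add, hmulR, tr_add hS, tr_smul hS, Complex.add_re, Complex.re_ofReal_mul] at t2
  have t3 : 0 ≤ (tr ξ (p * p)).re := by
    have := tr_star_mul_self hS p
    rw [hps.star_eq] at this
    rw [this, Complex.ofReal_re]; positivity
  have t4 : 0 ≤ (tr ξ (n * n)).re := by
    have := tr_star_mul_self hS n
    rw [hns.star_eq] at this
    rw [this, Complex.ofReal_re]; positivity
  have hsmul : ∀ a : H →L[ℂ] H, (2 * R : ℝ) • a = ((2 * R : ℝ) : ℂ) • a := fun a => rfl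
  have k1 : (tr ξ (p * (y + f))).re = 2 * R * (tr ξ p).re + (tr ξ (p * p)).re := by
    rw [e2, hsmul, tr_add hS, tr_smul hS, Complex.add_re, Complex.re_ofReal_mul]
  have k2 : (tr ξ (n * (y + f))).re = -(2 * R * (tr ξ n).re) - (tr ξ (n * n)).re := by
    rw [e3, hsmul, tr_sub hS, tr_neg hS, tr_smul hS, Complex.sub_re, Complex.neg_re,
      Complex.re_ofReal_mul]
  have k3 : (tr ξ ((y - f) * (y + f))).re = (tr ξ (p * (y + f))).re - (tr ξ (n * (y + f))).re := by
    rw [e1, sub_mul, tr_sub hS, Complex.sub_re]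
  have k4 : (tr ξ ((y - f) * x)).re = (tr ξ (p * x)).re - (tr ξ (n * x)).re := by
    rw [e1, sub_mul, tr_sub hS, Complex.sub_re]
  -- norms
  have n1 : N2 ξ (x - y) ^ 2 = (tr ξ (x * x)).re - 2 * (tr ξ (x * y)).re + (tr ξ (y * y)).re := by
    have h1 := tr_star_mul_self hS (x - y)
    rw [star_sub, hxs.star_eq, hys.star_eq] at h1
    have h2 : (x - y) * (x - y) = x * x - x * y - y * x + y * y := by
      rw [sub_mul, mul_sub, mul_sub]; abel
    rw [h2, tr_add hS, tr_sub hS, tr_sub hS, tr_mul_comm hξ hy hx] at h1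
    have h3 := congrArg Complex.re h1
    rw [Complex.ofReal_re] at h3
    rw [← h3]
    simp only [Complex.add_re, Complex.sub_re]
    ring
  have n2 : N2 ξ (x - f) ^ 2 = (tr ξ (x * x)).re - 2 * (tr ξ (x * f)).re + (tr ξ (f * f)).re := by
    have h1 := tr_star_mul_self hS (x - f)
    rw [star_sub, hxs.star_eq, hfs.star_eq] at h1
    have h2 : (x - f) * (x - f) = x * x - x * f - f * x + f * f := by
      rw [sub_mul, mul_sub, mul_sub]; abel
    rw [h2, tr_add hS, tr_sub hS, tr_sub hS, tr_mul_comm hξ hfM hx] at h1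
    have h3 := congrArg Complex.re h1
    rw [Complex.ofReal_re] at h3
    rw [← h3]
    simp only [Complex.add_re, Complex.sub_re]
    ring
  have n3 : (tr ξ ((y - f) * (y + f))).re = (tr ξ (y * y)).re - (tr ξ (f * f)).re := by
    have h2 : (y - f) * (y + f) = y * y + y * f - f * y - f * f := by
      rw [sub_mul, mul_add, mul_add]; abel
    rw [h2, tr_sub hS, tr_sub hS, tr_add hS, tr_mul_comm hξ hfM hy]
    simp only [Complex.add_re, Complex.sub_re]
    ring
  have n4 : (tr ξ ((y - f) * x)).re = (tr ξ (x * y)).re - (tr ξ (x * f)).re := by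
    rw [sub_mul, tr_sub hS, tr_mul_comm hξ hy hx, tr_mul_comm hξ hfM hx, Complex.sub_re]
  have hfinal : N2 ξ (x - f) ^ 2 ≤ N2 ξ (x - y) ^ 2 := by
    rw [n1, n2]
    nlinarith [k1, k2, k3, k4, n3, n4, t1, t2, t3, t4]
  exact (sq_le_sq₀ (N2_nonneg _) (N2_nonneg _)).1 hfinal

end Crest.Agent.R95
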