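import Crest.Agent.R95.CoreOne

/-!
# R95 Core (helper795): the core lemma.
-/

set_option autoImplicit false
set_option linter.unusedSectionVars false

namespace Crest.Agent.R95.Cor

open Complex

variable {A : Type*} [CStarAlgebra A] (T : TracialState A)
variable {ι κ : Type} [Fintype ι] [DecidableEq ι] [Fintype κ] [DecidableEq κ] (F : PauliSys A ι)
  {d k : ℕ} (L : Lines ι κ d k)

variable {X y0 : A} {t s σ : ℝ} {ζ : ι → Bool}

theorem gain_zeta (hy : IsSelfAdjoint y0) {R : ℝ} (hR : ‖y0‖ ≤ R) (hσ : 0 ≤ σ) (a : κ) :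
    σ * T.nrm2 y0 ^ 2 - 3 * σ ^ 3 * R ^ 4 ≤
      avg (fun ζ : ι → Bool => (T.τ (gma F L y0 σ ζ a * eta F L y0 ζ a)).re) := by
  have hw : ∀ i, IsSelfAdjoint ((F.c i (L.ai a) : ℂ) • F.E (F.f i * y0)) :=
    fun i => isSelfAdjoint_real_smul (F.E_sa hy i) _
  have h1 := T.avg_gam_corr (fun i => (F.c i (L.ai a) : ℂ) • F.E (F.f i * y0)) hw hσ
  have hc : ∀ i, F.c i (L.ai a) * F.c i (L.ai a) = 1 := fun i => F.c_mul_self i _
  have e1 : ∑ i, T.nrm2 ((F.c i (L.ai a) : ℂ) • F.E (F.f i * y0)) ^ 2 = T.nrm2 y0 ^ 2 := by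
    rw [F.nrm2_sq_eq_sum T y0]
    refine Finset.sum_congr rfl (fun i _ => ?_)
    rw [T.nrm2_smul, mul_pow, Complex.norm_real, Real.norm_eq_abs, sq_abs, sq, hc i, one_mul]
  have e2 : ∑ i, ((F.c i (L.ai a) : ℂ) • F.E (F.f i * y0)) *
      ((F.c i (L.ai a) : ℂ) • F.E (F.f i * y0)) = F.E (y0 * y0) := by
    rw [← F.sum_sq hy]
    refine Finset.sum_congr rfl (fun i _ => ?_)
    rw [smul_mul_smul_comm, ← Complex.ofReal_mul, hc i, Complex.ofReal_one, one_smul]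
  simp only [e1, e2] at h1
  refine le_trans ?_ h1
  have h2 : (T.τ (F.E (y0 * y0) ^ 2)).re ≤ R ^ 4 := by
    have h3 := (Complex.re_le_norm _).trans (T.norm_tau_le (F.E (y0 * y0) ^ 2))
    refine h3.trans ?_
    have hR0 : 0 ≤ R := (norm_nonneg _).trans hR
    have h4 : ‖F.E (y0 * y0)‖ ≤ R ^ 2 := by
      refine (F.norm_E_le _).trans ((norm_mul_le _ _).trans ?_)
      rw [sq]
      exact mul_le_mul hR hR (norm_nonneg _) hR0
    calc ‖F.E (y0 * y0) ^ 2‖ = ‖F.E (y0 * y0) * F.E (y0 * y0)‖ := by rw [sq]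
      _ ≤ ‖F.E (y0 * y0)‖ * ‖F.E (y0 * y0)‖ := norm_mul_le _ _
      _ ≤ R ^ 2 * R ^ 2 := mul_le_mul h4 h4 (norm_nonneg _) (by positivity)
      _ = R ^ 4 := by ring
  have h5 : 0 ≤ 3 * σ ^ 3 := by positivity
  nlinarith [mul_le_mul_of_nonneg_left h2 h5]

theorem avg_eta (y0 : A) {R : ℝ} (hR : T.nrm2 y0 ≤ R) (hR0 : 0 < R) (a : κ) :
    avg (fun ζ : ι → Bool => T.nrm2 (eta F L y0 ζ a)) ≤ R := by
  refine avg_le_of_sq hR0 ?_
  have h1 := T.avg_nrm2_signs (fun i => (F.c i (L.ai a) : ℂ) • F.E (F.f i * y0))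
  have hc : ∀ i, F.c i (L.ai a) * F.c i (L.ai a) = 1 := fun i => F.c_mul_self i _
  have e1 : ∑ i, T.nrm2 ((F.c i (L.ai a) : ℂ) • F.E (F.f i * y0)) ^ 2 = T.nrm2 y0 ^ 2 := by
    rw [F.nrm2_sq_eq_sum T y0]
    refine Finset.sum_congr rfl (fun i _ => ?_)
    rw [T.nrm2_smul, mul_pow, Complex.norm_real, Real.norm_eq_abs, sq_abs, sq, hc i, one_mul]
  simp only [e1] at h1
  unfold eta
  rw [h1]
  have := T.nrm2_nonneg y0
  gcongr

/-- counting incidences -/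
theorem sum_lines_le (h : ι → ℝ) (hh : ∀ i, 0 ≤ h i) :
    ∑ a : κ, ∑ l ∈ Finset.range d, h (L.p l a) ≤ k * ∑ i, h i := by
  have e : ∑ a : κ, ∑ l ∈ Finset.range d, h (L.p l a) =
      ∑ i, ∑ l ∈ Finset.range d, ∑ a : κ, if L.p l a = i then h i else 0 := by
    symm
    rw [Finset.sum_comm]
    rw [Finset.sum_comm (s := (Finset.univ : Finset κ))]
    refine Finset.sum_congr rfl (fun l _ => ?_)
    rw [Finset.sum_comm]
    refine Finset.sum_congr rfl (fun a _ => ?_)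
    simp
  rw [e, Finset.mul_sum]
  refine Finset.sum_le_sum (fun i _ => ?_)
  by_cases hex : ∃ l ∈ Finset.range d, ∃ a : κ, L.p l a = i
  · obtain ⟨l, hl, a, hla⟩ := hex
    rw [Finset.sum_eq_single_of_mem l hl]
    · rw [← Finset.sum_filter, Finset.sum_const, nsmul_eq_mul]
      refine mul_le_mul_of_nonneg_right ?_ (hh i)
      have := L.deg l (Finset.mem_range.mp hl) i (Finset.univ.filter (fun a => L.p l a = i))
        (fun a ha => (Finset.mem_filter.mp ha).2)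
      exact_mod_cast this
    · intro l' hl' hne
      refine Finset.sum_eq_zero (fun a' _ => if_neg (fun h' => hne ?_))
      exact L.level l' (Finset.mem_range.mp hl') l (Finset.mem_range.mp hl) a' a
        (h'.trans hla.symm)
  · push Not at hex
    have : ∑ l ∈ Finset.range d, ∑ a : κ, (if L.p l a = i then h i else 0) = 0 :=
      Finset.sum_eq_zero (fun l hl => Finset.sum_eq_zero (fun a _ => if_neg (hex l hl a)))
    rw [this]
    exact mul_nonneg (by positivity) (hh i)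

theorem sum_xs_le (X : A) (ht : 0 < t) (m : ℕ) (hd : d = m * k)
    (hN : Fintype.card ι ≤ 2 * m * Fintype.card κ) :
    ∑ a : κ, ∑ l ∈ Finset.range d, T.nrm2 (xs F L X t a l) ≤
      t * (Fintype.card κ * d * (1 + T.nrm2 X ^ 2)) := by
  have h1 : ∀ a l, T.nrm2 (xs F L X t a l) = t * T.nrm2 (xh F X (L.p l a)) := by
    intro a l
    unfold xs
    rw [T.nrm2_smul, Complex.norm_real, Real.norm_of_nonneg ht.le]
  simp_rw [h1, ← Finset.mul_sum]
  refine mul_le_mul_of_nonneg_left ?_ ht.le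
  have hx : ∀ i, T.nrm2 (xh F X i) ≤ 1 / 2 + (1 / 2) * T.nrm2 (xh F X i) ^ 2 := by
    intro i
    nlinarith [sq_nonneg (T.nrm2 (xh F X i) - 1)]
  have hN0 : (0 : ℝ) < Fintype.card ι := by exact_mod_cast card_pos F
  have e2 : ∑ i, T.nrm2 (xh F X i) ^ 2 = Fintype.card ι * T.nrm2 X ^ 2 := by
    rw [F.nrm2_sq_eq_sum T X, Finset.mul_sum]
    refine Finset.sum_congr rfl (fun i _ => ?_)
    unfold xh
    rw [T.nrm2_smul, mul_pow, Complex.norm_real, Real.norm_of_nonneg (Real.sqrt_nonneg _),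
      Real.sq_sqrt hN0.le]
  calc ∑ a : κ, ∑ l ∈ Finset.range d, T.nrm2 (xh F X (L.p l a))
      ≤ ∑ a : κ, ∑ l ∈ Finset.range d, (1 / 2 + (1 / 2) * T.nrm2 (xh F X (L.p l a)) ^ 2) :=
        Finset.sum_le_sum (fun a _ => Finset.sum_le_sum (fun l _ => hx _))
    _ = (1 / 2) * (Fintype.card κ * d) +
        (1 / 2) * ∑ a : κ, ∑ l ∈ Finset.range d, T.nrm2 (xh F X (L.p l a)) ^ 2 := by
        simp_rw [Finset.sum_add_distrib, ← Finset.mul_sum]
        simp only [Finset.sum_const, Finset.card_univ, Finset.card_range, nsmul_eq_mul]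
        ring
    _ ≤ (1 / 2) * (Fintype.card κ * d) +
        (1 / 2) * (k * ∑ i, T.nrm2 (xh F X i) ^ 2) := by
        have := sum_lines_le L (fun i => T.nrm2 (xh F X i) ^ 2) (fun i => by positivity)
        linarith
    _ = (1 / 2) * (Fintype.card κ * d) +
        (1 / 2) * ((k * Fintype.card ι) * T.nrm2 X ^ 2) := by rw [e2]; ring
    _ ≤ (1 / 2) * (Fintype.card κ * d) +
        (1 / 2) * ((2 * (Fintype.card κ * d)) * T.nrm2 X ^ 2) := by
        have h3 : (k : ℝ) * Fintype.card ι ≤ 2 * (Fintype.card κ * d) := by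
          have h4 : k * Fintype.card ι ≤ k * (2 * m * Fintype.card κ) := Nat.mul_le_mul_left _ hN
          have h5 : k * (2 * m * Fintype.card κ) = 2 * (Fintype.card κ * d) := by
            rw [hd]; ring
          rw [h5] at h4
          exact_mod_cast h4
        have h6 : 0 ≤ T.nrm2 X ^ 2 := by positivity
        have := mul_le_mul_of_nonneg_right h3 h6
        linarith
    _ ≤ Fintype.card κ * d * (1 + T.nrm2 X ^ 2) := by
        have : (0 : ℝ) ≤ Fintype.card κ * d := by positivity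
        nlinarith

/-- the dual unitaries in the constraints -/
noncomputable def Dd (X y0 : A) (t s σ : ℝ) (ζ : ι → Bool) (ω : κ → ZMod 4) (a : κ) : A :=
  ph (ω a) • Pw F L X t (Zz F L X y0 t s σ ζ ω) a

theorem Pw_inQ {Z : A} (hZ : IsSelfAdjoint Z) (a : κ) : F.InQ (Pw F L X t Z a) :=
  pr_inQ F _ _ (fun _ _ => PauliSys.InQ.cay F (isSelfAdjoint_real_smul (xh_sa F hZ _) t)
    (PauliSys.InQ.smul F _ (xh_inQ F Z _)))

theorem norm_Pw_le {Z : A} (hZ : IsSelfAdjoint Z) (a : κ) : ‖Pw F L X t Z a‖ ≤ 1 :=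
  norm_pr_le _ (fun _ => norm_cay_le (isSelfAdjoint_real_smul (xh_sa F hZ _) t)) d norm_one_le'

theorem Dd_inQ (hX : IsSelfAdjoint X) (hy : IsSelfAdjoint y0) (ω : κ → ZMod 4) (a : κ) :
    F.InQ (Dd F L X y0 t s σ ζ ω a) :=
  PauliSys.InQ.smul F _ (Pw_inQ F L (Zz_sa F L hX hy ω) a)

theorem nrm2_Dd_le (hX : IsSelfAdjoint X) (hy : IsSelfAdjoint y0) (ω : κ → ZMod 4) (a : κ) :
    T.nrm2 (Dd F L X y0 t s σ ζ ω a) ≤ 1 := by
  unfold Dd
  rw [T.nrm2_smul, norm_ph, one_mul]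
  exact (T.nrm2_le_norm _).trans (norm_Pw_le F L (Zz_sa F L hX hy ω) a)

theorem nrm2_Y_le (hX : IsSelfAdjoint X) (hy : IsSelfAdjoint y0)
    (hκ : Fintype.card κ ≤ Fintype.card ι) (ω : κ → ZMod 4) :
    T.nrm2 (outY F L ζ (Dd F L X y0 t s σ ζ ω)) ≤ 1 := by
  have h1 := nrm2_outY_sq T F L ζ _ (Dd_inQ F L (t := t) (s := s) (σ := σ) (ζ := ζ) hX hy ω)
  have hN0 : (0 : ℝ) < Fintype.card ι := by exact_mod_cast card_pos F
  have h2 : T.nrm2 (outY F L ζ (Dd F L X y0 t s σ ζ ω)) ^ 2 ≤ 1 := by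
    rw [h1, inv_mul_le_iff₀ hN0, mul_one]
    calc ∑ a, T.nrm2 (Dd F L X y0 t s σ ζ ω a) ^ 2 ≤ ∑ _a : κ, (1 : ℝ) := by
          refine Finset.sum_le_sum (fun a _ => ?_)
          have h3 := nrm2_Dd_le T F L (t := t) (s := s) (σ := σ) (ζ := ζ) hX hy ω a
          have h4 := T.nrm2_nonneg (Dd F L X y0 t s σ ζ ω a)
          nlinarith
      _ = Fintype.card κ := by simp
      _ ≤ Fintype.card ι := by exact_mod_cast hκ
  have h5 := T.nrm2_nonneg (outY F L ζ (Dd F L X y0 t s σ ζ ω))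
  nlinarith

theorem main_avg (hX : IsSelfAdjoint X) (hy : IsSelfAdjoint y0) (hs : 0 < s) (ht : 0 < t)
    (hσ : 0 ≤ σ) (m : ℕ) (hd1 : 1 ≤ d) (hd : d = m * k) (M : ℝ) (hM : 0 < M)
    (hMd : (k : ℝ) / d ≤ (1 / M) ^ 2) (hκ : Fintype.card κ ≤ Fintype.card ι)
    (hN : Fintype.card ι ≤ 2 * m * Fintype.card κ) {R : ℝ} (hR0 : 0 < R) (hR : ‖y0‖ ≤ R)
    (lam : ℝ) (hlam : 0 ≤ lam) :
    (Fintype.card κ / Fintype.card ι) * (s / 2 * (σ * T.nrm2 y0 ^ 2 - 3 * σ ^ 3 * R ^ 4) -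
      (s / M + 2 * s ^ 2 + 3 * s * t * (1 + T.nrm2 X ^ 2)) * R) -
        lam * (d * (s / (2 * t * d)) ^ 2) ≤
    avg (fun ζ : ι → Bool => avg (fun ω : κ → ZMod 4 =>
      (T.τ (outY F L ζ (Dd F L X y0 t s σ ζ ω) * y0)).re -
        lam * T.nrm2 (Zz F L X y0 t s σ ζ ω - X) ^ 2)) := by
  have hN0 : (0 : ℝ) < Fintype.card ι := by exact_mod_cast card_pos F
  have hd0 : (0 : ℝ) < d := by exact_mod_cast hd1
  set K : κ → ℝ := fun a =>
    s / M + (3 * (s / d) * ∑ l ∈ Finset.range d, T.nrm2 (xs F L X t a l) + 2 * s ^ 2) with hK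
  -- fixed ζ
  have h1 : ∀ ζ : ι → Bool,
      (Fintype.card ι : ℝ)⁻¹ * ∑ a : κ,
        (s / 2 * (T.τ (gma F L y0 σ ζ a * eta F L y0 ζ a)).re - K a * T.nrm2 (eta F L y0 ζ a)) -
        lam * (d * (s / (2 * t * d)) ^ 2) ≤
      avg (fun ω : κ → ZMod 4 =>
        (T.τ (outY F L ζ (Dd F L X y0 t s σ ζ ω) * y0)).re -
          lam * T.nrm2 (Zz F L X y0 t s σ ζ ω - X) ^ 2) := by
    intro ζ
    rw [avg_sub, avg_const_mul]
    refine sub_le_sub ?_ (mul_le_mul_of_nonneg_left ?_ hlam)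
    · have e : ∀ ω : κ → ZMod 4, (T.τ (outY F L ζ (Dd F L X y0 t s σ ζ ω) * y0)).re =
          (Fintype.card ι : ℝ)⁻¹ * ∑ a : κ,
            (T.τ (Dd F L X y0 t s σ ζ ω a * eta F L y0 ζ a)).re :=
        fun ω => tau_outY T F L ζ _ (Dd_inQ F L hX hy ω) hy
      simp_rw [e]
      rw [avg_const_mul, avg_sum]
      refine mul_le_mul_of_nonneg_left (Finset.sum_le_sum (fun a _ => ?_)) (by positivity)
      exact gain_one T F L hX hy hs ht hd1 M hM hMd a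
    · refine avg_dist T F L X (nn F L X y0 t s σ ζ) (fun a l x => nn_inQ F L hX hy a l x)
        (fun a l => sum_nn F L a l) _ (by positivity) (fun a l x => ?_) hκ
      have h2 : T.nrm2 (nn F L X y0 t s σ ζ a l x) ≤ s / (2 * t * d) :=
        (T.nrm2_le_norm _).trans (norm_nn_le F L hX hy hs.le ht a l x)
      have h3 := T.nrm2_nonneg (nn F L X y0 t s σ ζ a l x)
      gcongr
  refine le_trans ?_ (avg_mono h1)
  rw [avg_sub, avg_const, avg_const_mul, avg_sum]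
  refine sub_le_sub_right ?_ _
  -- each constraint
  have hK0 : ∀ a, 0 ≤ K a := by
    intro a
    have : 0 ≤ ∑ l ∈ Finset.range d, T.nrm2 (xs F L X t a l) :=
      Finset.sum_nonneg (fun l _ => T.nrm2_nonneg _)
    positivity
  have hy2 : T.nrm2 y0 ≤ R := (T.nrm2_le_norm _).trans hR
  have h2 : ∀ a : κ, s / 2 * (σ * T.nrm2 y0 ^ 2 - 3 * σ ^ 3 * R ^ 4) - K a * R ≤
      avg (fun ζ : ι → Bool => s / 2 * (T.τ (gma F L y0 σ ζ a * eta F L y0 ζ a)).re -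
        K a * T.nrm2 (eta F L y0 ζ a)) := by
    intro a
    rw [avg_sub, avg_const_mul, avg_const_mul]
    refine sub_le_sub (mul_le_mul_of_nonneg_left (gain_zeta T F L hy hR hσ a) (by positivity))
      (mul_le_mul_of_nonneg_left (avg_eta T F L y0 hy2 hR0 a) (hK0 a))
  have h3 : ∑ a : κ, K a ≤
      Fintype.card κ * (s / M + 2 * s ^ 2 + 3 * s * t * (1 + T.nrm2 X ^ 2)) := by
    have h4 := sum_xs_le T F L X ht m hd hN
    have e4 : ∑ a : κ, K a = Fintype.card κ * (s / M + 2 * s ^ 2) +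
        3 * (s / d) * ∑ a : κ, ∑ l ∈ Finset.range d, T.nrm2 (xs F L X t a l) := by
      simp only [hK]
      rw [Finset.sum_add_distrib, Finset.sum_add_distrib, ← Finset.mul_sum]
      simp only [Finset.sum_const, Finset.card_univ, nsmul_eq_mul]
      ring
    rw [e4]
    have h5 : 3 * (s / d) * ∑ a : κ, ∑ l ∈ Finset.range d, T.nrm2 (xs F L X t a l) ≤
        3 * (s / d) * (t * (Fintype.card κ * d * (1 + T.nrm2 X ^ 2))) :=
      mul_le_mul_of_nonneg_left h4 (by positivity)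
    have e5 : 3 * (s / d) * (t * (Fintype.card κ * d * (1 + T.nrm2 X ^ 2))) =
        Fintype.card κ * (3 * s * t * (1 + T.nrm2 X ^ 2)) := by
      field_simp
    rw [e5] at h5
    linarith
  calc (Fintype.card κ / Fintype.card ι) * (s / 2 * (σ * T.nrm2 y0 ^ 2 - 3 * σ ^ 3 * R ^ 4) -
      (s / M + 2 * s ^ 2 + 3 * s * t * (1 + T.nrm2 X ^ 2)) * R)
      = (Fintype.card ι : ℝ)⁻¹ * (Fintype.card κ *
        (s / 2 * (σ * T.nrm2 y0 ^ 2 - 3 * σ ^ 3 * R ^ 4)) -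
        (Fintype.card κ * (s / M + 2 * s ^ 2 + 3 * s * t * (1 + T.nrm2 X ^ 2))) * R) := by
        field_simp
    _ ≤ (Fintype.card ι : ℝ)⁻¹ * (Fintype.card κ *
        (s / 2 * (σ * T.nrm2 y0 ^ 2 - 3 * σ ^ 3 * R ^ 4)) - (∑ a : κ, K a) * R) := by
        refine mul_le_mul_of_nonneg_left ?_ (by positivity)
        have := mul_le_mul_of_nonneg_right h3 hR0.le
        linarith
    _ = (Fintype.card ι : ℝ)⁻¹ * ∑ a : κ,
        (s / 2 * (σ * T.nrm2 y0 ^ 2 - 3 * σ ^ 3 * R ^ 4) - K a * R) := by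
        rw [Finset.sum_sub_distrib, Finset.sum_mul, Finset.sum_const, Finset.card_univ,
          nsmul_eq_mul]
    _ ≤ _ := mul_le_mul_of_nonneg_left (Finset.sum_le_sum (fun a _ => h2 a)) (by positivity)

/-! ### membership -/

theorem xh_mem (S : StarSubalgebra ℂ A) (hF : ∀ i, F.f i ∈ S) {Z : A} (hZ : Z ∈ S) (i : ι) :
    xh F Z i ∈ S :=
  S.smul_mem (F.E_mem hF (mul_mem (hF i) hZ)) _

theorem outY_mem (S : StarSubalgebra ℂ A) (hS : IsClosed (S : Set A)) (hF : ∀ i, F.f i ∈ S)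
    (hX : IsSelfAdjoint X) (hy : IsSelfAdjoint y0) (ω : κ → ZMod 4)
    (hZ : Zz F L X y0 t s σ ζ ω ∈ S) : outY F L ζ (Dd F L X y0 t s σ ζ ω) ∈ S := by
  unfold outY
  refine S.smul_mem (sum_mem (fun a _ => sum_mem (fun i _ => S.smul_mem (mul_mem (hF i) ?_) _))) _
  unfold Dd Pw
  refine S.smul_mem (pr_mem S _ _ (fun l _ => ?_)) _
  exact cay_mem (isSelfAdjoint_real_smul (xh_sa F (Zz_sa F L hX hy ω) _) t) S hS
    (S.smul_mem (xh_mem F S hF hZ _) _)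

end Crest.Agent.R95.Cor

namespace Crest.Agent.R95

open Complex Cor

/-- **The core lemma.** -/
theorem core {A : Type*} [CStarAlgebra A] (T : TracialState A) (u v : ℕ → A)
    (h1 : ∀ j, IsSelfAdjoint (u j) ∧ IsSelfAdjoint (v j) ∧ u j * u j = 1 ∧ v j * v j = 1 ∧
      u j * v j = -(v j * u j))
    (h2 : ∀ j k, j ≠ k → u j * u k = u k * u j ∧ u j * v k = v k * u j ∧ v j * v k = v k * v j)
    (R s0 : ℝ) (hs0 : 0 < s0) :
    ∃ κ : ℝ, 0 < κ ∧ ∀ y0 : A, IsSelfAdjoint y0 → ‖y0‖ ≤ R → s0 ≤ T.nrm2 y0 →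
      ∀ X : A, IsSelfAdjoint X → ∀ ε : ℝ, 0 < ε →
        ∃ Z Y : A, IsSelfAdjoint Z ∧ T.nrm2 (Z - X) < ε ∧ T.nrm2 Y ≤ 1 ∧
          κ ≤ (T.τ (Y * y0)).re ∧
          ∀ S : StarSubalgebra ℂ A, IsClosed (S : Set A) → (∀ j, u j ∈ S ∧ v j ∈ S) → Z ∈ S →
            Y ∈ S := by
  by_cases hR : R < s0
  · refine ⟨1, one_pos, fun y0 _ hy0 hs => ?_⟩
    have := T.nrm2_le_norm y0
    linarith
  push Not at hR
  have hR0 : 0 < R := hs0.trans_le hR
  -- parameters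
  obtain ⟨G, hG⟩ : ∃ G : ℝ, G = s0 ^ 3 / (3 * R ^ 2) := ⟨_, rfl⟩
  have hG0 : 0 < G := by rw [hG]; positivity
  obtain ⟨σ, hσ⟩ : ∃ σ : ℝ, σ = s0 / (3 * R ^ 2) := ⟨_, rfl⟩
  have hσ0 : 0 < σ := by rw [hσ]; positivity
  obtain ⟨s, hs⟩ : ∃ s : ℝ, s = G / (48 * R) := ⟨_, rfl⟩
  have hs' : 0 < s := by rw [hs]; positivity
  obtain ⟨M, hM⟩ := exists_nat_ge (24 * R / G + 1)
  have hM1 : 24 * R / G ≤ (M : ℝ) := by linarith
  have hM0 : (0 : ℝ) < M := by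
    have : 0 < 24 * R / G := by positivity
    linarith
  have hMn : 1 ≤ M := by
    have : 0 < M := by exact_mod_cast hM0
    omega
  obtain ⟨κ0, hκ0⟩ : ∃ κ0 : ℝ, κ0 = s * G / (24 * M ^ 2) := ⟨_, rfl⟩
  have hκ00 : 0 < κ0 := by rw [hκ0]; positivity
  refine ⟨κ0, hκ00, fun y0 hy hyR hys X hX ε hε => ?_⟩
  obtain ⟨t, ht⟩ : ∃ t : ℝ, t = G / (72 * R * (1 + T.nrm2 X ^ 2)) := ⟨_, rfl⟩
  have hX0 : 0 < 1 + T.nrm2 X ^ 2 := by positivity
  have ht0 : 0 < t := by rw [ht]; positivity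
  obtain ⟨lam, hlam⟩ : ∃ lam : ℝ, lam = 2 * R / ε ^ 2 := ⟨_, rfl⟩
  have hlam0 : 0 < lam := by rw [hlam]; positivity
  obtain ⟨k, hk⟩ := exists_nat_ge (lam * s ^ 2 / (4 * t ^ 2 * M ^ 2 * κ0) + 1)
  have hk0 : (0 : ℝ) < k := by
    have : 0 < lam * s ^ 2 / (4 * t ^ 2 * M ^ 2 * κ0) := by positivity
    linarith
  have hkn : 1 ≤ k := by
    have : 0 < k := by exact_mod_cast hk0
    omega
  obtain ⟨ι, _, _, F, hcard, hF⟩ := exists_pauliSys u v h1 h2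
    (2 * ((M ^ 2) * k) * (1 + ((M ^ 2) * k) * k))
  obtain ⟨q, hq1, hqk, hNq, ⟨L⟩⟩ := exists_lines (M ^ 2) k (Nat.one_le_pow _ _ hMn) hkn ι hcard
  have hcκ : Fintype.card (Fin q × Fin k) = q * k := by
    rw [Fintype.card_prod, Fintype.card_fin, Fintype.card_fin]
  have hd1 : 1 ≤ M ^ 2 * k := Nat.mul_pos (Nat.one_le_pow _ _ hMn) hkn
  have hMd : (k : ℝ) / ((M ^ 2 * k : ℕ) : ℝ) ≤ (1 / (M : ℝ)) ^ 2 := by
    refine le_of_eq ?_
    push_cast
    field_simp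
  have hmain := main_avg T F L (X := X) (y0 := y0) (t := t) (s := s) (σ := σ) hX hy hs' ht0
    hσ0.le (M ^ 2) hd1 rfl (M : ℝ) hM0 hMd (by rw [hcκ]; exact hqk) (by rw [hcκ]; exact hNq)
    hR0 hyR lam hlam0.le
  have hN0 : (0 : ℝ) < Fintype.card ι := by exact_mod_cast card_pos F
  -- evaluate the gain
  have g1 : 2 / 3 * G ≤ σ * T.nrm2 y0 ^ 2 - 3 * σ ^ 3 * R ^ 4 := by
    have e1 : 3 * σ ^ 3 * R ^ 4 = G / 3 := by rw [hσ, hG]; field_simp
    have e2 : σ * s0 ^ 2 = G := by rw [hσ, hG]; field_simp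
    have e3 : s0 ^ 2 ≤ T.nrm2 y0 ^ 2 := by gcongr
    have e4 := mul_le_mul_of_nonneg_left e3 hσ0.le
    linarith
  have g2 : s / M * R ≤ s * G / 24 := by
    have : 24 * R ≤ M * G := by
      rw [div_le_iff₀ hG0] at hM1; exact hM1
    rw [div_mul_eq_mul_div, div_le_iff₀ hM0]
    nlinarith [mul_le_mul_of_nonneg_left this hs'.le]
  have g3 : 2 * s ^ 2 * R = s * G / 24 := by
    rw [sq, hs]; field_simp; ring
  have g4 : 3 * s * t * (1 + T.nrm2 X ^ 2) * R = s * G / 24 := by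
    rw [ht]; field_simp; ring
  have g5 : s * G / 6 ≤ s / 2 * (σ * T.nrm2 y0 ^ 2 - 3 * σ ^ 3 * R ^ 4) -
      (s / M + 2 * s ^ 2 + 3 * s * t * (1 + T.nrm2 X ^ 2)) * R := by
    have e5 := mul_le_mul_of_nonneg_left g1 (show 0 ≤ s / 2 by positivity)
    have e6 : (s / M + 2 * s ^ 2 + 3 * s * t * (1 + T.nrm2 X ^ 2)) * R =
      s / M * R + 2 * s ^ 2 * R + 3 * s * t * (1 + T.nrm2 X ^ 2) * R := by ring
    have e7 : 0 < s * G := by positivity
    rw [e6, g3, g4]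
    linarith
  have g6 : 1 / (2 * (M : ℝ) ^ 2) ≤
      (Fintype.card (Fin q × Fin k) : ℝ) / Fintype.card ι := by
    rw [div_le_div_iff₀ (by positivity) hN0, one_mul, hcκ]
    have : ((Fintype.card ι : ℕ) : ℝ) ≤ ((2 * M ^ 2 * (q * k) : ℕ) : ℝ) := by exact_mod_cast hNq
    push_cast at this ⊢
    linarith
  have g7 : 2 * κ0 ≤ (Fintype.card (Fin q × Fin k) : ℝ) / Fintype.card ι *
      (s / 2 * (σ * T.nrm2 y0 ^ 2 - 3 * σ ^ 3 * R ^ 4) -
      (s / M + 2 * s ^ 2 + 3 * s * t * (1 + T.nrm2 X ^ 2)) * R) := by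
    calc 2 * κ0 = 1 / (2 * (M : ℝ) ^ 2) * (s * G / 6) := by rw [hκ0]; field_simp; ring
      _ ≤ _ := mul_le_mul g6 g5 (by positivity) (by positivity)
  have g8 : lam * (((M ^ 2 * k : ℕ) : ℝ) * (s / (2 * t * ((M ^ 2 * k : ℕ) : ℝ))) ^ 2) ≤ κ0 := by
    have e8 : lam * s ^ 2 / (4 * t ^ 2 * M ^ 2 * κ0) ≤ k := by linarith
    rw [div_le_iff₀ (by positivity)] at e8
    have e9 : lam * (((M ^ 2 * k : ℕ) : ℝ) * (s / (2 * t * ((M ^ 2 * k : ℕ) : ℝ))) ^ 2) =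
        lam * s ^ 2 / (4 * t ^ 2 * (M ^ 2 * k)) := by
      push_cast
      field_simp
      ring
    rw [e9, div_le_iff₀ (by positivity)]
    linarith
  have g9 : κ0 ≤ avg (fun ζ : ι → Bool => avg (fun ω : Fin q × Fin k → ZMod 4 =>
      (T.τ (outY F L ζ (Dd F L X y0 t s σ ζ ω) * y0)).re -
        lam * T.nrm2 (Zz F L X y0 t s σ ζ ω - X) ^ 2)) := by
    refine le_trans ?_ hmain
    linarith
  obtain ⟨ζ, hζ⟩ := exists_le_of_avg g9
  obtain ⟨ω, hω⟩ := exists_le_of_avg hζ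
  have hY1 := nrm2_Y_le T F L (t := t) (s := s) (σ := σ) (ζ := ζ) hX hy
    (by rw [hcκ]; exact hqk) ω
  have hcorr : (T.τ (outY F L ζ (Dd F L X y0 t s σ ζ ω) * y0)).re ≤ R := by
    refine (Complex.re_le_norm _).trans ((T.norm_tau_mul_le _ _).trans ?_)
    calc _ ≤ 1 * R := mul_le_mul hY1 ((T.nrm2_le_norm _).trans hyR) (T.nrm2_nonneg _) zero_le_one
      _ = R := one_mul R
  refine ⟨Zz F L X y0 t s σ ζ ω, outY F L ζ (Dd F L X y0 t s σ ζ ω), Zz_sa F L hX hy ω, ?_, hY1,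
    ?_, ?_⟩
  · have e10 : lam * T.nrm2 (Zz F L X y0 t s σ ζ ω - X) ^ 2 < R := by linarith
    have e11 : T.nrm2 (Zz F L X y0 t s σ ζ ω - X) ^ 2 < ε ^ 2 := by
      by_contra hcon
      push Not at hcon
      have e12 := mul_le_mul_of_nonneg_left hcon hlam0.le
      have e13 : lam * ε ^ 2 = 2 * R := by rw [hlam]; field_simp
      linarith
    exact lt_of_pow_lt_pow_left₀ 2 hε.le e11
  · have e14 : 0 ≤ lam * T.nrm2 (Zz F L X y0 t s σ ζ ω - X) ^ 2 := by positivity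
    linarith
  · intro S hS hS1 hZ
    exact outY_mem F L S hS (hF S hS1) hX hy ω hZ

end Crest.Agent.R95
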