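import Crest.Agent.R95.CoreSum

/-!
# R95 CoreAvg (helper795): averages and the estimate for one constraint.
-/

set_option autoImplicit false
set_option linter.unusedSectionVars false

namespace Crest.Agent.R95.Cor

open Complex

/-! ### averages -/

section avg

variable {Ω : Type*} [Fintype Ω]

theorem avg_mono {f g : Ω → ℝ} (h : ∀ ω, f ω ≤ g ω) : avg f ≤ avg g := by
  unfold avg
  exact mul_le_mul_of_nonneg_left (Finset.sum_le_sum (fun ω _ => h ω)) (by positivity)

theorem avg_add (f g : Ω → ℝ) : avg (fun ω => f ω + g ω) = avg f + avg g := by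
  unfold avg
  rw [Finset.sum_add_distrib, mul_add]

theorem avg_sub (f g : Ω → ℝ) : avg (fun ω => f ω - g ω) = avg f - avg g := by
  unfold avg
  rw [Finset.sum_sub_distrib, mul_sub]

theorem avg_const_mul (c : ℝ) (f : Ω → ℝ) : avg (fun ω => c * f ω) = c * avg f := by
  unfold avg
  rw [← Finset.mul_sum]
  ring

theorem avg_mul_const (c : ℝ) (f : Ω → ℝ) : avg (fun ω => f ω * c) = avg f * c := by
  unfold avg
  rw [← Finset.sum_mul]
  ring

theorem avg_sum {κ : Type*} (s : Finset κ) (f : κ → Ω → ℝ) :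
    avg (fun ω => ∑ a ∈ s, f a ω) = ∑ a ∈ s, avg (f a) := by
  unfold avg
  rw [Finset.sum_comm, Finset.mul_sum]

theorem avg_const [Nonempty Ω] (c : ℝ) : avg (fun _ : Ω => c) = c := by
  unfold avg
  have : (Fintype.card Ω : ℝ) ≠ 0 := by exact_mod_cast Fintype.card_ne_zero
  rw [Finset.sum_const, Finset.card_univ, nsmul_eq_mul]
  field_simp

theorem avg_le_of_sq [Nonempty Ω] {f : Ω → ℝ} {C : ℝ} (hC : 0 < C)
    (h : avg (fun ω => f ω ^ 2) ≤ C ^ 2) : avg f ≤ C := by
  have h1 : avg f ≤ avg (fun ω => (1 / (2 * C)) * f ω ^ 2 + C / 2) := by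
    refine avg_mono (fun ω => ?_)
    have h2 : 0 ≤ (f ω - C) ^ 2 / (2 * C) := by positivity
    have h3 : (f ω - C) ^ 2 / (2 * C) = (1 / (2 * C)) * f ω ^ 2 + C / 2 - f ω := by
      field_simp; ring
    linarith
  rw [avg_add, avg_const_mul, avg_const] at h1
  have h4 : (1 / (2 * C)) * avg (fun ω => f ω ^ 2) ≤ (1 / (2 * C)) * C ^ 2 :=
    mul_le_mul_of_nonneg_left h (by positivity)
  have h5 : (1 / (2 * C)) * C ^ 2 = C / 2 := by field_simp
  linarith

theorem exists_le_of_avg [Nonempty Ω] {f : Ω → ℝ} {C : ℝ} (h : C ≤ avg f) : ∃ ω, C ≤ f ω := by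
  by_contra hcon
  push Not at hcon
  unfold avg at h
  have h1 : ∑ ω, f ω < ∑ _ω : Ω, C :=
    Finset.sum_lt_sum_of_nonempty Finset.univ_nonempty (fun ω _ => hcon ω)
  rw [Finset.sum_const, Finset.card_univ, nsmul_eq_mul] at h1
  have hc : (0 : ℝ) < Fintype.card Ω := by exact_mod_cast Fintype.card_pos
  have h2 : (Fintype.card Ω : ℝ)⁻¹ * ∑ ω, f ω < (Fintype.card Ω : ℝ)⁻¹ * (Fintype.card Ω * C) :=
    mul_lt_mul_of_pos_left h1 (by positivity)
  rw [← mul_assoc, inv_mul_cancel₀ hc.ne', one_mul] at h2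
  linarith

theorem avg_single {κ : Type} [Fintype κ] [DecidableEq κ] (a : κ) (g : ZMod 4 → ℝ) :
    avg (fun ω : κ → ZMod 4 => g (ω a)) = (1 / 4) * ∑ x, g x := by
  unfold avg
  let e := Equiv.funSplitAt a (ZMod 4)
  have h1 : ∑ ω : κ → ZMod 4, g (ω a) = ∑ x : ZMod 4 × ({j // j ≠ a} → ZMod 4), g x.1 := by
    refine Fintype.sum_equiv e _ _ (fun ω => ?_)
    rfl
  have h2 : Fintype.card (κ → ZMod 4) = Fintype.card (ZMod 4 × ({j // j ≠ a} → ZMod 4)) :=
    Fintype.card_congr e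
  rw [h1, h2, Fintype.sum_prod_type, Fintype.card_prod, ZMod.card]
  simp only [Finset.sum_const, Finset.card_univ, nsmul_eq_mul]
  rw [← Finset.mul_sum]
  have h3 : (Fintype.card ({j // j ≠ a} → ZMod 4) : ℝ) ≠ 0 := by
    exact_mod_cast Fintype.card_ne_zero
  push_cast
  field_simp

end avg

end Crest.Agent.R95.Cor
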