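import Mathlib
import Crest.Agent.R95.Defs

/-!
# R095 core, part 1: tracial states on a C*-algebra, the 2-norm, resolvents and Cayley transforms
-/

set_option autoImplicit false

open Complex

namespace Crest.Agent.R95.CB

open Crest.Agent.R95 (TracialState res cay pr)

/-- A tracial state, with exactly the properties used in the core argument. -/
structure Tr (A : Type*) [CStarAlgebra A] where
  τ : A →ₗ[ℂ] ℂ
  star_τ : ∀ a, τ (star a) = star (τ a)
  comm : ∀ a b, τ (a * b) = τ (b * a)
  one_le : (τ 1).re ≤ 1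
  nonneg : ∀ a, 0 ≤ (τ (star a * a)).re
  le : ∀ a x, (τ (star (a * x) * (a * x))).re ≤ ‖a‖ ^ 2 * (τ (star x * x)).re

/-- conversion from the shared structure -/
noncomputable def ofTS {A : Type*} [CStarAlgebra A] (T : TracialState A) : Tr A where
  τ := T.τ
  star_τ := T.star'
  comm := T.tr
  one_le := by rw [T.one]; simp
  nonneg := T.pos
  le := T.bdd

namespace Tr

variable {A : Type*} [CStarAlgebra A] (T : Tr A)

/-- squared 2-norm -/
noncomputable def N (x : A) : ℝ := (T.τ (star x * x)).re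

/-- 2-norm -/
noncomputable def n (x : A) : ℝ := √(T.N x)

theorem N_nonneg (x : A) : 0 ≤ T.N x := T.nonneg x

theorem n_nonneg (x : A) : 0 ≤ T.n x := Real.sqrt_nonneg _

theorem n_sq (x : A) : T.n x ^ 2 = T.N x := Real.sq_sqrt (T.N_nonneg x)

theorem n_mul_self (x : A) : T.n x * T.n x = T.N x := Real.mul_self_sqrt (T.N_nonneg x)

theorem N_star (x : A) : T.N (star x) = T.N x := by
  unfold N; rw [star_star, T.comm]

theorem n_star (x : A) : T.n (star x) = T.n x := by unfold n; rw [T.N_star]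

theorem N_zero : T.N 0 = 0 := by simp [N]

theorem n_zero : T.n 0 = 0 := by simp [n, T.N_zero]

theorem N_smul (c : ℂ) (x : A) : T.N (c • x) = ‖c‖ ^ 2 * T.N x := by
  unfold N
  rw [star_smul, smul_mul_smul_comm, map_smul, smul_eq_mul, Complex.star_def,
    ← Complex.normSq_eq_conj_mul_self, Complex.re_ofReal_mul, Complex.normSq_eq_norm_sq]

theorem n_smul (c : ℂ) (x : A) : T.n (c • x) = ‖c‖ * T.n x := by
  unfold n
  rw [T.N_smul, Real.sqrt_mul (by positivity), Real.sqrt_sq (norm_nonneg _)]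

theorem N_neg (x : A) : T.N (-x) = T.N x := by simp [N]

theorem n_neg (x : A) : T.n (-x) = T.n x := by simp [n, T.N_neg]

/-- `⟨x, y⟩` real part -/
noncomputable def ip (x y : A) : ℝ := (T.τ (star x * y)).re

theorem ip_symm (x y : A) : T.ip x y = T.ip y x := by
  unfold ip
  have : T.τ (star x * y) = star (T.τ (star y * x)) := by
    rw [← T.star_τ, star_mul, star_star]
  rw [this]; simp

theorem N_add (x y : A) : T.N (x + y) = T.N x + 2 * T.ip x y + T.N y := by
  have h := T.ip_symm x y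
  unfold ip at h
  unfold N ip
  rw [star_add, add_mul, mul_add, mul_add, map_add, map_add, map_add]
  simp only [Complex.add_re]
  linarith

theorem N_sub (x y : A) : T.N (x - y) = T.N x - 2 * T.ip x y + T.N y := by
  have h := T.N_add x (-y)
  rw [T.N_neg, ← sub_eq_add_neg] at h
  rw [h]
  have : T.ip x (-y) = - T.ip x y := by simp [ip]
  rw [this]; ring

theorem ip_add_left (x y z : A) : T.ip (x + y) z = T.ip x z + T.ip y z := by
  simp [ip, add_mul]

theorem ip_add_right (x y z : A) : T.ip x (y + z) = T.ip x y + T.ip x z := by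
  simp [ip, mul_add]

theorem ip_smul_right (c : ℝ) (x y : A) : T.ip x ((c : ℂ) • y) = c * T.ip x y := by
  simp [ip]

theorem ip_smul_left (c : ℝ) (x y : A) : T.ip ((c : ℂ) • x) y = c * T.ip x y := by
  rw [T.ip_symm, T.ip_smul_right, T.ip_symm]

theorem abs_ip_le (x y : A) : |T.ip x y| ≤ T.n x * T.n y := by
  -- discriminant
  have key : ∀ c : ℝ, 0 ≤ T.N x + 2 * c * T.ip x y + c ^ 2 * T.N y := by
    intro c
    have h := T.N_nonneg (x + (c : ℂ) • y)
    rw [T.N_add, T.N_smul, T.ip_smul_right] at h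
    simp only [Complex.norm_real, Real.norm_eq_abs, sq_abs] at h
    linarith
  have h2 : T.ip x y ^ 2 ≤ T.N x * T.N y := by
    by_cases hy : T.N y = 0
    · have hx : T.ip x y = 0 := by
        by_contra hne
        have := key (-(T.N x + 1) / (2 * T.ip x y))
        rw [hy] at this
        have e : 2 * (-(T.N x + 1) / (2 * T.ip x y)) * T.ip x y = -(T.N x + 1) := by
          field_simp
        linarith
      rw [hx, hy]; simp
    · have hy' : 0 < T.N y := lt_of_le_of_ne (T.N_nonneg y) (Ne.symm hy)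
      have := key (- T.ip x y / T.N y)
      have e : T.N x + 2 * (- T.ip x y / T.N y) * T.ip x y + (- T.ip x y / T.N y) ^ 2 * T.N y
          = T.N x - T.ip x y ^ 2 / T.N y := by field_simp; ring
      rw [e] at this
      have h3 : T.ip x y ^ 2 / T.N y ≤ T.N x := by linarith
      rwa [div_le_iff₀ hy'] at h3
  rw [← T.n_sq x, ← T.n_sq y, ← mul_pow] at h2
  exact abs_le_of_sq_le_sq h2 (mul_nonneg (T.n_nonneg _) (T.n_nonneg _))

theorem n_add_le (x y : A) : T.n (x + y) ≤ T.n x + T.n y := by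
  apply le_of_sq_le_sq _ (add_nonneg (T.n_nonneg _) (T.n_nonneg _))
  rw [T.n_sq, T.N_add]
  have h1 := (abs_le.1 (T.abs_ip_le x y)).2
  have h2 := T.n_sq x
  have h3 := T.n_sq y
  nlinarith

theorem n_sub_le (x y : A) : T.n (x - y) ≤ T.n x + T.n y := by
  rw [sub_eq_add_neg]
  have := T.n_add_le x (-y)
  rwa [T.n_neg] at this

theorem n_sub_rev (x y : A) : T.n (x - y) = T.n (y - x) := by
  rw [← T.n_neg, neg_sub]

theorem n_mul_le (a x : A) : T.n (a * x) ≤ ‖a‖ * T.n x := by
  apply le_of_sq_le_sq _ (mul_nonneg (norm_nonneg _) (T.n_nonneg _))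
  rw [T.n_sq, mul_pow, T.n_sq]
  exact T.le a x

theorem n_mul_le' (x a : A) : T.n (x * a) ≤ T.n x * ‖a‖ := by
  rw [← T.n_star, star_mul, ← T.n_star x, ← norm_star a, mul_comm (T.n _)]
  exact T.n_mul_le _ _

theorem N_one_le : T.N 1 ≤ 1 := by unfold N; simpa using T.one_le

theorem n_one_le : T.n 1 ≤ 1 := by
  unfold n; exact Real.sqrt_le_one.2 T.N_one_le

theorem n_le_norm (x : A) : T.n x ≤ ‖x‖ := by
  calc T.n x = T.n (x * 1) := by rw [mul_one]
    _ ≤ ‖x‖ * T.n 1 := T.n_mul_le _ _
    _ ≤ ‖x‖ * 1 := by gcongr; exact T.n_one_le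
    _ = ‖x‖ := mul_one _

/-- `re τ(x y)` is bounded by the product of 2-norms. -/
theorem abs_re_τ_mul_le (x y : A) : |(T.τ (x * y)).re| ≤ T.n x * T.n y := by
  have := T.abs_ip_le (star x) y
  rwa [ip, star_star, T.n_star] at this

theorem n_sum_le {ι : Type*} (s : Finset ι) (f : ι → A) :
    T.n (∑ i ∈ s, f i) ≤ ∑ i ∈ s, T.n (f i) := by
  classical
  induction s using Finset.induction_on with
  | empty => simp [T.n_zero]
  | insert i s hi ih =>
    rw [Finset.sum_insert hi, Finset.sum_insert hi]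
    exact (T.n_add_le _ _).trans (by gcongr)

end Tr

section Cayley

variable {A : Type*} [CStarAlgebra A]

theorem isUnit_one_sub {Y : A} (hY : IsSelfAdjoint Y) : IsUnit (1 - I • Y) := by
  have h1 : (-I) ∉ spectrum ℂ Y := by
    intro h
    have := hY.mem_spectrum_eq_re h
    have h2 := congrArg Complex.im this
    simp at h2
  rw [spectrum.notMem_iff] at h1
  have h2 : 1 - I • Y = (algebraMap ℂ A I) * (algebraMap ℂ A (-I) - Y) := by
    rw [mul_sub, ← map_mul, Algebra.smul_def]
    simp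
  rw [h2]
  exact IsUnit.mul ((isUnit_iff_ne_zero.2 I_ne_zero).map _) h1

theorem isUnit_one_add {Y : A} (hY : IsSelfAdjoint Y) : IsUnit (1 + I • Y) := by
  have := isUnit_one_sub hY.neg
  rwa [smul_neg, sub_neg_eq_add] at this

theorem res_mul {Y : A} (hY : IsSelfAdjoint Y) : res Y * (1 - I • Y) = 1 :=
  Ring.inverse_mul_cancel _ (isUnit_one_sub hY)

theorem mul_res {Y : A} (hY : IsSelfAdjoint Y) : (1 - I • Y) * res Y = 1 :=
  Ring.mul_inverse_cancel _ (isUnit_one_sub hY)

theorem res_zero : res (0 : A) = 1 := by simp [res]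

theorem cay_zero : cay (0 : A) = 1 := by
  simp [cay, res_zero]

theorem res_sub_one {Y : A} (hY : IsSelfAdjoint Y) : res Y - 1 = I • (Y * res Y) := by
  have := mul_res hY
  rw [sub_mul, one_mul, smul_mul_assoc] at this
  rw [← this]; abel

theorem res_sub_one' {Y : A} (hY : IsSelfAdjoint Y) : res Y - 1 = I • (res Y * Y) := by
  have := res_mul hY
  rw [mul_sub, mul_one, mul_smul_comm] at this
  rw [← this]; abel

theorem res_comm {Y : A} (hY : IsSelfAdjoint Y) : Y * res Y = res Y * Y := by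
  have h := (res_sub_one hY).symm.trans (res_sub_one' hY)
  exact smul_right_injective A I_ne_zero h

theorem star_res {Y : A} (hY : IsSelfAdjoint Y) : star (res Y) = res (-Y) := by
  have h1 : star (res Y) * (1 + I • Y) = 1 := by
    have := congrArg star (mul_res hY)
    rw [star_mul, star_sub, star_one, star_smul, hY.star_eq] at this
    simpa using this
  have h2 := mul_res hY.neg
  rw [smul_neg, sub_neg_eq_add] at h2
  calc star (res Y) = star (res Y) * ((1 + I • Y) * res (-Y)) := by rw [h2, mul_one]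
    _ = (star (res Y) * (1 + I • Y)) * res (-Y) := by rw [mul_assoc]
    _ = res (-Y) := by rw [h1, one_mul]

theorem cay_eq (Y : A) : cay Y = (1 + I • Y) * res Y := rfl

theorem cay_def {Y : A} (hY : IsSelfAdjoint Y) : cay Y = (2 : ℂ) • res Y - 1 := by
  unfold cay
  have h := res_sub_one hY
  rw [add_mul, one_mul, smul_mul_assoc, ← h, two_smul]; abel

theorem cay_eq' {Y : A} (hY : IsSelfAdjoint Y) : cay Y = res Y * (1 + I • Y) := by
  rw [cay_def hY]
  have h := res_sub_one' hY
  rw [mul_add, mul_one, mul_smul_comm, ← h, two_smul]; abel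

theorem star_cay {Y : A} (hY : IsSelfAdjoint Y) : star (cay Y) = cay (-Y) := by
  rw [cay_def hY, cay_def hY.neg]
  rw [star_sub, star_smul, star_res hY, star_one]
  simp

theorem cay_neg_mul_cay {Y : A} (hY : IsSelfAdjoint Y) : cay (-Y) * cay Y = 1 := by
  rw [cay_eq' hY.neg, cay_eq Y, smul_neg, ← sub_eq_add_neg]
  have h1 : (1 - I • Y) * (1 + I • Y) = (1 + I • Y) * (1 - I • Y) := by
    rw [mul_add, add_mul, mul_one, one_mul, sub_mul, mul_sub]; simp
  have h2 : res (-Y) * (1 + I • Y) = 1 := by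
    have := res_mul hY.neg
    rwa [smul_neg, sub_neg_eq_add] at this
  calc res (-Y) * (1 - I • Y) * ((1 + I • Y) * res Y)
      = res (-Y) * ((1 - I • Y) * (1 + I • Y)) * res Y := by noncomm_ring
    _ = (res (-Y) * (1 + I • Y)) * ((1 - I • Y) * res Y) := by rw [h1]; noncomm_ring
    _ = 1 := by rw [h2, mul_res hY, one_mul]

theorem star_cay_mul_cay {Y : A} (hY : IsSelfAdjoint Y) : star (cay Y) * cay Y = 1 := by
  rw [star_cay hY, cay_neg_mul_cay hY]

theorem cay_mul_star_cay {Y : A} (hY : IsSelfAdjoint Y) : cay Y * star (cay Y) = 1 := by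
  have := cay_neg_mul_cay hY.neg
  rwa [neg_neg, ← star_cay hY] at this

theorem norm_le_one_of_star_mul {u : A} (h : star u * u = 1) : ‖u‖ ≤ 1 := by
  by_cases hA : Nontrivial A
  · have h1 : ‖u‖ * ‖u‖ = 1 := by rw [← CStarRing.norm_star_mul_self, h, norm_one]
    nlinarith [norm_nonneg u]
  · have : Subsingleton A := not_nontrivial_iff_subsingleton.1 hA
    rw [Subsingleton.elim u 0]; simp

theorem norm_cay_le {Y : A} (hY : IsSelfAdjoint Y) : ‖cay Y‖ ≤ 1 :=
  norm_le_one_of_star_mul (star_cay_mul_cay hY)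

theorem norm_one_le : ‖(1 : A)‖ ≤ 1 := norm_le_one_of_star_mul (by simp)

theorem norm_res_le {Y : A} (hY : IsSelfAdjoint Y) : ‖res Y‖ ≤ 1 := by
  have h : res Y = (2⁻¹ : ℂ) • (cay Y + 1) := by
    rw [cay_def hY, sub_add_cancel, smul_smul]; norm_num
  rw [h, norm_smul]
  have h1 := norm_cay_le hY
  have h2 : ‖(1 : A)‖ ≤ 1 := norm_one_le
  have h3 := norm_add_le (cay Y) (1 : A)
  have h4 : ‖(2⁻¹ : ℂ)‖ = 2⁻¹ := by simp
  rw [h4]; linarith

/-- resolvent identity -/
theorem res_add_sub {Y h : A} (hY : IsSelfAdjoint Y) (hh : IsSelfAdjoint h) :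
    res (Y + h) - res Y = I • (res (Y + h) * h * res Y) := by
  have h1 := res_mul (hY.add hh)
  have h2 := mul_res hY
  have h3 : res (Y + h) * (1 - I • Y) = 1 + I • (res (Y + h) * h) := by
    have : (1 - I • Y) = (1 - I • (Y + h)) + I • h := by rw [smul_add]; abel
    rw [this, mul_add, h1, mul_smul_comm]
  calc res (Y + h) - res Y = res (Y + h) * ((1 - I • Y) * res Y) - res Y := by rw [h2, mul_one]
    _ = (res (Y + h) * (1 - I • Y)) * res Y - res Y := by rw [mul_assoc]
    _ = I • (res (Y + h) * h * res Y) := by rw [h3, add_mul, one_mul, smul_mul_assoc]; abel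

theorem cay_add_sub {Y h : A} (hY : IsSelfAdjoint Y) (hh : IsSelfAdjoint h) :
    cay (Y + h) - cay Y = (2 * I) • (res (Y + h) * h * res Y) := by
  rw [cay_def hY, cay_def (hY.add hh)]
  rw [mul_smul, ← res_add_sub hY hh, smul_sub]; abel

/-- second difference of the Cayley transform -/
theorem norm_cay_second_diff {Y h : A} (hY : IsSelfAdjoint Y) (hh : IsSelfAdjoint h) :
    ‖cay (Y + h) + cay (Y - h) - (2 : ℂ) • cay Y‖ ≤ 4 * ‖h‖ ^ 2 := by
  have h1 := cay_add_sub hY hh
  have h2 := cay_add_sub hY hh.neg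
  have h3 := res_add_sub (hY.sub hh) (hh.add hh)
  have e : Y - h + (h + h) = Y + h := by abel
  rw [e] at h3
  rw [← sub_eq_add_neg] at h2
  have key : cay (Y + h) + cay (Y - h) - (2 : ℂ) • cay Y
      = (2 * I * I) • (res (Y + h) * (h + h) * res (Y - h) * h * res Y) := by
    have : cay (Y + h) + cay (Y - h) - (2 : ℂ) • cay Y
        = (cay (Y + h) - cay Y) + (cay (Y - h) - cay Y) := by rw [two_smul]; abel
    rw [this, h1, h2, ← smul_add]
    have e2 : res (Y + h) * h * res Y + res (Y - h) * -h * res Y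
        = (res (Y + h) - res (Y - h)) * h * res Y := by noncomm_ring
    rw [e2, h3, smul_mul_assoc, smul_mul_assoc, smul_smul]
  rw [key, norm_smul]
  have n1 := norm_res_le (hY.add hh)
  have n2 := norm_res_le (hY.sub hh)
  have n3 := norm_res_le hY
  have n4 : ‖h + h‖ ≤ 2 * ‖h‖ := by
    have := norm_add_le h h; linarith
  have n5 : ‖(2 * I * I : ℂ)‖ = 2 := by simp
  rw [n5]
  have n6 : ‖res (Y + h) * (h + h) * res (Y - h) * h * res Y‖ ≤ 1 * (2 * ‖h‖) * 1 * ‖h‖ * 1 := by
    refine (norm_mul_le _ _).trans ?_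
    gcongr
    refine (norm_mul_le _ _).trans ?_
    gcongr
    refine (norm_mul_le _ _).trans ?_
    gcongr
    refine (norm_mul_le _ _).trans ?_
    gcongr
  nlinarith

/-- almost multiplicativity of the Cayley transform, in 2-norm -/
theorem n_cay_add_sub_mul_le (T : Tr A) {X h : A} (hX : IsSelfAdjoint X) (hh : IsSelfAdjoint h) :
    T.n (cay (X + h) - cay X * cay h) ≤ 8 * T.n X * ‖h‖ + 4 * ‖h‖ ^ 2 := by
  have h1 := cay_add_sub hX hh
  have h2 := cay_add_sub (IsSelfAdjoint.zero A) hh
  rw [zero_add, cay_zero, res_zero, mul_one] at h2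
  -- decomposition
  have key : cay (X + h) - cay X * cay h
      = (2 * I) • ((res (X + h) - 1) * (h * res X) + h * (res X - 1)
          - (cay X - 1) * (res h * h) - (res h - 1) * h) := by
    have e1 : cay X * cay h = cay X + cay X * (cay h - 1) := by rw [mul_sub]; simp
    rw [e1, h2]
    have e2 : cay (X + h) - (cay X + cay X * (2 * I) • (res h * h))
        = (cay (X + h) - cay X) - cay X * (2 * I) • (res h * h) := by abel
    rw [e2, h1, mul_smul_comm, ← smul_sub]
    congr 1
    noncomm_ring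
  have nr1 := norm_res_le (hX.add hh)
  have nr2 := norm_res_le hX
  have nr3 := norm_res_le hh
  have r1 := res_sub_one' (hX.add hh)
  have r2 := res_sub_one hX
  have r2' := res_sub_one' hX
  have r3 := res_sub_one hh
  have nh : T.n h ≤ ‖h‖ := T.n_le_norm h
  have hn0 := norm_nonneg h
  have hX0 := T.n_nonneg X
  -- four terms
  have b1 : T.n ((res (X + h) - 1) * (h * res X)) ≤ (T.n X + ‖h‖) * ‖h‖ := by
    refine (T.n_mul_le' _ _).trans ?_
    have a1 : T.n (res (X + h) - 1) ≤ T.n X + ‖h‖ := by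
      rw [r1, T.n_smul]
      simp only [norm_I, one_mul]
      refine (T.n_mul_le _ _).trans ?_
      have := T.n_add_le X h
      calc ‖res (X + h)‖ * T.n (X + h) ≤ 1 * (T.n X + T.n h) := by
            gcongr
            exact T.n_nonneg _
        _ ≤ T.n X + ‖h‖ := by linarith
    have a2 : ‖h * res X‖ ≤ ‖h‖ := by
      refine (norm_mul_le _ _).trans ?_
      calc ‖h‖ * ‖res X‖ ≤ ‖h‖ * 1 := by gcongr
        _ = ‖h‖ := mul_one _
    exact mul_le_mul a1 a2 (norm_nonneg _) (by positivity)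
  have b2 : T.n (h * (res X - 1)) ≤ ‖h‖ * T.n X := by
    refine (T.n_mul_le _ _).trans ?_
    gcongr
    rw [r2', T.n_smul]
    simp only [norm_I, one_mul]
    refine (T.n_mul_le _ _).trans ?_
    calc ‖res X‖ * T.n X ≤ 1 * T.n X := by gcongr
      _ = T.n X := one_mul _
  have b3 : T.n ((cay X - 1) * (res h * h)) ≤ 2 * T.n X * ‖h‖ := by
    refine (T.n_mul_le' _ _).trans ?_
    have a1 : T.n (cay X - 1) ≤ 2 * T.n X := by
      have : cay X - 1 = (2 * I) • (res X * X) := by
        rw [mul_smul, ← r2', smul_sub, cay_def hX]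
        rw [two_smul ℂ (1 : A)]; abel
      rw [this, T.n_smul]
      have n5 : ‖(2 * I : ℂ)‖ = 2 := by simp
      rw [n5]
      gcongr
      refine (T.n_mul_le _ _).trans ?_
      calc ‖res X‖ * T.n X ≤ 1 * T.n X := by gcongr
        _ = T.n X := one_mul _
    have a2 : ‖res h * h‖ ≤ ‖h‖ := by
      refine (norm_mul_le _ _).trans ?_
      calc ‖res h‖ * ‖h‖ ≤ 1 * ‖h‖ := by gcongr
        _ = ‖h‖ := one_mul _
    exact mul_le_mul a1 a2 (norm_nonneg _) (by positivity)
  have b4 : T.n ((res h - 1) * h) ≤ ‖h‖ ^ 2 := by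
    refine (T.n_le_norm _).trans ?_
    rw [r3, smul_mul_assoc, norm_smul, norm_I, one_mul]
    refine (norm_mul_le _ _).trans ?_
    refine (mul_le_mul_of_nonneg_right (norm_mul_le _ _) hn0).trans ?_
    nlinarith [mul_nonneg hn0 hn0]
  rw [key, T.n_smul]
  have n5 : ‖(2 * I : ℂ)‖ = 2 := by simp
  rw [n5]
  have t1 := T.n_sub_le ((res (X + h) - 1) * (h * res X) + h * (res X - 1)
          - (cay X - 1) * (res h * h)) ((res h - 1) * h)
  have t2 := T.n_sub_le ((res (X + h) - 1) * (h * res X) + h * (res X - 1))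
          ((cay X - 1) * (res h * h))
  have t3 := T.n_add_le ((res (X + h) - 1) * (h * res X)) (h * (res X - 1))
  nlinarith

end Cayley

end Crest.Agent.R95.CB
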