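import Mathlib

/-!
# R95 CoreLines (helper795): the incidence structure (lines `s = u + l v`).
-/

set_option autoImplicit false

namespace Crest.Agent.R95.Cor

/-- Incidence structure: `p l a` = the variable used by constraint `a` at level `l < d`.-/
structure Lines (ι κ : Type) (d k : ℕ) where
  p : ℕ → κ → ι
  ai : κ → ι
  ai_inj : Function.Injective ai
  level : ∀ l < d, ∀ l' < d, ∀ a b, p l a = p l' b → l = l'
  meet : ∀ a b, a ≠ b → ∀ l < d, ∀ l' < d, p l a = p l b → p l' a = p l' b → l = l'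
  deg : ∀ l < d, ∀ i : ι, ∀ s : Finset κ, (∀ a ∈ s, p l a = i) → s.card ≤ k

theorem exists_lines (m k : ℕ) (hm : 1 ≤ m) (hk : 1 ≤ k) (ι : Type) [Fintype ι]
    (hι : 2 * (m * k) * (1 + (m * k) * k) ≤ Fintype.card ι) :
    ∃ q : ℕ, 1 ≤ q ∧ q * k ≤ Fintype.card ι ∧ Fintype.card ι ≤ 2 * m * (q * k) ∧
      Nonempty (Lines ι (Fin q × Fin k) (m * k) k) := by
  classical
  set d := m * k with hd
  have hd1 : 1 ≤ d := Nat.mul_pos hm hk
  set N := Fintype.card ι with hN
  set q := N / d - d * k with hq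
  have h1 : 2 * (1 + d * k) ≤ N / d := by
    rw [Nat.le_div_iff_mul_le (by omega)]
    calc 2 * (1 + d * k) * d = 2 * d * (1 + d * k) := by ring
      _ ≤ N := hι
  have hqd : q + d * k = N / d := by omega
  have hdN : d * (q + d * k) ≤ N := by rw [hqd]; exact Nat.mul_div_le N d
  have hq1 : 1 ≤ q := by omega
  have hqk : q * k ≤ N := by
    calc q * k ≤ q * d := Nat.mul_le_mul_left _ (by rw [hd]; exact Nat.le_mul_of_pos_left k hm)
      _ = d * q := Nat.mul_comm _ _
      _ ≤ d * (q + d * k) := Nat.mul_le_mul_left _ (by omega)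
      _ ≤ N := hdN
  have hNq : N ≤ 2 * m * (q * k) := by
    have h2 : N < d * (N / d + 1) := by
      have := Nat.div_add_mod N d
      have h3 := Nat.mod_lt N (show 0 < d by omega)
      nlinarith
    have h4 : N / d + 1 ≤ 2 * q := by omega
    calc N ≤ d * (N / d + 1) := h2.le
      _ ≤ d * (2 * q) := Nat.mul_le_mul_left _ h4
      _ = 2 * m * (q * k) := by rw [hd]; ring
  refine ⟨q, hq1, hqk, hNq, ?_⟩
  -- embeddings
  have hc : Fintype.card (Fin d × Fin (q + d * k)) ≤ Fintype.card ι := by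
    rw [Fintype.card_prod, Fintype.card_fin, Fintype.card_fin]; exact hdN
  obtain ⟨e⟩ := Function.Embedding.nonempty_of_card_le hc
  have hc2 : Fintype.card (Fin q × Fin k) ≤ Fintype.card ι := by
    rw [Fintype.card_prod, Fintype.card_fin, Fintype.card_fin]; exact hqk
  obtain ⟨ai⟩ := Function.Embedding.nonempty_of_card_le hc2
  have hs : ∀ l < d, ∀ a : Fin q × Fin k, (a.1 : ℕ) + l * a.2 < q + d * k := by
    intro l hl a
    have h5 : l * (a.2 : ℕ) ≤ d * k := Nat.mul_le_mul hl.le a.2.2.le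
    have := a.1.2
    omega
  let p : ℕ → Fin q × Fin k → ι := fun l a =>
    if hl : l < d then e (⟨l, hl⟩, ⟨(a.1 : ℕ) + l * a.2, hs l hl a⟩) else ai a
  have hp : ∀ l (hl : l < d) a, p l a = e (⟨l, hl⟩, ⟨(a.1 : ℕ) + l * a.2, hs l hl a⟩) := by
    intro l hl a
    simp only [p, dif_pos hl]
  have hpe : ∀ l < d, ∀ l' < d, ∀ a b, p l a = p l' b →
      l = l' ∧ (a.1 : ℕ) + l * a.2 = (b.1 : ℕ) + l' * b.2 := by
    intro l hl l' hl' a b h
    rw [hp l hl a, hp l' hl' b] at h
    have h6 := e.injective h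
    rw [Prod.mk.injEq, Fin.mk.injEq, Fin.mk.injEq] at h6
    exact h6
  refine ⟨⟨p, ai, ai.injective, ?_, ?_, ?_⟩⟩
  · intro l hl l' hl' a b h
    exact (hpe l hl l' hl' a b h).1
  · intro a b hab l hl l' hl' h h'
    by_contra hne
    apply hab
    have e1 := (hpe l hl l hl a b h).2
    have e2 := (hpe l' hl' l' hl' a b h').2
    have e3 : ((l : ℤ) - l') * ((a.2 : ℤ) - b.2) = 0 := by
      have e1' : ((a.1 : ℕ) : ℤ) + l * (a.2 : ℕ) = (b.1 : ℕ) + l * (b.2 : ℕ) := by exact_mod_cast e1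
      have e2' : ((a.1 : ℕ) : ℤ) + l' * (a.2 : ℕ) = (b.1 : ℕ) + l' * (b.2 : ℕ) := by
        exact_mod_cast e2
      linear_combination e1' - e2'
    have e4 : (l : ℤ) - l' ≠ 0 := by
      intro h0; apply hne; omega
    have e5 : ((a.2 : ℕ) : ℤ) - (b.2 : ℕ) = 0 := (mul_eq_zero.mp e3).resolve_left e4
    have e6 : (a.2 : ℕ) = b.2 := by omega
    have e7 : (a.1 : ℕ) = b.1 := by rw [e6] at e1; omega
    exact Prod.ext (Fin.ext e7) (Fin.ext e6)
  · intro l hl i s hs'
    have hinj : Set.InjOn (fun a : Fin q × Fin k => a.2) (s : Set (Fin q × Fin k)) := by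
      intro a ha b hb hab
      have h8 := (hpe l hl l hl a b ((hs' a ha).trans (hs' b hb).symm)).2
      have h9 : a.2 = b.2 := hab
      rw [h9] at h8
      have h10 : (a.1 : ℕ) = b.1 := by omega
      exact Prod.ext (Fin.ext h10) h9
    calc s.card = (s.image (fun a : Fin q × Fin k => a.2)).card :=
          (Finset.card_image_of_injOn hinj).symm
      _ ≤ Fintype.card (Fin k) := Finset.card_le_univ _
      _ = k := Fintype.card_fin k

end Crest.Agent.R95.Cor
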