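import Crest.Agent.R95.CoreAvg

/-!
# R95 CoreOne (helper795): the estimate for one constraint.
-/

set_option autoImplicit false
set_option linter.unusedSectionVars false

namespace Crest.Agent.R95.Cor

open Complex

variable {A : Type*} [CStarAlgebra A] (T : TracialState A)
variable {ι κ : Type} [Fintype ι] [DecidableEq ι] [Fintype κ] [DecidableEq κ] (F : PauliSys A ι)
  {d k : ℕ} (L : Lines ι κ d k)

/-- the truncated test element -/
noncomputable def gma (y0 : A) (σ : ℝ) (ζ : ι → Bool) (a : κ) : A :=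
  gam ((σ : ℂ) • eta F L y0 ζ a)

/-- scaled coordinates along the constraint `a` -/
noncomputable def xs (X : A) (t : ℝ) (a : κ) (l : ℕ) : A := (t : ℂ) • xh F X (L.p l a)

/-- `V_a` -/
noncomputable def Va (X : A) (t : ℝ) (a : κ) : A := pr (fun j => cay (xs F L X t a j)) d

/-- the move -/
noncomputable def be (X y0 : A) (t s σ : ℝ) (ζ : ι → Bool) (a : κ) (x : ZMod 4) : A :=
  beta s (Va F L X t a) (gma F L y0 σ ζ a) x

/-- the modification of the coordinates -/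
noncomputable def nn (X y0 : A) (t s σ : ℝ) (ζ : ι → Bool) (a : κ) (l : ℕ) (x : ZMod 4) : A :=
  ((1 / (2 * t * d) : ℝ) : ℂ) • conjW (xs F L X t a) l (be F L X y0 t s σ ζ a x)

/-- the new element -/
noncomputable def Zz (X y0 : A) (t s σ : ℝ) (ζ : ι → Bool) (ω : κ → ZMod 4) : A :=
  modi F L X (fun a l => nn F L X y0 t s σ ζ a l (ω a))

/-- the word -/
noncomputable def Pw (X : A) (t : ℝ) (Z : A) (a : κ) : A :=
  pr (fun l => cay ((t : ℂ) • xh F Z (L.p l a))) d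

variable {X y0 : A} {t s σ : ℝ} {ζ : ι → Bool}

theorem eta_sa (hy : IsSelfAdjoint y0) (ζ : ι → Bool) (a : κ) :
    IsSelfAdjoint (eta F L y0 ζ a) := by
  unfold eta
  exact isSelfAdjoint_sum _ (fun i _ => isSelfAdjoint_real_smul
    (isSelfAdjoint_real_smul (F.E_sa hy i) _) _)

theorem eta_inQ (y0 : A) (ζ : ι → Bool) (a : κ) : F.InQ (eta F L y0 ζ a) := by
  unfold eta
  exact PauliSys.InQ.sum F _ _ (fun i _ => PauliSys.InQ.smul F _
    (PauliSys.InQ.smul F _ (F.E_inQ _)))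

theorem gma_sa (hy : IsSelfAdjoint y0) (σ : ℝ) (ζ : ι → Bool) (a : κ) :
    IsSelfAdjoint (gma F L y0 σ ζ a) :=
  gam_sa (isSelfAdjoint_real_smul (eta_sa F L hy ζ a) σ)

theorem norm_gma_le (hy : IsSelfAdjoint y0) (σ : ℝ) (ζ : ι → Bool) (a : κ) :
    ‖gma F L y0 σ ζ a‖ ≤ 1 :=
  norm_gam_le (isSelfAdjoint_real_smul (eta_sa F L hy ζ a) σ)

theorem gma_inQ (hy : IsSelfAdjoint y0) (σ : ℝ) (ζ : ι → Bool) (a : κ) :
    F.InQ (gma F L y0 σ ζ a) := by
  intro i
  refine commute_gam (isSelfAdjoint_real_smul (eta_sa F L hy ζ a) σ) ?_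
  exact PauliSys.InQ.smul F _ (eta_inQ F L y0 ζ a) i

theorem xs_sa (hX : IsSelfAdjoint X) (t : ℝ) (a : κ) (l : ℕ) : IsSelfAdjoint (xs F L X t a l) :=
  isSelfAdjoint_real_smul (xh_sa F hX _) t

theorem xs_inQ (X : A) (t : ℝ) (a : κ) (l : ℕ) : F.InQ (xs F L X t a l) :=
  PauliSys.InQ.smul F _ (xh_inQ F X _)

theorem W_inQ (hX : IsSelfAdjoint X) (t : ℝ) (a : κ) (l : ℕ) :
    F.InQ (pr (fun j => cay (xs F L X t a j)) l) :=
  pr_inQ F _ _ (fun j _ => PauliSys.InQ.cay F (xs_sa F L hX t a j) (xs_inQ F L X t a j))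

theorem norm_Va_le (hX : IsSelfAdjoint X) (t : ℝ) (a : κ) : ‖Va F L X t a‖ ≤ 1 :=
  norm_pr_le _ (fun j => norm_cay_le (xs_sa F L hX t a j)) d norm_one_le'

theorem star_Va_mul (hX : IsSelfAdjoint X) (t : ℝ) (a : κ) :
    star (Va F L X t a) * Va F L X t a = 1 :=
  star_pr_mul _ _ (fun j _ => star_cay_mul (xs_sa F L hX t a j))

theorem be_sa (a : κ) (x : ZMod 4) : IsSelfAdjoint (be F L X y0 t s σ ζ a x) :=
  beta_sa _ _ _ _

theorem beta_inQ {V γ : A} (hV : F.InQ V) (hγ : F.InQ γ) (s : ℝ) (x : ZMod 4) :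
    F.InQ (beta s V γ x) := by
  unfold beta
  have h1 : F.InQ ((I * ph x) • (V * γ)) := PauliSys.InQ.smul F _ (PauliSys.InQ.mul F hV hγ)
  exact PauliSys.InQ.smul F _ (PauliSys.InQ.add F h1 (PauliSys.InQ.star F h1))

theorem be_inQ (hX : IsSelfAdjoint X) (hy : IsSelfAdjoint y0) (a : κ) (x : ZMod 4) :
    F.InQ (be F L X y0 t s σ ζ a x) :=
  beta_inQ F (W_inQ F L hX t a d) (gma_inQ F L hy σ ζ a) s x

theorem norm_be_le (hX : IsSelfAdjoint X) (hy : IsSelfAdjoint y0) (hs : 0 ≤ s) (a : κ)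
    (x : ZMod 4) : ‖be F L X y0 t s σ ζ a x‖ ≤ s :=
  norm_beta_le hs (norm_Va_le F L hX t a) (norm_gma_le F L hy σ ζ a) x

theorem nn_sa (a : κ) (l : ℕ) (x : ZMod 4) : IsSelfAdjoint (nn F L X y0 t s σ ζ a l x) :=
  isSelfAdjoint_real_smul (conjW_sa _ _ (be_sa F L a x)) _

theorem conjW_inQ (x : ℕ → A) (l : ℕ) (hx : F.InQ (pr (fun j => cay (x j)) l)) {b : A}
    (hb : F.InQ b) : F.InQ (conjW x l b) :=
  PauliSys.InQ.mul F (PauliSys.InQ.mul F (PauliSys.InQ.star F hx) hb) hx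

theorem nn_inQ (hX : IsSelfAdjoint X) (hy : IsSelfAdjoint y0) (a : κ) (l : ℕ) (x : ZMod 4) :
    F.InQ (nn F L X y0 t s σ ζ a l x) :=
  PauliSys.InQ.smul F _ (conjW_inQ F _ _ (W_inQ F L hX t a l) (be_inQ F L hX hy a x))

theorem sum_nn (a : κ) (l : ℕ) : ∑ x, nn F L X y0 t s σ ζ a l x = 0 := by
  unfold nn be
  rw [← Finset.smul_sum, ← conjW_sum, sum_beta, conjW_zero, smul_zero]

theorem norm_nn_le (hX : IsSelfAdjoint X) (hy : IsSelfAdjoint y0) (hs : 0 ≤ s) (ht : 0 < t)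
    (a : κ) (l : ℕ) (x : ZMod 4) : ‖nn F L X y0 t s σ ζ a l x‖ ≤ s / (2 * t * d) := by
  unfold nn
  rw [norm_smul, Complex.norm_real, Real.norm_of_nonneg (by positivity)]
  calc 1 / (2 * t * d) * ‖conjW (xs F L X t a) l (be F L X y0 t s σ ζ a x)‖
      ≤ 1 / (2 * t * d) * s := by
        refine mul_le_mul_of_nonneg_left ?_ (by positivity)
        exact (norm_conjW_le _ (fun l => xs_sa F L hX t a l) l _).trans (norm_be_le F L hX hy hs a x)
    _ = s / (2 * t * d) := by ring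

theorem t_nn (ht : 0 < t) (a : κ) (l : ℕ) (x : ZMod 4) :
    (t : ℂ) • nn F L X y0 t s σ ζ a l x =
      ((1 / (2 * d) : ℝ) : ℂ) • conjW (xs F L X t a) l (be F L X y0 t s σ ζ a x) := by
  unfold nn
  rw [smul_smul]
  congr 1
  rw [← Complex.ofReal_mul]
  congr 1
  field_simp

theorem Zz_sa (hX : IsSelfAdjoint X) (hy : IsSelfAdjoint y0) (ω : κ → ZMod 4) :
    IsSelfAdjoint (Zz F L X y0 t s σ ζ ω) :=
  modi_sa F L hX _ (fun a l => nn_inQ F L hX hy a l _) (fun a l => nn_sa F L a l _)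

/-- coordinates of the new element along a constraint -/
theorem t_xh_Zz (hX : IsSelfAdjoint X) (hy : IsSelfAdjoint y0) (ω : κ → ZMod 4)
    (a : κ) (l : ℕ) (hl : l < d) :
    (t : ℂ) • xh F (Zz F L X y0 t s σ ζ ω) (L.p l a) =
      (xs F L X t a l + (t : ℂ) • nn F L X y0 t s σ ζ a l (ω a)) +
        ∑ b ∈ Bset L a l, (t : ℂ) • nn F L X y0 t s σ ζ b l (ω b) := by
  unfold Zz
  rw [xh_modi F L X _ (fun a l => nn_inQ F L hX hy a l _), coll_eq L _ a l hl, smul_add, smul_add,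
    Finset.smul_sum, ← add_assoc]
  rfl

/-- foreign noise -/
theorem avg_foreign (hX : IsSelfAdjoint X) (hy : IsSelfAdjoint y0) (hs : 0 ≤ s) (ht : 0 < t)
    (hd : 1 ≤ d) (a : κ) :
    avg (fun ω : κ → ZMod 4 => T.nrm2 (Pw F L X t (Zz F L X y0 t s σ ζ ω) a -
      pr (fun l => cay (xs F L X t a l + ((1 / (2 * d) : ℝ) : ℂ) •
        conjW (xs F L X t a) l (be F L X y0 t s σ ζ a (ω a)))) d) ^ 2) ≤ s ^ 2 * (k / d) := by
  have hd0 : (0 : ℝ) < d := by exact_mod_cast hd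
  have e1 : ∀ ω : κ → ZMod 4, Pw F L X t (Zz F L X y0 t s σ ζ ω) a =
      pr (fun l => cay ((xs F L X t a l + (t : ℂ) • nn F L X y0 t s σ ζ a l (ω a)) +
        ∑ b ∈ Bset L a l, (fun l b x => (t : ℂ) • nn F L X y0 t s σ ζ b l x) l b (ω b))) d := by
    intro ω
    unfold Pw
    refine pr_congr (fun l hl => ?_)
    rw [t_xh_Zz F L hX hy ω a l hl]
  have e2 : ∀ ω : κ → ZMod 4, pr (fun l => cay (xs F L X t a l + ((1 / (2 * d) : ℝ) : ℂ) •
        conjW (xs F L X t a) l (be F L X y0 t s σ ζ a (ω a)))) d =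
      pr (fun l => cay ((fun l (ω : κ → ZMod 4) =>
        xs F L X t a l + (t : ℂ) • nn F L X y0 t s σ ζ a l (ω a)) l ω)) d := by
    intro ω
    refine pr_congr (fun l _ => ?_)
    simp only [t_nn F L ht]
  simp_rw [e1, e2]
  refine (noise T d (Bset L a) (Bset_disjoint L a)
    (fun l (ω : κ → ZMod 4) => xs F L X t a l + (t : ℂ) • nn F L X y0 t s σ ζ a l (ω a))
    (fun l ω => (xs_sa F L hX t a l).add (isSelfAdjoint_real_smul (nn_sa F L a l _) t)) ?_
    (fun l b x => (t : ℂ) • nn F L X y0 t s σ ζ b l x)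
    (fun l b x => isSelfAdjoint_real_smul (nn_sa F L b l x) t) ?_).trans ?_
  · intro l _ j _ b hb ω x
    have hba : b ≠ a := ((mem_Bset L).mp hb).1
    simp only [Function.update_of_ne hba.symm]
  · intro l _ b _
    rw [← Finset.smul_sum, sum_nn, smul_zero]
  · have h1 : ∀ l b x, T.nrm2 ((t : ℂ) • nn F L X y0 t s σ ζ b l x) ^ 2 ≤ (s / (2 * d)) ^ 2 := by
      intro l b x
      have h2 : T.nrm2 ((t : ℂ) • nn F L X y0 t s σ ζ b l x) ≤ s / (2 * d) := by
        refine (T.nrm2_le_norm _).trans ?_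
        rw [norm_smul, Complex.norm_real, Real.norm_of_nonneg ht.le]
        calc t * ‖nn F L X y0 t s σ ζ b l x‖ ≤ t * (s / (2 * t * d)) :=
              mul_le_mul_of_nonneg_left (norm_nn_le F L hX hy hs ht b l x) ht.le
          _ = s / (2 * d) := by field_simp
      have h3 := T.nrm2_nonneg ((t : ℂ) • nn F L X y0 t s σ ζ b l x)
      gcongr
    calc 4 * ∑ l ∈ Finset.range d, ∑ b ∈ Bset L a l, (1 / 4) *
          ∑ x, T.nrm2 ((t : ℂ) • nn F L X y0 t s σ ζ b l x) ^ 2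
        ≤ 4 * ∑ l ∈ Finset.range d, ∑ b ∈ Bset L a l, (1 / 4) *
          ∑ _x : ZMod 4, (s / (2 * d)) ^ 2 := by
          refine mul_le_mul_of_nonneg_left (Finset.sum_le_sum (fun l _ =>
            Finset.sum_le_sum (fun b _ => mul_le_mul_of_nonneg_left
              (Finset.sum_le_sum (fun x _ => h1 l b x)) (by norm_num)))) (by norm_num)
      _ = 4 * ∑ l ∈ Finset.range d, ((Bset L a l).card : ℝ) * (s / (2 * d)) ^ 2 := by
          congr 1
          refine Finset.sum_congr rfl (fun l _ => ?_)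
          rw [Finset.sum_const, Finset.sum_const, Finset.card_univ, ZMod.card]
          simp only [nsmul_eq_mul]
          push_cast
          ring
      _ ≤ 4 * ∑ l ∈ Finset.range d, (k : ℝ) * (s / (2 * d)) ^ 2 := by
          refine mul_le_mul_of_nonneg_left (Finset.sum_le_sum (fun l hl =>
            mul_le_mul_of_nonneg_right ?_ (by positivity))) (by norm_num)
          exact_mod_cast Bset_card_le L a l (Finset.mem_range.mp hl)
      _ = s ^ 2 * (k / d) := by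
          rw [Finset.sum_const, Finset.card_range, nsmul_eq_mul]
          field_simp
          ring

/-- (F4) the gain of one constraint -/
theorem gain_one (hX : IsSelfAdjoint X) (hy : IsSelfAdjoint y0) (hs : 0 < s) (ht : 0 < t)
    (hd : 1 ≤ d) (M : ℝ) (hM : 0 < M) (hMd : (k : ℝ) / d ≤ (1 / M) ^ 2) (a : κ) :
    s / 2 * (T.τ (gma F L y0 σ ζ a * eta F L y0 ζ a)).re -
      (s / M + (3 * (s / d) * ∑ l ∈ Finset.range d, T.nrm2 (xs F L X t a l) + 2 * s ^ 2)) *
        T.nrm2 (eta F L y0 ζ a) ≤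
    avg (fun ω : κ → ZMod 4 =>
      (T.τ ((ph (ω a) • Pw F L X t (Zz F L X y0 t s σ ζ ω) a) * eta F L y0 ζ a)).re) := by
  set η := eta F L y0 ζ a with hη
  set own : ZMod 4 → A := fun x => pr (fun l => cay (xs F L X t a l + ((1 / (2 * d) : ℝ) : ℂ) •
        conjW (xs F L X t a) l (be F L X y0 t s σ ζ a x))) d with hown
  set own' : ZMod 4 → A := fun x => (1 + I • be F L X y0 t s σ ζ a x) * Va F L X t a with hown'
  set K := 3 * (s / d) * ∑ l ∈ Finset.range d, T.nrm2 (xs F L X t a l) + 2 * s ^ 2 with hK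
  have hη0 := T.nrm2_nonneg η
  -- pointwise
  have h1 : ∀ ω : κ → ZMod 4,
      (T.τ ((ph (ω a) • own' (ω a)) * η)).re -
        (T.nrm2 (Pw F L X t (Zz F L X y0 t s σ ζ ω) a - own (ω a)) + K) * T.nrm2 η ≤
      (T.τ ((ph (ω a) • Pw F L X t (Zz F L X y0 t s σ ζ ω) a) * η)).re := by
    intro ω
    set P := Pw F L X t (Zz F L X y0 t s σ ζ ω) a
    have e : (ph (ω a) • P) * η = (ph (ω a) • own' (ω a)) * η +
        ((ph (ω a) • (P - own (ω a))) * η + (ph (ω a) • (own (ω a) - own' (ω a))) * η) := by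
      rw [← add_mul, ← add_mul, ← smul_add, ← smul_add]
      congr 2
      abel
    have b1 : ‖T.τ ((ph (ω a) • (P - own (ω a))) * η)‖ ≤ T.nrm2 (P - own (ω a)) * T.nrm2 η := by
      refine (T.norm_tau_mul_le _ _).trans ?_
      rw [T.nrm2_smul, norm_ph, one_mul]
    have b2 : ‖T.τ ((ph (ω a) • (own (ω a) - own' (ω a))) * η)‖ ≤ K * T.nrm2 η := by
      refine (T.norm_tau_mul_le _ _).trans ?_
      rw [T.nrm2_smul, norm_ph, one_mul]
      refine mul_le_mul_of_nonneg_right ?_ hη0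
      exact own_pr' T d hd _ (fun l => xs_sa F L hX t a l) _ (be_sa F L a _) s
        (norm_be_le F L hX hy hs.le a _)
    have c1 := (Complex.abs_re_le_norm _).trans b1
    have c2 := (Complex.abs_re_le_norm _).trans b2
    have d1 := (abs_le.mp c1).1
    have d2 := (abs_le.mp c2).1
    rw [e, map_add, map_add, Complex.add_re, Complex.add_re]
    linarith
  refine le_trans ?_ (avg_mono h1)
  rw [avg_sub, avg_mul_const, avg_add, avg_const]
  have h2 : avg (fun ω : κ → ZMod 4 => (T.τ ((ph (ω a) • own' (ω a)) * η)).re) =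
      s / 2 * (T.τ (gma F L y0 σ ζ a * η)).re := by
    rw [avg_single a (fun x => (T.τ ((ph x • own' x) * η)).re)]
    exact own_gain T s η (star_Va_mul F L hX t a) (gma_sa F L hy σ ζ a)
  rw [h2]
  have h3 : avg (fun ω : κ → ZMod 4 =>
      T.nrm2 (Pw F L X t (Zz F L X y0 t s σ ζ ω) a - own (ω a))) ≤ s / M := by
    refine avg_le_of_sq (by positivity) ?_
    refine (avg_foreign T F L hX hy hs.le ht hd a).trans ?_
    calc s ^ 2 * (k / d) ≤ s ^ 2 * (1 / M) ^ 2 := mul_le_mul_of_nonneg_left hMd (by positivity)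
      _ = (s / M) ^ 2 := by ring
  have h4 := mul_le_mul_of_nonneg_right (add_le_add_left h3 K) hη0
  linarith

end Crest.Agent.R95.Cor
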