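import Crest.Agent.R95.Defs

/-!
# R95: random sign moments and the smooth truncation `gam` (helper440)

* `fourth`, `second` : moments of `η = ∑ i, (sg (ζ i) : ℂ) • w i`, averages over `ζ : ι → Bool`.
* `gam a = a (1 + a²)⁻¹` for selfadjoint `a`.
-/

set_option autoImplicit false

namespace Crest.Agent.R95

open Complex Finset

section signs

variable {ι : Type*} [DecidableEq ι]

/-- sign of a boolean -/
def sg (b : Bool) : ℝ := if b then 1 else -1

@[simp] lemma sg_true : sg true = 1 := by simp [sg]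
@[simp] lemma sg_false : sg false = -1 := by simp [sg]
@[simp] lemma sg_mul_self (b : Bool) : sg b * sg b = 1 := by cases b <;> simp
@[simp] lemma sg_sq (b : Bool) : sg b ^ 2 = 1 := by cases b <;> simp
@[simp] lemma sg_not (b : Bool) : sg (!b) = - sg b := by cases b <;> simp

/-- sgFlip coordinate `i` -/
def sgFlip (i : ι) (e : ι → Bool) : ι → Bool := Function.update e i (!(e i))

@[simp] lemma sgFlip_same (i : ι) (e : ι → Bool) : sgFlip i e i = !(e i) := by simp [sgFlip]
lemma sgFlip_ne {i j : ι} (h : j ≠ i) (e : ι → Bool) : sgFlip i e j = e j := by simp [sgFlip, h]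

lemma sgFlip_sgFlip (i : ι) (e : ι → Bool) : sgFlip i (sgFlip i e) = e := by
  funext j
  by_cases h : j = i
  · subst h; simp [sgFlip]
  · simp [sgFlip, h]

/-- flipping as an equivalence -/
def sgFlipEquiv (i : ι) : (ι → Bool) ≃ (ι → Bool) where
  toFun := sgFlip i
  invFun := sgFlip i
  left_inv := sgFlip_sgFlip i
  right_inv := sgFlip_sgFlip i

variable [Fintype ι]

lemma sum_sgFlip {M : Type*} [AddCommMonoid M] (i : ι) (F : (ι → Bool) → M) :
    ∑ e, F (sgFlip i e) = ∑ e, F e :=
  (sgFlipEquiv i).sum_comp F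

/-- symmetrisation in one coordinate -/
lemma sum_eq_half_sgFlip (i : ι) (F : (ι → Bool) → ℝ) :
    ∑ e, F e = ∑ e, (F e + F (sgFlip i e)) / 2 := by
  have := sum_sgFlip i F
  rw [← Finset.sum_div, Finset.sum_add_distrib, this]; ring

end signs

section moments

variable {A : Type*} [CStarAlgebra A] (T : TracialState A)

namespace TracialState

lemma mom_nrm2_sq (a : A) : T.nrm2 a ^ 2 = (T.τ (star a * a)).re :=
  Real.sq_sqrt (T.pos a)

/-- partial random sum -/
noncomputable def rs {ι : Type*} (y : ι → A) (s : Finset ι) (e : ι → Bool) : A :=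
  ∑ i ∈ s, (sg (e i) : ℂ) • y i

lemma rs_insert {ι : Type*} [DecidableEq ι] (y : ι → A) {s : Finset ι} {i : ι} (hi : i ∉ s)
    (e : ι → Bool) : rs y (insert i s) e = rs y s e + (sg (e i) : ℂ) • y i := by
  simp [rs, Finset.sum_insert hi, add_comm]

lemma rs_flip {ι : Type*} [DecidableEq ι] (y : ι → A) {s : Finset ι} {i : ι} (hi : i ∉ s)
    (e : ι → Bool) : rs y s (sgFlip i e) = rs y s e := by
  unfold rs
  refine Finset.sum_congr rfl fun j hj => ?_
  rw [sgFlip_ne]
  rintro rfl; exact hi hj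

lemma rs_sa {ι : Type*} (y : ι → A) (hy : ∀ i, IsSelfAdjoint (y i)) (s : Finset ι)
    (e : ι → Bool) : IsSelfAdjoint (rs y s e) := by
  unfold rs IsSelfAdjoint
  rw [star_sum]
  refine Finset.sum_congr rfl fun i _ => ?_
  rw [star_smul, (hy i).star_eq, RCLike.star_def, Complex.conj_ofReal]

/-- squares with a sign -/
lemma mom_add_smul_sq (a b : A) (s : ℝ) (hs : s * s = 1) :
    (a + (s : ℂ) • b) * (a + (s : ℂ) • b) = (a * a + b * b) + (s : ℂ) • (a * b + b * a) := by
  have hs' : (s : ℂ) * (s : ℂ) = 1 := by rw [← Complex.ofReal_mul, hs]; simp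
  simp only [mul_add, add_mul, smul_mul_assoc, mul_smul_comm, smul_smul, hs', one_smul, smul_add]
  abel

lemma mom_re_tau_smul (s : ℝ) (a : A) : (T.τ ((s : ℂ) • a)).re = s * (T.τ a).re := by
  rw [map_smul, smul_eq_mul, Complex.re_ofReal_mul]

/-- `Re τ (abab) ≤ Re τ (a² b²)` for selfadjoint `a`, `b`. -/
lemma re_tau_abab_le {a b : A} (ha : IsSelfAdjoint a) (hb : IsSelfAdjoint b) :
    (T.τ (a * b * (a * b))).re ≤ (T.τ (a * a * (b * b))).re := by
  have h := T.pos (a * b - b * a)
  have e1 : star (a * b - b * a) * (a * b - b * a)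
      = b * (a * a * b) - b * (a * b * a) - a * (b * a * b) + a * (b * b * a) := by
    rw [star_sub, star_mul, star_mul, ha.star_eq, hb.star_eq]; noncomm_ring
  have e2 : T.τ (b * (a * a * b)) = T.τ (a * a * (b * b)) := by
    rw [T.tr]; simp only [mul_assoc]
  have e3 : T.τ (b * (a * b * a)) = T.τ (a * b * (a * b)) := by
    rw [T.tr]; simp only [mul_assoc]
  have e4 : T.τ (a * (b * a * b)) = T.τ (a * b * (a * b)) := by
    simp only [mul_assoc]
  have e5 : T.τ (a * (b * b * a)) = T.τ (a * a * (b * b)) := by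
    rw [T.tr, T.tr (a * a)]; simp only [mul_assoc]
  rw [e1, map_add, map_sub, map_sub, e2, e3, e4, e5] at h
  simp only [Complex.add_re, Complex.sub_re] at h
  linarith

/-- one step of the fourth moment estimate -/
lemma fourth_step {a b : A} (ha : IsSelfAdjoint a) (hb : IsSelfAdjoint b) (s : ℝ)
    (hs : s * s = 1) :
    ((T.τ ((a + (s : ℂ) • b) * (a + (s : ℂ) • b) * ((a + (s : ℂ) • b) * (a + (s : ℂ) • b)))).re
      + (T.τ ((a + ((-s : ℝ) : ℂ) • b) * (a + ((-s : ℝ) : ℂ) • b)
          * ((a + ((-s : ℝ) : ℂ) • b) * (a + ((-s : ℝ) : ℂ) • b)))).re) / 2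
      ≤ (T.τ (a * a * (a * a))).re + 6 * (T.τ (a * a * (b * b))).re
        + (T.τ (b * b * (b * b))).re := by
  rw [mom_add_smul_sq a b s hs, mom_add_smul_sq a b (-s) (by linarith)]
  have h1 := T.re_tau_abab_le ha hb
  set p := a * a + b * b with hp
  set q := a * b + b * a with hq
  have expand : ∀ r : ℝ, r * r = 1 → (T.τ ((p + (r : ℂ) • q) * (p + (r : ℂ) • q))).re
      = (T.τ (p * p)).re + (T.τ (q * q)).re + r * (T.τ (p * q + q * p)).re := by
    intro r hr
    rw [mom_add_smul_sq p q r hr, map_add, map_add, Complex.add_re, Complex.add_re, mom_re_tau_smul]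
  rw [expand s hs, expand (-s) (by linarith)]
  have hpp : (T.τ (p * p)).re = (T.τ (a * a * (a * a))).re + 2 * (T.τ (a * a * (b * b))).re
      + (T.τ (b * b * (b * b))).re := by
    have : p * p = a * a * (a * a) + a * a * (b * b) + b * b * (a * a) + b * b * (b * b) := by
      rw [hp]; noncomm_ring
    rw [this, map_add, map_add, map_add, T.tr (b * b) (a * a)]
    simp only [Complex.add_re]; ring
  have hqq : (T.τ (q * q)).re = 2 * (T.τ (a * b * (a * b))).re
      + 2 * (T.τ (a * a * (b * b))).re := by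
    have : q * q = a * b * (a * b) + a * (b * b * a) + b * (a * a * b) + b * (a * b * a) := by
      rw [hq]; noncomm_ring
    have e2 : T.τ (b * (a * a * b)) = T.τ (a * a * (b * b)) := by
      rw [T.tr]; simp only [mul_assoc]
    have e3 : T.τ (b * (a * b * a)) = T.τ (a * b * (a * b)) := by
      rw [T.tr]; simp only [mul_assoc]
    have e5 : T.τ (a * (b * b * a)) = T.τ (a * a * (b * b)) := by
      rw [T.tr, T.tr (a * a)]; simp only [mul_assoc]
    rw [this, map_add, map_add, map_add, e2, e3, e5]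
    simp only [Complex.add_re]; ring
  rw [hpp, hqq]
  linarith

lemma sum_tau_rs_sq {ι : Type*} [Fintype ι] [DecidableEq ι] (y : ι → A) (z : A) (s : Finset ι) :
    ∑ e : ι → Bool, (T.τ (rs y s e * rs y s e * z)).re
      = Fintype.card (ι → Bool) * (T.τ ((∑ i ∈ s, y i * y i) * z)).re := by
  induction s using Finset.induction_on with
  | empty => simp [rs]
  | @insert i s hi ih =>
    rw [sum_eq_half_sgFlip i]
    have : ∀ e : ι → Bool, ((T.τ (rs y (insert i s) e * rs y (insert i s) e * z)).re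
        + (T.τ (rs y (insert i s) (sgFlip i e) * rs y (insert i s) (sgFlip i e) * z)).re) / 2
        = (T.τ (rs y s e * rs y s e * z)).re + (T.τ (y i * y i * z)).re := by
      intro e
      rw [rs_insert y hi, rs_insert y hi, rs_flip y hi, sgFlip_same, sg_not,
        mom_add_smul_sq _ _ _ (sg_mul_self _), mom_add_smul_sq _ _ (- sg (e i)) (by simp)]
      simp only [add_mul, map_add, Complex.add_re, smul_mul_assoc, smul_add, mom_re_tau_smul]
      ring
    rw [Finset.sum_congr rfl (fun e _ => this e), Finset.sum_add_distrib, ih,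
      Finset.sum_insert hi]
    simp only [Finset.sum_const, Finset.card_univ, nsmul_eq_mul, add_mul, map_add,
      Complex.add_re]
    ring

/-- fourth moment, unnormalised, partial sums -/
lemma sum_tau_rs_fourth_le {ι : Type*} [Fintype ι] [DecidableEq ι] (y : ι → A)
    (hy : ∀ i, IsSelfAdjoint (y i)) (s : Finset ι) :
    ∑ e : ι → Bool, (T.τ (rs y s e * rs y s e * (rs y s e * rs y s e))).re
      ≤ Fintype.card (ι → Bool)
        * (3 * (T.τ ((∑ i ∈ s, y i * y i) * (∑ i ∈ s, y i * y i))).re) := by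
  induction s using Finset.induction_on with
  | empty => simp [rs]
  | @insert i s hi ih =>
    rw [sum_eq_half_sgFlip i]
    have key : ∀ e : ι → Bool,
        ((T.τ (rs y (insert i s) e * rs y (insert i s) e
            * (rs y (insert i s) e * rs y (insert i s) e))).re
        + (T.τ (rs y (insert i s) (sgFlip i e) * rs y (insert i s) (sgFlip i e)
            * (rs y (insert i s) (sgFlip i e) * rs y (insert i s) (sgFlip i e)))).re) / 2
        ≤ (T.τ (rs y s e * rs y s e * (rs y s e * rs y s e))).re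
          + 6 * (T.τ (rs y s e * rs y s e * (y i * y i))).re
          + (T.τ (y i * y i * (y i * y i))).re := by
      intro e
      rw [rs_insert y hi, rs_insert y hi, rs_flip y hi, sgFlip_same, sg_not]
      exact T.fourth_step (rs_sa y hy s e) (hy i) _ (sg_mul_self _)
    refine (Finset.sum_le_sum fun e _ => key e).trans ?_
    rw [Finset.sum_add_distrib, Finset.sum_add_distrib, ← Finset.mul_sum,
      T.sum_tau_rs_sq y (y i * y i) s, Finset.sum_insert hi]
    set P := ∑ j ∈ s, y j * y j with hP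
    have h5 : (T.τ ((y i * y i + P) * (y i * y i + P))).re = (T.τ (P * P)).re
        + 2 * (T.τ (P * (y i * y i))).re + (T.τ (y i * y i * (y i * y i))).re := by
      have : (y i * y i + P) * (y i * y i + P) = P * P + P * (y i * y i) + y i * y i * P
          + y i * y i * (y i * y i) := by noncomm_ring
      rw [this, map_add, map_add, map_add, T.tr (y i * y i) P]
      simp only [Complex.add_re]; ring
    have h6 : 0 ≤ (T.τ (y i * y i * (y i * y i))).re := by
      have := T.pos (y i * y i)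
      rwa [star_mul, (hy i).star_eq] at this
    rw [h5]
    simp only [Finset.sum_const, Finset.card_univ, nsmul_eq_mul]
    have hc : (0 : ℝ) ≤ (Fintype.card (ι → Bool) : ℝ) := Nat.cast_nonneg _
    nlinarith [mul_nonneg hc h6]

/-- second moment, unnormalised, partial sums -/
lemma sum_nrm2_rs_sq {ι : Type*} [Fintype ι] [DecidableEq ι] (y : ι → A)
    (hy : ∀ i, IsSelfAdjoint (y i)) (s : Finset ι) :
    ∑ e : ι → Bool, T.nrm2 (rs y s e) ^ 2
      = Fintype.card (ι → Bool) * ∑ i ∈ s, T.nrm2 (y i) ^ 2 := by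
  have h := T.sum_tau_rs_sq y 1 s
  simp only [mul_one] at h
  have h1 : ∀ e : ι → Bool, T.nrm2 (rs y s e) ^ 2 = (T.τ (rs y s e * rs y s e)).re := by
    intro e; rw [T.mom_nrm2_sq, (rs_sa y hy s e).star_eq]
  have h2 : ∀ i, T.nrm2 (y i) ^ 2 = (T.τ (y i * y i)).re := by
    intro i; rw [T.mom_nrm2_sq, (hy i).star_eq]
  simp only [h1, h2, h, map_sum, Complex.re_sum]

/-- **Fourth moment** of a random signed sum of selfadjoint elements. -/
theorem fourth {ι : Type*} [Fintype ι] [DecidableEq ι] (w : ι → A)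
    (hw : ∀ i, IsSelfAdjoint (w i)) :
    avg (fun ζ : ι → Bool => (T.τ ((∑ i, (sg (ζ i) : ℂ) • w i) ^ 4)).re)
      ≤ 3 * (T.τ ((∑ i, w i * w i) ^ 2)).re := by
  have h := T.sum_tau_rs_fourth_le w hw Finset.univ
  unfold avg
  have hc : (0 : ℝ) < (Fintype.card (ι → Bool) : ℝ) := by
    exact_mod_cast Fintype.card_pos
  rw [inv_mul_le_iff₀ hc]
  have e1 : ∀ x : A, x ^ 4 = x * x * (x * x) := fun x => by noncomm_ring
  simp only [e1, pow_two]
  exact h

/-- **Second moment** of a random signed sum of selfadjoint elements. -/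
theorem second {ι : Type*} [Fintype ι] [DecidableEq ι] (w : ι → A)
    (hw : ∀ i, IsSelfAdjoint (w i)) :
    avg (fun ζ : ι → Bool => T.nrm2 (∑ i, (sg (ζ i) : ℂ) • w i) ^ 2)
      = ∑ i, T.nrm2 (w i) ^ 2 := by
  have h := T.sum_nrm2_rs_sq w hw Finset.univ
  unfold avg
  have hc : (Fintype.card (ι → Bool) : ℝ) ≠ 0 := by
    exact_mod_cast Fintype.card_ne_zero
  rw [inv_mul_eq_iff_eq_mul₀ hc]
  exact h

/-- **Second moment** of a random signed sum (no selfadjointness needed). -/
theorem avg_nrm2_signs {ι : Type*} [Fintype ι] [DecidableEq ι] (w : ι → A) :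
    avg (fun ζ : ι → Bool => T.nrm2 (∑ i, (sg (ζ i) : ℂ) • w i) ^ 2)
      = ∑ i, T.nrm2 (w i) ^ 2 := by
  have hstep : ∀ s : Finset ι, ∑ e : ι → Bool, T.nrm2 (rs w s e) ^ 2
      = Fintype.card (ι → Bool) * ∑ i ∈ s, T.nrm2 (w i) ^ 2 := by
    intro s
    induction s using Finset.induction_on with
    | empty => simp [rs, TracialState.nrm2]
    | @insert i s hi ih =>
      rw [sum_eq_half_sgFlip i]
      have hex : ∀ (a b : A) (r : ℝ), r * r = 1 → T.nrm2 (a + (r : ℂ) • b) ^ 2
          = T.nrm2 a ^ 2 + T.nrm2 b ^ 2 + r * (T.τ (star a * b + star b * a)).re := by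
        intro a b r hr
        have hr' : (r : ℂ) * (r : ℂ) = 1 := by rw [← Complex.ofReal_mul, hr]; simp
        rw [T.mom_nrm2_sq, T.mom_nrm2_sq, T.mom_nrm2_sq]
        have : star (a + (r : ℂ) • b) * (a + (r : ℂ) • b)
            = star a * a + star b * b + (r : ℂ) • (star a * b + star b * a) := by
          rw [star_add, star_smul, RCLike.star_def, Complex.conj_ofReal]
          simp only [mul_add, add_mul, smul_mul_assoc, mul_smul_comm, smul_smul, hr', one_smul,
            smul_add]
          abel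
        rw [this, map_add, map_add, Complex.add_re, Complex.add_re, T.mom_re_tau_smul]
      have : ∀ e : ι → Bool, (T.nrm2 (rs w (insert i s) e) ^ 2
          + T.nrm2 (rs w (insert i s) (sgFlip i e)) ^ 2) / 2
          = T.nrm2 (rs w s e) ^ 2 + T.nrm2 (w i) ^ 2 := by
        intro e
        rw [rs_insert w hi, rs_insert w hi, rs_flip w hi, sgFlip_same, sg_not,
          hex _ _ _ (sg_mul_self _), hex _ _ (- sg (e i)) (by simp)]
        ring
      rw [Finset.sum_congr rfl (fun e _ => this e), Finset.sum_add_distrib, ih,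
        Finset.sum_insert hi]
      simp only [Finset.sum_const, Finset.card_univ, nsmul_eq_mul]
      ring
  have h := hstep Finset.univ
  unfold avg
  have hc : (Fintype.card (ι → Bool) : ℝ) ≠ 0 := by
    exact_mod_cast Fintype.card_ne_zero
  rw [inv_mul_eq_iff_eq_mul₀ hc]
  exact h

/-- random signed sums of selfadjoint elements are selfadjoint -/
lemma signed_sum_sa {ι : Type*} [Fintype ι] (w : ι → A) (hw : ∀ i, IsSelfAdjoint (w i))
    (ζ : ι → Bool) : IsSelfAdjoint (∑ i, (sg (ζ i) : ℂ) • w i) :=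
  rs_sa w hw Finset.univ ζ

end TracialState

end moments

section gam

variable {A : Type*} [CStarAlgebra A]

/-- `1 - i a` is invertible for selfadjoint `a` -/
lemma isUnit_one_sub_aux {a : A} (ha : IsSelfAdjoint a) : IsUnit (1 - I • a) := by
  have h : (-I : ℂ) ∉ spectrum ℂ a := by
    intro h
    have := ha.im_eq_zero_of_mem_spectrum h
    simp at this
  rw [spectrum.notMem_iff] at h
  have h2 : (1 : A) - I • a = I • (algebraMap ℂ A (-I) - a) := by
    rw [smul_sub, Algebra.algebraMap_eq_smul_one, smul_smul]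
    simp
  rw [h2]
  exact h.smul (Units.mk0 I I_ne_zero)

lemma res_mul_aux {a : A} (ha : IsSelfAdjoint a) : res a * (1 - I • a) = 1 :=
  Ring.inverse_mul_cancel _ (isUnit_one_sub_aux ha)

lemma mul_res_aux {a : A} (ha : IsSelfAdjoint a) : (1 - I • a) * res a = 1 :=
  Ring.mul_inverse_cancel _ (isUnit_one_sub_aux ha)

lemma star_res_aux {a : A} (ha : IsSelfAdjoint a) : star (res a) = res (-a) := by
  unfold res
  rw [← Ring.inverse_star, star_sub, star_one, star_smul, ha.star_eq]
  congr 2
  simp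

lemma norm_res_le_aux {a : A} (ha : IsSelfAdjoint a) : ‖res a‖ ≤ 1 := by
  let _ := CStarAlgebra.spectralOrder A
  let _ := CStarAlgebra.spectralOrderedRing A
  have h2 : star (1 - I • a) * (1 - I • a) = 1 + star a * a := by
    rw [star_sub, star_one, star_smul, ha.star_eq, RCLike.star_def, Complex.conj_I]
    simp only [neg_smul, sub_neg_eq_add, mul_sub, add_mul, one_mul, mul_one, smul_mul_assoc,
      mul_smul_comm, smul_smul, Complex.I_mul_I, neg_smul, one_smul, smul_add]
    abel
  have h1 : star (res a) * res a ≤ 1 := by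
    have h3 : (1 : A) ≤ star (1 - I • a) * (1 - I • a) := by
      rw [h2]; exact le_add_of_nonneg_right (star_mul_self_nonneg a)
    have h4 := star_left_conjugate_le_conjugate h3 (res a)
    rw [mul_one] at h4
    refine h4.trans (le_of_eq ?_)
    rw [← mul_assoc, ← star_mul, mul_res_aux ha, star_one, one_mul, mul_res_aux ha]
  have h5 := (CStarAlgebra.norm_le_one_iff_of_nonneg (star (res a) * res a)
    (star_mul_self_nonneg _)).2 h1
  rw [CStarRing.norm_star_mul_self] at h5
  nlinarith [norm_nonneg (res a)]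

/-- smooth truncation `a (1 + a²)⁻¹` -/
noncomputable def gam (a : A) : A := (1 / (2 * I) : ℂ) • (res a - res (-a))

lemma gam_sa {a : A} (ha : IsSelfAdjoint a) : IsSelfAdjoint (gam a) := by
  have h1 := star_res_aux ha
  have h2 := star_res_aux ha.neg
  rw [neg_neg] at h2
  unfold gam IsSelfAdjoint
  rw [star_smul, star_sub, h1, h2]
  have : star (1 / (2 * I) : ℂ) = -(1 / (2 * I) : ℂ) := by
    simp [Complex.conj_I, mul_comm]
  rw [this, neg_smul, ← smul_neg, neg_sub]

lemma norm_gam_le {a : A} (ha : IsSelfAdjoint a) : ‖gam a‖ ≤ 1 := by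
  unfold gam
  rw [norm_smul]
  have h1 := norm_res_le_aux ha
  have h2 := norm_res_le_aux ha.neg
  have h3 := norm_sub_le (res a) (res (-a))
  have h4 : ‖(1 / (2 * I) : ℂ)‖ = 1 / 2 := by simp
  rw [h4]; linarith

/-- anything commuting with `a` commutes with `res a` -/
lemma commute_res_aux {a f : A} (ha : IsSelfAdjoint a) (h : f * a = a * f) :
    f * res a = res a * f := by
  have h1 : f * (1 - I • a) = (1 - I • a) * f := by
    simp only [mul_sub, sub_mul, mul_one, one_mul, mul_smul_comm, smul_mul_assoc, h]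
  calc f * res a = (res a * (1 - I • a)) * f * res a := by rw [res_mul_aux ha, one_mul]
    _ = res a * ((1 - I • a) * f) * res a := by simp only [mul_assoc]
    _ = res a * f * ((1 - I • a) * res a) := by rw [← h1]; simp only [mul_assoc]
    _ = res a * f := by rw [mul_res_aux ha, mul_one]

lemma commute_gam {a f : A} (ha : IsSelfAdjoint a) (h : f * a = a * f) :
    f * gam a = gam a * f := by
  have h1 := commute_res_aux ha h
  have h2 := commute_res_aux (f := f) ha.neg (by rw [mul_neg, neg_mul, h])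
  unfold gam
  rw [mul_smul_comm, smul_mul_assoc, mul_sub, sub_mul, h1, h2]

/-- `gam a = a * (res a * res (-a))` -/
lemma gam_eq {a : A} (ha : IsSelfAdjoint a) : gam a = a * (res a * res (-a)) := by
  have hm : (1 : A) + I • a = 1 - I • (-a) := by rw [smul_neg, sub_neg_eq_add]
  have h1 : res a - res (-a) = (2 * I) • (a * (res a * res (-a))) := by
    have e1 : res a = (1 + I • a) * (res a * res (-a)) := by
      have hc : (1 + I • a) * res a = res a * (1 + I • a) := by
        have := commute_res_aux (f := (1 + I • a)) ha (by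
          simp only [mul_add, add_mul, mul_one, one_mul, mul_smul_comm, smul_mul_assoc])
        exact this
      rw [← mul_assoc, hc, mul_assoc, hm, mul_res_aux ha.neg, mul_one]
    have e2 : res (-a) = (1 - I • a) * (res a * res (-a)) := by
      rw [← mul_assoc, mul_res_aux ha, one_mul]
    calc res a - res (-a) = (1 + I • a) * (res a * res (-a)) - (1 - I • a) * (res a * res (-a)) := by
          rw [← e1, ← e2]
      _ = (2 * I) • (a * (res a * res (-a))) := by
          rw [← sub_mul]
          have : (1 : A) + I • a - (1 - I • a) = (2 * I) • a := by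
            rw [mul_smul, two_smul]; abel
          rw [this, smul_mul_assoc]
  unfold gam
  rw [h1, smul_smul, one_div, inv_mul_cancel₀ (by simp), one_smul]

/-- `a - gam a = a³ (1+a²)⁻¹` -/
lemma sub_gam_eq {a : A} (ha : IsSelfAdjoint a) :
    a - gam a = a * a * (res a * res (-a)) * a := by
  have hm : (1 : A) + I • a = 1 - I • (-a) := by rw [smul_neg, sub_neg_eq_add]
  have hca : a * (res a * res (-a)) = (res a * res (-a)) * a := by
    have h1 := commute_res_aux (f := a) ha rfl
    have h2 := commute_res_aux (f := a) ha.neg (by rw [mul_neg, neg_mul])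
    rw [← mul_assoc, h1, mul_assoc, h2, mul_assoc]
  have h1 : (1 + a * a) * (res a * res (-a)) = 1 := by
    have e : (1 : A) + a * a = (1 + I • a) * (1 - I • a) := by
      simp only [mul_sub, add_mul, one_mul, mul_one, smul_mul_assoc, mul_smul_comm, smul_smul,
        Complex.I_mul_I, neg_smul, one_smul, smul_add]
      abel
    rw [e, mul_assoc, ← mul_assoc (1 - I • a), mul_res_aux ha, one_mul, hm, mul_res_aux ha.neg]
  have h2 : (1 : A) - res a * res (-a) = a * a * (res a * res (-a)) := by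
    rw [add_mul, one_mul] at h1
    rw [← h1]; abel
  rw [gam_eq ha, ← h2, hca, sub_mul, one_mul]

variable (T : TracialState A)

/-- correlation of the smooth truncation: for `σ > 0` (in fact any real `σ ≥ 0`) -/
lemma TracialState.gam_corr {η : A} (hη : IsSelfAdjoint η) {σ : ℝ} (hσ : 0 ≤ σ) :
    σ * T.nrm2 η ^ 2 - σ ^ 3 * (T.τ (η ^ 4)).re ≤ (T.τ (gam ((σ : ℂ) • η) * η)).re := by
  set a : A := (σ : ℂ) • η with ha_def
  have ha : IsSelfAdjoint a := by
    rw [ha_def]
    unfold IsSelfAdjoint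
    rw [star_smul, hη.star_eq, RCLike.star_def, Complex.conj_ofReal]
  have h1 : gam a * η = a * η - (σ ^ 3 : ℂ) • (η * η * (res a * res (-a)) * (η * η)) := by
    have : gam a = a - (a - gam a) := by abel
    rw [this, sub_mul, sub_gam_eq ha, ha_def]
    simp only [smul_mul_assoc, mul_smul_comm, smul_smul, mul_assoc]
    congr 2
    ring
  rw [h1, map_sub, Complex.sub_re, ha_def, smul_mul_assoc, T.mom_re_tau_smul]
  have h2 : T.nrm2 η ^ 2 = (T.τ (η * η)).re := by rw [T.mom_nrm2_sq, hη.star_eq]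
  rw [h2]
  have h3 : (T.τ ((σ ^ 3 : ℂ) • (η * η * (res ((σ : ℂ) • η) * res (-((σ : ℂ) • η))) * (η * η)))).re
      = σ ^ 3 * (T.τ (η * η * (res a * res (-a)) * (η * η))).re := by
    rw [← ha_def, ← Complex.ofReal_pow, T.mom_re_tau_smul]
  rw [h3]
  have h4 : (T.τ (η * η * (res a * res (-a)) * (η * η))).re ≤ (T.τ (η ^ 4)).re := by
    have hs : star (res (-a) * (η * η)) * (res (-a) * (η * η))
        = η * η * (res a * res (-a)) * (η * η) := by
      rw [star_mul, star_mul, hη.star_eq, star_res_aux ha.neg, neg_neg]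
      simp only [mul_assoc]
    have h5 := T.bdd (res (-a)) (η * η)
    rw [hs] at h5
    have h6 : star (η * η) * (η * η) = η ^ 4 := by
      rw [star_mul, hη.star_eq]; noncomm_ring
    rw [h6] at h5
    have h7 : 0 ≤ (T.τ (η ^ 4)).re := by
      have := T.pos (η * η)
      rwa [h6] at this
    have h8 := norm_res_le_aux ha.neg
    have h9 : ‖res (-a)‖ ^ 2 ≤ 1 := by nlinarith [norm_nonneg (res (-a))]
    calc _ ≤ _ := h5
      _ ≤ 1 * (T.τ (η ^ 4)).re := mul_le_mul_of_nonneg_right h9 h7
      _ = _ := one_mul _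
  have h5 : 0 ≤ σ ^ 3 := by positivity
  nlinarith [mul_le_mul_of_nonneg_left h4 h5]

theorem TracialState.tau_gam {η : A} (hη : IsSelfAdjoint η) (σ : ℝ) (hσ : 0 < σ) :
    σ * T.nrm2 η ^ 2 - σ ^ 3 * (T.τ (η ^ 4)).re ≤ (T.τ (gam ((σ : ℂ) • η) * η)).re :=
  T.gam_corr hη hσ.le

theorem TracialState.avg_fourth {ι : Type*} [Fintype ι] [DecidableEq ι] (w : ι → A)
    (hw : ∀ i, IsSelfAdjoint (w i)) :
    avg (fun ζ : ι → Bool => (T.τ ((∑ i, (sg (ζ i) : ℂ) • w i) ^ 4)).re) ≤
      3 * (T.τ ((∑ i, w i * w i) ^ 2)).re := T.fourth w hw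

/-- **Gain in the mixed coordinates.** If `∑ i, nrm2 (w i)² = s²` and
`Re τ ((∑ w i²)²) ≤ m`, then on average over signs the truncation of `η` correlates with `η`. -/
theorem TracialState.avg_gam_corr {ι : Type*} [Fintype ι] [DecidableEq ι] (w : ι → A)
    (hw : ∀ i, IsSelfAdjoint (w i)) {σ : ℝ} (hσ : 0 ≤ σ) :
    σ * (∑ i, T.nrm2 (w i) ^ 2) - 3 * σ ^ 3 * (T.τ ((∑ i, w i * w i) ^ 2)).re
      ≤ avg (fun ζ : ι → Bool =>
          (T.τ (gam ((σ : ℂ) • ∑ i, (sg (ζ i) : ℂ) • w i) * ∑ i, (sg (ζ i) : ℂ) • w i)).re) := by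
  have h1 := T.fourth w hw
  have h2 := T.second w hw
  have h3 : avg (fun ζ : ι → Bool => σ * T.nrm2 (∑ i, (sg (ζ i) : ℂ) • w i) ^ 2
      - σ ^ 3 * (T.τ ((∑ i, (sg (ζ i) : ℂ) • w i) ^ 4)).re)
      ≤ avg (fun ζ : ι → Bool =>
          (T.τ (gam ((σ : ℂ) • ∑ i, (sg (ζ i) : ℂ) • w i) * ∑ i, (sg (ζ i) : ℂ) • w i)).re) := by
    unfold avg
    refine mul_le_mul_of_nonneg_left (Finset.sum_le_sum fun ζ _ => ?_) (by positivity)
    exact T.gam_corr (TracialState.signed_sum_sa w hw ζ) hσ
  have h4 : avg (fun ζ : ι → Bool => σ * T.nrm2 (∑ i, (sg (ζ i) : ℂ) • w i) ^ 2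
      - σ ^ 3 * (T.τ ((∑ i, (sg (ζ i) : ℂ) • w i) ^ 4)).re)
      = σ * avg (fun ζ : ι → Bool => T.nrm2 (∑ i, (sg (ζ i) : ℂ) • w i) ^ 2)
        - σ ^ 3 * avg (fun ζ : ι → Bool => (T.τ ((∑ i, (sg (ζ i) : ℂ) • w i) ^ 4)).re) := by
    unfold avg
    rw [Finset.sum_sub_distrib, ← Finset.mul_sum, ← Finset.mul_sum]
    ring
  rw [h4, h2] at h3
  refine le_trans ?_ h3
  have h5 : 0 ≤ σ ^ 3 := by positivity
  nlinarith [mul_le_mul_of_nonneg_left h1 h5]

end gam

end Crest.Agent.R95
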