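import Crest.Agent.R95.Noise
import Crest.Agent.R95.PauliAlg
import Crest.Agent.R95.Moment

/-!
# R95 CoreOwn (helper795): ordered products of Cayley transforms, own-noise lemma.
-/

set_option autoImplicit false

namespace Crest.Agent.R95.Cor

open Complex

variable {A : Type*} [CStarAlgebra A] (T : TracialState A)

/-! ### basic facts on `pr` -/

theorem pr_zero {B : Type*} [Monoid B] (g : ℕ → B) : pr g 0 = 1 := rfl

theorem pr_succ {B : Type*} [Monoid B] (g : ℕ → B) (k : ℕ) : pr g (k + 1) = pr g k * g k := rfl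

theorem pr_congr {B : Type*} [Monoid B] {g h : ℕ → B} {d : ℕ} (H : ∀ l < d, g l = h l) :
    pr g d = pr h d := by
  induction d with
  | zero => rfl
  | succ d ih =>
    rw [pr_succ, pr_succ, ih (fun l hl => H l (by omega)), H d (by omega)]

theorem norm_pr_le (g : ℕ → A) (hg : ∀ l, ‖g l‖ ≤ 1) (d : ℕ) (h1 : ‖(1 : A)‖ ≤ 1) :
    ‖pr g d‖ ≤ 1 := by
  induction d with
  | zero => simpa [pr_zero] using h1
  | succ d ih =>
    rw [pr_succ]
    calc ‖pr g d * g d‖ ≤ ‖pr g d‖ * ‖g d‖ := norm_mul_le _ _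
      _ ≤ 1 * 1 := mul_le_mul ih (hg d) (norm_nonneg _) zero_le_one
      _ = 1 := one_mul 1

theorem norm_one_le' : ‖(1 : A)‖ ≤ 1 := by
  rcases subsingleton_or_nontrivial A with h | h
  · rw [Subsingleton.elim (1 : A) 0, norm_zero]; exact zero_le_one
  · exact CStarRing.norm_one.le

theorem norm_le_one_of_star_mul {a : A} (h : star a * a = 1) : ‖a‖ ≤ 1 := by
  have h1 : ‖a‖ * ‖a‖ ≤ 1 := by
    rw [← CStarRing.norm_star_mul_self, h]; exact norm_one_le'
  nlinarith [norm_nonneg a]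

theorem star_pr_mul (g : ℕ → A) (d : ℕ) (hg : ∀ l < d, star (g l) * g l = 1) :
    star (pr g d) * pr g d = 1 := by
  induction d with
  | zero => simp [pr_zero]
  | succ d ih =>
    rw [pr_succ, star_mul, mul_assoc, ← mul_assoc (star (pr g d)), ih (fun l hl => hg l (by omega)),
      one_mul, hg d (by omega)]

theorem pr_mul_star (g : ℕ → A) (d : ℕ) (hg : ∀ l < d, g l * star (g l) = 1) :
    pr g d * star (pr g d) = 1 := by
  induction d with
  | zero => simp [pr_zero]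
  | succ d ih =>
    rw [pr_succ, star_mul, mul_assoc, ← mul_assoc (g d), hg d (by omega), one_mul,
      ih (fun l hl => hg l (by omega))]

theorem pr_mem (S : StarSubalgebra ℂ A) (g : ℕ → A) (d : ℕ) (hg : ∀ l < d, g l ∈ S) :
    pr g d ∈ S := by
  induction d with
  | zero => rw [pr_zero]; exact one_mem S
  | succ d ih =>
    rw [pr_succ]; exact mul_mem (ih (fun l hl => hg l (by omega))) (hg d (by omega))

theorem pr_inQ {ι : Type} [Fintype ι] [DecidableEq ι] (F : PauliSys A ι) (g : ℕ → A) (d : ℕ)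
    (hg : ∀ l < d, F.InQ (g l)) : F.InQ (pr g d) := by
  induction d with
  | zero => rw [pr_zero]; exact PauliSys.InQ.one F
  | succ d ih =>
    rw [pr_succ]; exact PauliSys.InQ.mul F (ih (fun l hl => hg l (by omega))) (hg d (by omega))

/-- telescoping in the 2-norm for contractions -/
theorem nrm2_pr_sub_le (g h : ℕ → A) (hg : ∀ l, ‖g l‖ ≤ 1) (hh : ∀ l, ‖h l‖ ≤ 1) (d : ℕ) :
    T.nrm2 (pr g d - pr h d) ≤ ∑ l ∈ Finset.range d, T.nrm2 (g l - h l) := by
  induction d with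
  | zero => simp [pr_zero, T.nrm2_zero]
  | succ d ih =>
    rw [pr_succ, pr_succ, Finset.sum_range_succ]
    have e : pr g d * g d - pr h d * h d = (pr g d - pr h d) * g d + pr h d * (g d - h d) := by
      noncomm_ring
    rw [e]
    refine (T.nrm2_add_le _ _).trans (add_le_add ?_ ?_)
    · refine (T.nrm2_mul_le_right _ _).trans ?_
      calc T.nrm2 (pr g d - pr h d) * ‖g d‖ ≤ T.nrm2 (pr g d - pr h d) * 1 :=
            mul_le_mul_of_nonneg_left (hg d) (T.nrm2_nonneg _)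
        _ ≤ _ := by rw [mul_one]; exact ih
    · refine (T.nrm2_mul_le_left _ _).trans ?_
      calc ‖pr h d‖ * T.nrm2 (g d - h d) ≤ 1 * T.nrm2 (g d - h d) :=
            mul_le_mul_of_nonneg_right (norm_pr_le h hh d norm_one_le') (T.nrm2_nonneg _)
        _ = _ := one_mul _

/-! ### the own noise -/

/-- `W_l^* b W_l` with `W_l` the prefix product of the Cayley transforms of `x` -/
noncomputable def conjW (x : ℕ → A) (l : ℕ) (b : A) : A :=
  star (pr (fun j => cay (x j)) l) * b * pr (fun j => cay (x j)) l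

theorem conjW_sa (x : ℕ → A) (l : ℕ) {b : A} (hb : IsSelfAdjoint b) :
    IsSelfAdjoint (conjW x l b) := by
  unfold conjW
  rw [IsSelfAdjoint, star_mul, star_mul, star_star, hb.star_eq, mul_assoc]

theorem norm_conjW_le (x : ℕ → A) (hx : ∀ l, IsSelfAdjoint (x l)) (l : ℕ) (b : A) :
    ‖conjW x l b‖ ≤ ‖b‖ := by
  unfold conjW
  have h1 : ‖pr (fun j => cay (x j)) l‖ ≤ 1 :=
    norm_pr_le _ (fun j => norm_cay_le (hx j)) l norm_one_le'
  have h2 : ‖star (pr (fun j => cay (x j)) l)‖ ≤ 1 := by rw [norm_star]; exact h1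
  calc _ ≤ ‖star (pr (fun j => cay (x j)) l) * b‖ * ‖pr (fun j => cay (x j)) l‖ := norm_mul_le _ _
    _ ≤ (‖star (pr (fun j => cay (x j)) l)‖ * ‖b‖) * ‖pr (fun j => cay (x j)) l‖ :=
        mul_le_mul_of_nonneg_right (norm_mul_le _ _) (norm_nonneg _)
    _ ≤ (1 * ‖b‖) * 1 :=
        mul_le_mul (mul_le_mul_of_nonneg_right h2 (norm_nonneg _)) h1 (norm_nonneg _)
          (by positivity)
    _ = ‖b‖ := by ring

theorem conjW_add (x : ℕ → A) (l : ℕ) (b c : A) :
    conjW x l (b + c) = conjW x l b + conjW x l c := by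
  unfold conjW; noncomm_ring

theorem conjW_zero (x : ℕ → A) (l : ℕ) : conjW x l (0 : A) = 0 := by
  unfold conjW; simp

theorem conjW_sum {κ : Type*} (x : ℕ → A) (l : ℕ) (s : Finset κ) (b : κ → A) :
    conjW x l (∑ i ∈ s, b i) = ∑ i ∈ s, conjW x l (b i) := by
  unfold conjW
  rw [Finset.mul_sum, Finset.sum_mul]

theorem conjW_smul (x : ℕ → A) (l : ℕ) (c : ℂ) (b : A) :
    conjW x l (c • b) = c • conjW x l b := by
  unfold conjW
  rw [mul_smul_comm, smul_mul_assoc]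

theorem own_prod (x : ℕ → A) (hx : ∀ l, IsSelfAdjoint (x l)) (b : A) (hb : IsSelfAdjoint b)
    (c : ℝ) (d : ℕ) :
    pr (fun l => cay ((c : ℂ) • conjW x l b) * cay (x l)) d =
      cay ((c : ℂ) • b) ^ d * pr (fun j => cay (x j)) d := by
  induction d with
  | zero => simp [pr_zero]
  | succ d ih =>
    rw [pr_succ, pr_succ, ih]
    set W := pr (fun j => cay (x j)) d with hW
    have hW1 : star W * W = 1 := star_pr_mul _ _ (fun l _ => star_cay_mul (hx l))
    have hW2 : W * star W = 1 := pr_mul_star _ _ (fun l _ => mul_star_cay (hx l))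
    have hcb : IsSelfAdjoint ((c : ℂ) • b) := by
      rw [IsSelfAdjoint, star_smul, hb.star_eq]; simp
    have e1 : cay ((c : ℂ) • conjW x d b) = star W * cay ((c : ℂ) • b) * W := by
      rw [cay_conj hcb hW1 hW2, ← conjW_smul, conjW, ← hW]
    rw [e1]
    calc cay ((c : ℂ) • b) ^ d * W * (star W * cay ((c : ℂ) • b) * W * cay (x d))
        = cay ((c : ℂ) • b) ^ d * (W * star W) * cay ((c : ℂ) • b) * W * cay (x d) := by
          simp only [mul_assoc]
      _ = cay ((c : ℂ) • b) ^ (d + 1) * (W * cay (x d)) := by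
          rw [hW2, mul_one, pow_succ]; simp only [mul_assoc]

theorem isSelfAdjoint_real_smul {a : A} (ha : IsSelfAdjoint a) (r : ℝ) :
    IsSelfAdjoint ((r : ℂ) • a) := by
  rw [IsSelfAdjoint, star_smul, ha.star_eq]; simp

theorem own_pr (d : ℕ) (hd : 1 ≤ d) (x : ℕ → A) (hx : ∀ l, IsSelfAdjoint (x l)) (b : A)
    (hb : IsSelfAdjoint b) :
    T.nrm2 (pr (fun l => cay (x l + ((1 / (2 * d) : ℝ) : ℂ) • conjW x l b)) d -
      cay (((1 / (2 * d) : ℝ) : ℂ) • b) ^ d * pr (fun j => cay (x j)) d) ≤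
      3 * (‖b‖ / d) * ∑ l ∈ Finset.range d, T.nrm2 (x l) + ‖b‖ ^ 2 / d := by
  have hd0 : (0 : ℝ) < d := by exact_mod_cast hd
  rw [← own_prod x hx b hb]
  have hsa : ∀ l, IsSelfAdjoint (conjW x l b) := fun l => conjW_sa x l hb
  refine (nrm2_pr_sub_le T _ _ (fun l => norm_cay_le ((hx l).add
    (isSelfAdjoint_real_smul (hsa l) _))) (fun l => ?_) d).trans ?_
  · calc ‖cay (((1 / (2 * d) : ℝ) : ℂ) • conjW x l b) * cay (x l)‖
        ≤ ‖cay (((1 / (2 * d) : ℝ) : ℂ) • conjW x l b)‖ * ‖cay (x l)‖ := norm_mul_le _ _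
      _ ≤ 1 * 1 := mul_le_mul (norm_cay_le (isSelfAdjoint_real_smul (hsa l) _))
          (norm_cay_le (hx l)) (norm_nonneg _) zero_le_one
      _ = 1 := one_mul 1
  · have key : ∀ l, T.nrm2 (cay (x l + ((1 / (2 * d) : ℝ) : ℂ) • conjW x l b) -
        cay (((1 / (2 * d) : ℝ) : ℂ) • conjW x l b) * cay (x l)) ≤
        3 * (‖b‖ / d) * T.nrm2 (x l) + (‖b‖ / d) ^ 2 := by
      intro l
      have e : ((1 / (2 * d) : ℝ) : ℂ) • conjW x l b =
          (1 / 2 : ℂ) • (((1 / d : ℝ) : ℂ) • conjW x l b) := by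
        rw [smul_smul]; congr 1; push_cast; field_simp
      rw [e]
      have h1 := cay_own T (hx l) (isSelfAdjoint_real_smul (hsa l) (1 / d))
      have h2 : ‖((1 / d : ℝ) : ℂ) • conjW x l b‖ ≤ ‖b‖ / d := by
        rw [norm_smul, Complex.norm_real, Real.norm_of_nonneg (by positivity)]
        calc 1 / (d : ℝ) * ‖conjW x l b‖ ≤ 1 / (d : ℝ) * ‖b‖ :=
              mul_le_mul_of_nonneg_left (norm_conjW_le x hx l b) (by positivity)
          _ = ‖b‖ / d := by ring
      refine h1.trans ?_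
      have h3 := T.nrm2_nonneg (x l)
      have h4 : (0 : ℝ) ≤ ‖((1 / d : ℝ) : ℂ) • conjW x l b‖ := norm_nonneg _
      gcongr
    calc _ ≤ ∑ l ∈ Finset.range d, (3 * (‖b‖ / d) * T.nrm2 (x l) + (‖b‖ / d) ^ 2) :=
          Finset.sum_le_sum (fun l _ => key l)
      _ = 3 * (‖b‖ / d) * ∑ l ∈ Finset.range d, T.nrm2 (x l) + ‖b‖ ^ 2 / d := by
          rw [Finset.sum_add_distrib, ← Finset.mul_sum, Finset.sum_const, Finset.card_range,
            nsmul_eq_mul]
          congr 1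
          field_simp

/-- own noise, final form -/
theorem own_pr' (d : ℕ) (hd : 1 ≤ d) (x : ℕ → A) (hx : ∀ l, IsSelfAdjoint (x l)) (b : A)
    (hb : IsSelfAdjoint b) (s : ℝ) (hbs : ‖b‖ ≤ s) :
    T.nrm2 (pr (fun l => cay (x l + ((1 / (2 * d) : ℝ) : ℂ) • conjW x l b)) d -
      (1 + I • b) * pr (fun j => cay (x j)) d) ≤
      3 * (s / d) * ∑ l ∈ Finset.range d, T.nrm2 (x l) + 2 * s ^ 2 := by
  have hd0 : (0 : ℝ) < d := by exact_mod_cast hd
  have hd1 : (1 : ℝ) ≤ d := by exact_mod_cast hd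
  have hb0 := norm_nonneg b
  have h1 := own_pr T d hd x hx b hb
  set W := pr (fun j => cay (x j)) d with hW
  have hWn : ‖W‖ ≤ 1 := norm_pr_le _ (fun j => norm_cay_le (hx j)) d norm_one_le'
  have h2 := cay_pow (isSelfAdjoint_real_smul hb (1 / (2 * d))) d hd
  have e1 : (2 * d * I : ℂ) • (((1 / (2 * d) : ℝ) : ℂ) • b) = I • b := by
    rw [smul_smul]; congr 1; push_cast
    have : (d : ℂ) ≠ 0 := by exact_mod_cast hd0.ne'
    field_simp
  have e2 : 4 * (d : ℝ) ^ 2 * ‖(((1 / (2 * d) : ℝ) : ℂ) • b)‖ ^ 2 = ‖b‖ ^ 2 := by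
    rw [norm_smul, Complex.norm_real, Real.norm_of_nonneg (by positivity)]
    field_simp
    ring
  rw [e1, e2] at h2
  set C := cay (((1 / (2 * d) : ℝ) : ℂ) • b) ^ d with hC
  have e3 : pr (fun l => cay (x l + ((1 / (2 * d) : ℝ) : ℂ) • conjW x l b)) d -
      (1 + I • b) * W = (pr (fun l => cay (x l + ((1 / (2 * d) : ℝ) : ℂ) • conjW x l b)) d -
        C * W) + (C - 1 - I • b) * W := by noncomm_ring
  rw [e3]
  have h3 : T.nrm2 ((C - 1 - I • b) * W) ≤ ‖b‖ ^ 2 := by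
    refine (T.nrm2_mul_le_left _ _).trans ?_
    calc ‖C - 1 - I • b‖ * T.nrm2 W ≤ ‖b‖ ^ 2 * 1 :=
          mul_le_mul h2 ((T.nrm2_le_norm W).trans hWn) (T.nrm2_nonneg _) (by positivity)
      _ = ‖b‖ ^ 2 := mul_one _
  have h4 : (0 : ℝ) ≤ ∑ l ∈ Finset.range d, T.nrm2 (x l) :=
    Finset.sum_nonneg (fun l _ => T.nrm2_nonneg _)
  have h5 : ‖b‖ ^ 2 ≤ s ^ 2 := by gcongr
  have h6 : ‖b‖ ^ 2 / d ≤ s ^ 2 := by
    calc ‖b‖ ^ 2 / d ≤ ‖b‖ ^ 2 / 1 := by gcongr
      _ = ‖b‖ ^ 2 := div_one _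
      _ ≤ s ^ 2 := h5
  have h7 : 3 * (‖b‖ / d) * ∑ l ∈ Finset.range d, T.nrm2 (x l) ≤
      3 * (s / d) * ∑ l ∈ Finset.range d, T.nrm2 (x l) := by gcongr
  calc _ ≤ T.nrm2 (pr (fun l => cay (x l + ((1 / (2 * d) : ℝ) : ℂ) • conjW x l b)) d - C * W) +
        T.nrm2 ((C - 1 - I • b) * W) := T.nrm2_add_le _ _
    _ ≤ (3 * (‖b‖ / d) * ∑ l ∈ Finset.range d, T.nrm2 (x l) + ‖b‖ ^ 2 / d) + ‖b‖ ^ 2 :=
        add_le_add h1 h3
    _ ≤ _ := by linarith

/-! ### the own phase -/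

/-- fourth root of unity `i^x` -/
noncomputable def ph (x : ZMod 4) : ℂ := I ^ x.val

theorem norm_ph (x : ZMod 4) : ‖ph x‖ = 1 := by simp [ph]

theorem sum_zmod4 {B : Type*} [AddCommMonoid B] (g : ZMod 4 → B) :
    ∑ x, g x = g 0 + g 1 + g 2 + g 3 := by
  exact Fin.sum_univ_four (fun x : Fin 4 => g x)

theorem ph_zero : ph 0 = 1 := by simp [ph]
theorem ph_one : ph 1 = I := by
  have : (1 : ZMod 4).val = 1 := rfl
  rw [ph, this, pow_one]
theorem ph_two : ph 2 = -1 := by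
  have : (2 : ZMod 4).val = 2 := rfl
  rw [ph, this, I_sq]
theorem ph_three : ph 3 = -I := by
  have : (3 : ZMod 4).val = 3 := rfl
  rw [ph, this, I_pow_three]

/-- the move `β(x)` -/
noncomputable def beta (s : ℝ) (V γ : A) (x : ZMod 4) : A :=
  ((s / 2 : ℝ) : ℂ) • ((I * ph x) • (V * γ) + star ((I * ph x) • (V * γ)))

theorem beta_sa (s : ℝ) (V γ : A) (x : ZMod 4) : IsSelfAdjoint (beta s V γ x) := by
  unfold beta
  exact isSelfAdjoint_real_smul (IsSelfAdjoint.add_star_self _) _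

theorem norm_beta_le {s : ℝ} (hs : 0 ≤ s) {V γ : A} (hV : ‖V‖ ≤ 1) (hγ : ‖γ‖ ≤ 1) (x : ZMod 4) :
    ‖beta s V γ x‖ ≤ s := by
  unfold beta
  have h1 : ‖(I * ph x) • (V * γ)‖ ≤ 1 := by
    rw [norm_smul, norm_mul, norm_ph, Complex.norm_I, one_mul, one_mul]
    calc ‖V * γ‖ ≤ ‖V‖ * ‖γ‖ := norm_mul_le _ _
      _ ≤ 1 * 1 := mul_le_mul hV hγ (norm_nonneg _) zero_le_one
      _ = 1 := one_mul 1
  rw [norm_smul, Complex.norm_real, Real.norm_of_nonneg (by positivity)]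
  calc s / 2 * ‖(I * ph x) • (V * γ) + star ((I * ph x) • (V * γ))‖
      ≤ s / 2 * (1 + 1) := by
        refine mul_le_mul_of_nonneg_left ((norm_add_le _ _).trans (add_le_add h1 ?_))
          (by positivity)
        rw [norm_star]; exact h1
    _ = s := by ring

theorem sum_beta (s : ℝ) (V γ : A) : ∑ x, beta s V γ x = 0 := by
  unfold beta
  rw [← Finset.smul_sum, sum_zmod4, ph_zero, ph_one, ph_two, ph_three]
  simp only [star_smul, RCLike.star_def, map_mul, map_neg, map_one, Complex.conj_I]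
  rw [show ∀ a b : A, (I * 1) • a + (-I * 1) • b + ((I * I) • a + (-I * -I) • b) +
      ((I * -1) • a + (-I * -1) • b) + ((I * -I) • a + (-I * -(-I)) • b) = 0 from ?_, smul_zero]
  intro a b
  module

/-- the gain from the own phase -/
theorem own_gain (s : ℝ) {V γ : A} (η : A) (hV : star V * V = 1) (hγ : IsSelfAdjoint γ) :
    (1 / 4 : ℝ) * ∑ x, (T.τ ((ph x • ((1 + I • beta s V γ x) * V)) * η)).re =
      s / 2 * (T.τ (γ * η)).re := by
  have key : ∑ x, ph x • ((1 + I • beta s V γ x) * V) = ((4 * (s / 2) : ℝ) : ℂ) • γ := by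
    rw [sum_zmod4, ph_zero, ph_one, ph_two, ph_three]
    unfold beta
    rw [ph_zero, ph_one, ph_two, ph_three]
    simp only [star_smul, RCLike.star_def, map_neg, map_one, Complex.conj_I, star_mul,
      hγ.star_eq, add_mul, one_mul, smul_mul_assoc]
    have e : γ * star V * V = γ := by rw [mul_assoc, hV, mul_one]
    rw [e]
    push_cast
    set P := V * γ * V
    simp only [smul_add, smul_smul]
    have i2 : (I : ℂ) ^ 2 = -1 := I_sq
    have i4 : (I : ℂ) ^ 4 = 1 := I_pow_four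
    match_scalars <;> ring_nf <;> simp only [i2, i4] <;> ring
  have h2 : ∑ x, T.τ ((ph x • ((1 + I • beta s V γ x) * V)) * η) =
      ((4 * (s / 2) : ℝ) : ℂ) * T.τ (γ * η) := by
    rw [← map_sum, ← Finset.sum_mul, key, smul_mul_assoc, map_smul, smul_eq_mul]
  rw [← Complex.re_sum, h2, Complex.re_ofReal_mul]
  ring

end Crest.Agent.R95.Cor
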