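import Mathlib
import Crest.Agent.R95.Defs
import Crest.Agent.R95.CoreBase

/-!
# R95 core, part 2: products, own moves, sign averaging
-/

set_option autoImplicit false

open Complex Finset

namespace Crest.Agent.R95.CB

open Crest.Agent.R95 (TracialState res cay pr)

section Products

variable {A : Type*} [CStarAlgebra A]

theorem pr_zero (g : ℕ → A) : pr g 0 = 1 := rfl

theorem pr_succ (g : ℕ → A) (k : ℕ) : pr g (k + 1) = pr g k * g k := rfl

theorem pr_congr {g g' : ℕ → A} {d : ℕ} (h : ∀ l < d, g l = g' l) : pr g d = pr g' d := by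
  induction d with
  | zero => rfl
  | succ k ih =>
    rw [pr_succ, pr_succ, ih (fun l hl => h l (by omega)), h k (by omega)]

theorem norm_pr_le {g : ℕ → A} {d : ℕ} (h : ∀ l < d, ‖g l‖ ≤ 1) : ‖pr g d‖ ≤ 1 := by
  induction d with
  | zero => exact norm_one_le
  | succ k ih =>
    rw [pr_succ]
    refine (norm_mul_le _ _).trans ?_
    have h1 := ih (fun l hl => h l (by omega))
    have h2 := h k (by omega)
    nlinarith [norm_nonneg (pr g k), norm_nonneg (g k)]

theorem n_pr_sub_le (T : Tr A) {g g' : ℕ → A} {d : ℕ} (h : ∀ l < d, ‖g l‖ ≤ 1)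
    (h' : ∀ l < d, ‖g' l‖ ≤ 1) :
    T.n (pr g d - pr g' d) ≤ ∑ l ∈ range d, T.n (g l - g' l) := by
  induction d with
  | zero => simp [pr_zero, T.n_zero]
  | succ k ih =>
    rw [sum_range_succ, pr_succ, pr_succ]
    have e : pr g k * g k - pr g' k * g' k = (pr g k - pr g' k) * g k + pr g' k * (g k - g' k) := by
      noncomm_ring
    rw [e]
    refine (T.n_add_le _ _).trans ?_
    have h1 := ih (fun l hl => h l (by omega)) (fun l hl => h' l (by omega))
    have h2 : T.n ((pr g k - pr g' k) * g k) ≤ T.n (pr g k - pr g' k) := by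
      refine (T.n_mul_le' _ _).trans ?_
      calc T.n (pr g k - pr g' k) * ‖g k‖ ≤ T.n (pr g k - pr g' k) * 1 := by
            gcongr
            · exact T.n_nonneg _
            · exact h k (by omega)
        _ = _ := mul_one _
    have h3 : T.n (pr g' k * (g k - g' k)) ≤ T.n (g k - g' k) := by
      refine (T.n_mul_le _ _).trans ?_
      calc ‖pr g' k‖ * T.n (g k - g' k) ≤ 1 * T.n (g k - g' k) := by
            gcongr
            · exact T.n_nonneg _
            · exact norm_pr_le (fun l hl => h' l (by omega))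
        _ = _ := one_mul _
    linarith

theorem norm_pr_second {d l0 : ℕ} {g1 g2 g3 : ℕ → A}
    (hne : ∀ l, l ≠ l0 → g1 l = g3 l ∧ g2 l = g3 l) (hn : ∀ l, ‖g3 l‖ ≤ 1) :
    ‖pr g1 d + pr g2 d - (2 : ℂ) • pr g3 d‖ ≤ ‖g1 l0 + g2 l0 - (2 : ℂ) • g3 l0‖ := by
  induction d with
  | zero =>
    simp only [pr_zero, two_smul, sub_self, norm_zero]
    exact norm_nonneg _
  | succ k ih =>
    rw [pr_succ, pr_succ, pr_succ]
    by_cases hk : k = l0
    · subst hk
      have e1 : pr g1 k = pr g3 k := pr_congr (fun l hl => (hne l (by omega)).1)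
      have e2 : pr g2 k = pr g3 k := pr_congr (fun l hl => (hne l (by omega)).2)
      rw [e1, e2]
      have e : pr g3 k * g1 k + pr g3 k * g2 k - (2 : ℂ) • (pr g3 k * g3 k)
          = pr g3 k * (g1 k + g2 k - (2 : ℂ) • g3 k) := by
        rw [mul_sub, mul_add, mul_smul_comm]
      rw [e]
      refine (norm_mul_le _ _).trans ?_
      calc ‖pr g3 k‖ * ‖g1 k + g2 k - (2 : ℂ) • g3 k‖
          ≤ 1 * ‖g1 k + g2 k - (2 : ℂ) • g3 k‖ := by
            gcongr; exact norm_pr_le (fun l _ => hn l)
        _ = _ := one_mul _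
    · rw [(hne k hk).1, (hne k hk).2]
      have e : pr g1 k * g3 k + pr g2 k * g3 k - (2 : ℂ) • (pr g3 k * g3 k)
          = (pr g1 k + pr g2 k - (2 : ℂ) • pr g3 k) * g3 k := by
        rw [sub_mul, add_mul, smul_mul_assoc]
      rw [e]
      refine (norm_mul_le _ _).trans ?_
      calc ‖pr g1 k + pr g2 k - (2 : ℂ) • pr g3 k‖ * ‖g3 k‖
          ≤ ‖pr g1 k + pr g2 k - (2 : ℂ) • pr g3 k‖ * 1 := by gcongr; exact hn k
        _ ≤ _ := by rw [mul_one]; exact ih

theorem pr_unitary {U : ℕ → A} (h : ∀ l, star (U l) * U l = 1) (h' : ∀ l, U l * star (U l) = 1)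
    (k : ℕ) : star (pr U k) * pr U k = 1 ∧ pr U k * star (pr U k) = 1 := by
  induction k with
  | zero => simp [pr_zero]
  | succ k ih =>
    rw [pr_succ, star_mul]
    constructor
    · calc star (U k) * star (pr U k) * (pr U k * U k)
          = star (U k) * (star (pr U k) * pr U k) * U k := by noncomm_ring
        _ = 1 := by rw [ih.1, mul_one, h]
    · calc pr U k * U k * (star (U k) * star (pr U k))
          = pr U k * (U k * star (U k)) * star (pr U k) := by noncomm_ring
        _ = 1 := by rw [h', mul_one, ih.2]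

/-- the own moves telescope -/
theorem pr_telescope {U : ℕ → A} (h : ∀ l, star (U l) * U l = 1) (h' : ∀ l, U l * star (U l) = 1)
    (c : A) (d : ℕ) :
    pr (fun l => U l * (star (pr U (l + 1)) * c * pr U (l + 1))) d = c ^ d * pr U d := by
  induction d with
  | zero => simp [pr_zero]
  | succ k ih =>
    rw [pr_succ, ih]
    have e1 : U k * star (pr U (k + 1)) = star (pr U k) := by
      rw [pr_succ, star_mul, ← mul_assoc, h', one_mul]
    have e2 := (pr_unitary h h' k).2
    calc c ^ k * pr U k * (U k * (star (pr U (k + 1)) * c * pr U (k + 1)))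
        = c ^ k * pr U k * ((U k * star (pr U (k + 1))) * c * pr U (k + 1)) := by noncomm_ring
      _ = c ^ k * (pr U k * star (pr U k)) * c * pr U (k + 1) := by rw [e1]; noncomm_ring
      _ = c ^ (k + 1) * pr U (k + 1) := by rw [e2, mul_one, pow_succ]

theorem commute_res {f Y : A} (hY : IsSelfAdjoint Y) (h : Commute f Y) : Commute f (res Y) := by
  have h1 : Commute f (1 - I • Y) := (Commute.one_right f).sub_right (h.smul_right I)
  have e1 := res_mul hY
  have e2 := mul_res hY
  calc f * res Y = (res Y * (1 - I • Y)) * (f * res Y) := by rw [e1, one_mul]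
    _ = res Y * ((1 - I • Y) * f) * res Y := by noncomm_ring
    _ = res Y * (f * (1 - I • Y)) * res Y := by rw [h1.eq]
    _ = res Y * f * ((1 - I • Y) * res Y) := by noncomm_ring
    _ = res Y * f := by rw [e2, mul_one]

theorem commute_cay {f Y : A} (hY : IsSelfAdjoint Y) (h : Commute f Y) : Commute f (cay Y) := by
  rw [cay_def hY]
  exact ((commute_res hY h).smul_right _).sub_right (Commute.one_right f)

theorem commute_pr {f : A} {g : ℕ → A} {d : ℕ} (h : ∀ l < d, Commute f (g l)) :
    Commute f (pr g d) := by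
  induction d with
  | zero => exact Commute.one_right f
  | succ k ih =>
    rw [pr_succ]
    exact (ih (fun l hl => h l (by omega))).mul_right (h k (by omega))

/-- the Cayley transform commutes with unitary conjugation -/
theorem cay_conj {W b : A} (h : star W * W = 1) (h' : W * star W = 1) (hb : IsSelfAdjoint b) :
    cay (star W * b * W) = star W * cay b * W := by
  have hs : IsSelfAdjoint (star W * b * W) := by
    have := hb.conjugate' W
    exact this
  have e1 : 1 - I • (star W * b * W) = star W * (1 - I • b) * W := by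
    rw [mul_sub, sub_mul, mul_one, h, mul_smul_comm, smul_mul_assoc]
  have e2 : res (star W * b * W) = star W * res b * W := by
    have h1 := mul_res hb
    have h2 := res_mul hs
    calc res (star W * b * W)
        = res (star W * b * W) * (star W * ((1 - I • b) * (W * star W) * res b) * W) := by
          rw [h', mul_one, h1, mul_one, h, mul_one]
      _ = (res (star W * b * W) * (star W * (1 - I • b) * W)) * (star W * res b * W) := by
          noncomm_ring
      _ = star W * res b * W := by rw [← e1, h2, one_mul]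
  rw [cay_def hs, cay_def hb, e2, mul_sub, sub_mul, mul_one, h, mul_smul_comm, smul_mul_assoc]

theorem norm_cay_sub_one_le {b : A} (hb : IsSelfAdjoint b) : ‖cay b - 1‖ ≤ 2 * ‖b‖ := by
  have : cay b - 1 = (2 * I) • (res b * b) := by
    rw [mul_smul, ← res_sub_one' hb, smul_sub, cay_def hb, two_smul ℂ (1 : A)]; abel
  rw [this, norm_smul]
  have n5 : ‖(2 * I : ℂ)‖ = 2 := by simp
  rw [n5]
  gcongr
  refine (norm_mul_le _ _).trans ?_
  calc ‖res b‖ * ‖b‖ ≤ 1 * ‖b‖ := by gcongr; exact norm_res_le hb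
    _ = ‖b‖ := one_mul _

theorem norm_cay_sub_one_sub_le {b : A} (hb : IsSelfAdjoint b) :
    ‖cay b - 1 - (2 * I) • b‖ ≤ 2 * ‖b‖ ^ 2 := by
  have e : cay b - 1 - (2 * I) • b = (2 * I) • ((res b - 1) * b) := by
    have : cay b - 1 = (2 * I) • (res b * b) := by
      rw [mul_smul, ← res_sub_one' hb, smul_sub, cay_def hb, two_smul ℂ (1 : A)]; abel
    rw [this, ← smul_sub, sub_mul, one_mul]
  rw [e, norm_smul]
  have n5 : ‖(2 * I : ℂ)‖ = 2 := by simp
  rw [n5]
  gcongr
  rw [res_sub_one' hb, smul_mul_assoc, norm_smul, norm_I, one_mul]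
  have hb0 := norm_nonneg b
  have h1 := norm_res_le hb
  calc ‖res b * b * b‖ ≤ ‖res b‖ * ‖b‖ * ‖b‖ := by
        refine (norm_mul_le _ _).trans ?_
        gcongr
        exact norm_mul_le _ _
    _ ≤ 1 * ‖b‖ * ‖b‖ := by gcongr
    _ = ‖b‖ ^ 2 := by ring

theorem norm_pow_sub_one_le {u : A} (hu : ‖u‖ ≤ 1) (d : ℕ) : ‖u ^ d - 1‖ ≤ d * ‖u - 1‖ := by
  induction d with
  | zero => simp
  | succ k ih =>
    have e : u ^ (k + 1) - 1 = (u ^ k - 1) * u + (u - 1) := by rw [pow_succ]; noncomm_ring
    rw [e]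
    refine (norm_add_le _ _).trans ?_
    have h1 : ‖(u ^ k - 1) * u‖ ≤ ‖u ^ k - 1‖ := by
      refine (norm_mul_le _ _).trans ?_
      calc ‖u ^ k - 1‖ * ‖u‖ ≤ ‖u ^ k - 1‖ * 1 := by gcongr
        _ = _ := mul_one _
    push_cast
    linarith

theorem norm_pow_sub_lin_le {u : A} (hu : ‖u‖ ≤ 1) (d : ℕ) :
    ‖u ^ d - 1 - (d : ℂ) • (u - 1)‖ ≤ d ^ 2 / 2 * ‖u - 1‖ ^ 2 := by
  induction d with
  | zero => simp
  | succ k ih =>
    have e : u ^ (k + 1) - 1 - ((k + 1 : ℕ) : ℂ) • (u - 1)
        = (u ^ k - 1 - (k : ℂ) • (u - 1)) + (u ^ k - 1) * (u - 1) := by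
      rw [pow_succ]; push_cast; rw [add_smul, one_smul]
      noncomm_ring
    rw [e]
    refine (norm_add_le _ _).trans ?_
    have h1 : ‖(u ^ k - 1) * (u - 1)‖ ≤ k * ‖u - 1‖ * ‖u - 1‖ := by
      refine (norm_mul_le _ _).trans ?_
      gcongr
      exact norm_pow_sub_one_le hu k
    push_cast
    nlinarith [sq_nonneg ‖u - 1‖]

theorem norm_cay_pow_sub_le {b : A} (hb : IsSelfAdjoint b) {d : ℕ} (hd : 0 < d) :
    ‖cay b ^ d - 1 - (2 * d * I : ℂ) • b‖ ≤ 4 * d ^ 2 * ‖b‖ ^ 2 := by
  have hu := norm_cay_le hb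
  have h1 := norm_pow_sub_lin_le hu d
  have h2 := norm_cay_sub_one_sub_le hb
  have h3 := norm_cay_sub_one_le hb
  have e : cay b ^ d - 1 - (2 * d * I : ℂ) • b
      = (cay b ^ d - 1 - (d : ℂ) • (cay b - 1)) + (d : ℂ) • (cay b - 1 - (2 * I) • b) := by
    rw [smul_sub (d : ℂ) (cay b - 1), smul_smul]
    have : (2 * d * I : ℂ) = d * (2 * I) := by ring
    rw [this]; abel
  rw [e]
  refine (norm_add_le _ _).trans ?_
  rw [norm_smul]
  have hd' : (1 : ℝ) ≤ d := by exact_mod_cast hd
  have n1 : ‖(d : ℂ)‖ = d := by simp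
  rw [n1]
  have h4 : ‖cay b - 1‖ ^ 2 ≤ 4 * ‖b‖ ^ 2 := by nlinarith [norm_nonneg (cay b - 1), norm_nonneg b]
  have h5 : (d : ℝ) * ‖cay b - 1 - (2 * I) • b‖ ≤ d * (2 * ‖b‖ ^ 2) := by gcongr
  have h6 : (d : ℝ) ^ 2 / 2 * ‖cay b - 1‖ ^ 2 ≤ d ^ 2 / 2 * (4 * ‖b‖ ^ 2) := by gcongr
  have h7 : (d : ℝ) * ‖b‖ ^ 2 ≤ d ^ 2 * ‖b‖ ^ 2 := by
    have : (d : ℝ) ≤ d ^ 2 := by nlinarith
    gcongr
  nlinarith

end Products

section Own

variable {A : Type*} [CStarAlgebra A] (T : Tr A)

/-- the own move at level `l` -/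
noncomputable def mv (d : ℕ) (X : ℕ → A) (β : A) (l : ℕ) : A :=
  star (pr (fun j => cay (X j)) (l + 1)) * (((2 * d : ℝ)⁻¹ : ℝ) • β) *
    pr (fun j => cay (X j)) (l + 1)

variable {d : ℕ} (hd : 0 < d) {X : ℕ → A} (hX : ∀ l, IsSelfAdjoint (X l)) {β : A}
  (hβ : IsSelfAdjoint β)

include hβ in
theorem isSelfAdjoint_mv (l : ℕ) : IsSelfAdjoint (mv d X β l) := by
  unfold mv
  exact ((IsSelfAdjoint.all (((2 * d : ℝ)⁻¹ : ℝ))).smul hβ).conjugate' _

theorem mv_neg (d : ℕ) (X : ℕ → A) (β : A) (l : ℕ) : mv d X (-β) l = - mv d X β l := by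
  unfold mv; simp

include hX in
theorem norm_mv_le {B : ℝ} (hB : ‖β‖ ≤ B) (l : ℕ) : ‖mv d X β l‖ ≤ B / (2 * d) := by
  unfold mv
  have h1 : ‖pr (fun j => cay (X j)) (l + 1)‖ ≤ 1 := norm_pr_le (fun l _ => norm_cay_le (hX l))
  have h2 : ‖star (pr (fun j => cay (X j)) (l + 1))‖ ≤ 1 := by rwa [norm_star]
  have h3 : ‖((2 * d : ℝ)⁻¹ : ℝ) • β‖ ≤ B / (2 * d) := by
    rw [norm_smul, Real.norm_eq_abs, abs_of_nonneg (by positivity), inv_mul_eq_div]
    gcongr
  have h0 : 0 ≤ ‖((2 * d : ℝ)⁻¹ : ℝ) • β‖ := norm_nonneg _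
  calc _ ≤ ‖star (pr (fun j => cay (X j)) (l + 1))‖ * ‖((2 * d : ℝ)⁻¹ : ℝ) • β‖ *
        ‖pr (fun j => cay (X j)) (l + 1)‖ := by
        refine (norm_mul_le _ _).trans ?_
        gcongr
        exact norm_mul_le _ _
    _ ≤ 1 * (B / (2 * d)) * 1 := by
        have hq : 0 ≤ B / (2 * d) := h0.trans h3
        gcongr
    _ = _ := by ring

include hd hX hβ in
/-- own product estimate -/
theorem own_estimate {B : ℝ} (hB : ‖β‖ ≤ B) :
    T.n (pr (fun l => cay (X l + mv d X β l)) d - (1 + I • β) * pr (fun l => cay (X l)) d)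
      ≤ 2 * B ^ 2 + 4 * B / d * ∑ l ∈ range d, T.n (X l) := by
  have hB0 : 0 ≤ B := (norm_nonneg _).trans hB
  have hd' : (1 : ℝ) ≤ d := by exact_mod_cast hd
  have hd0 : (0 : ℝ) < d := by linarith
  set b : A := ((2 * d : ℝ)⁻¹ : ℝ) • β with hb
  have hbs : IsSelfAdjoint b := (IsSelfAdjoint.all (((2 * d : ℝ)⁻¹ : ℝ))).smul hβ
  have hbn : ‖b‖ ≤ B / (2 * d) := by
    rw [hb, norm_smul, Real.norm_eq_abs, abs_of_nonneg (by positivity), inv_mul_eq_div]
    gcongr
  set U : ℕ → A := fun l => cay (X l) with hU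
  have hu1 : ∀ l, star (U l) * U l = 1 := fun l => star_cay_mul_cay (hX l)
  have hu2 : ∀ l, U l * star (U l) = 1 := fun l => cay_mul_star_cay (hX l)
  -- step 1
  have h1 : T.n (pr (fun l => cay (X l + mv d X β l)) d - pr (fun l => U l * cay (mv d X β l)) d)
      ≤ 4 * B / d * ∑ l ∈ range d, T.n (X l) + B ^ 2 / d := by
    refine (n_pr_sub_le T (fun l _ => norm_cay_le ((hX l).add (isSelfAdjoint_mv hβ l)))
      (fun l _ => ?_)).trans ?_
    · refine (norm_mul_le _ _).trans ?_
      have a1 := norm_cay_le (hX l)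
      have a2 := norm_cay_le (isSelfAdjoint_mv (d := d) (X := X) hβ l)
      nlinarith [norm_nonneg (cay (X l)), norm_nonneg (cay (mv d X β l))]
    · have : ∀ l ∈ range d, T.n (cay (X l + mv d X β l) - U l * cay (mv d X β l))
          ≤ 4 * B / d * T.n (X l) + B ^ 2 / d ^ 2 := by
        intro l _
        have a1 := n_cay_add_sub_mul_le T (hX l) (isSelfAdjoint_mv (d := d) (X := X) hβ l)
        have a2 := norm_mv_le (d := d) (X := X) hX hB l
        have a3 : 8 * T.n (X l) * ‖mv d X β l‖ ≤ 8 * T.n (X l) * (B / (2 * d)) := by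
          have := T.n_nonneg (X l)
          gcongr
        have a4 : ‖mv d X β l‖ ^ 2 ≤ (B / (2 * d)) ^ 2 := by gcongr
        have e1 : 8 * T.n (X l) * (B / (2 * d)) = 4 * B / d * T.n (X l) := by
          field_simp; ring
        have e2 : 4 * (B / (2 * d)) ^ 2 = B ^ 2 / d ^ 2 := by field_simp; ring
        linarith
      refine (sum_le_sum this).trans ?_
      rw [sum_add_distrib, ← mul_sum, sum_const, card_range, nsmul_eq_mul]
      have e3 : (d : ℝ) * (B ^ 2 / d ^ 2) = B ^ 2 / d := by field_simp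
      rw [e3]
  -- step 2
  have h2 : pr (fun l => U l * cay (mv d X β l)) d = cay b ^ d * pr U d := by
    rw [← pr_telescope hu1 hu2]
    congr 1
    funext l
    have := pr_unitary hu1 hu2 (l + 1)
    unfold mv
    rw [← hb, cay_conj this.1 this.2 hbs]
  -- step 3
  have h3 : T.n (cay b ^ d * pr U d - (1 + I • β) * pr U d) ≤ B ^ 2 := by
    rw [← sub_mul]
    refine (T.n_le_norm _).trans ?_
    refine (norm_mul_le _ _).trans ?_
    have a1 : ‖pr U d‖ ≤ 1 := norm_pr_le (fun l _ => norm_cay_le (hX l))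
    have a2 := norm_cay_pow_sub_le hbs hd
    have e1 : (2 * d * I : ℂ) • b = I • β := by
      rw [hb, ← Complex.coe_smul, smul_smul]
      congr 1
      push_cast
      have : (d : ℂ) ≠ 0 := by exact_mod_cast hd.ne'
      field_simp
    rw [e1] at a2
    have e2 : cay b ^ d - (1 + I • β) = cay b ^ d - 1 - I • β := by abel
    rw [e2]
    have a3 : ‖b‖ ^ 2 ≤ (B / (2 * d)) ^ 2 := by gcongr
    have a4 : 4 * (d : ℝ) ^ 2 * (B / (2 * d)) ^ 2 = B ^ 2 := by field_simp; ring
    have a5 : ‖cay b ^ d - 1 - I • β‖ ≤ B ^ 2 := by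
      refine a2.trans ?_
      rw [← a4]; gcongr
    nlinarith [norm_nonneg (cay b ^ d - 1 - I • β), norm_nonneg (pr U d)]
  have h4 := T.n_add_le (pr (fun l => cay (X l + mv d X β l)) d -
    pr (fun l => U l * cay (mv d X β l)) d)
    (pr (fun l => U l * cay (mv d X β l)) d - (1 + I • β) * pr U d)
  rw [sub_add_sub_cancel] at h4
  rw [h2] at h4 h1
  have h5 : B ^ 2 / d ≤ B ^ 2 := div_le_self (by positivity) hd'
  linarith

end Own

section Gain

variable {A : Type*} [CStarAlgebra A] (T : Tr A)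

/-- the own direction -/
noncomputable def dir (s : ℝ) (ζ : ℂ) (V γ : A) : A :=
  ((s / 2 : ℝ) : ℂ) • ((ζ * I) • (V * γ) + star ((ζ * I) • (V * γ)))

theorem isSelfAdjoint_dir (s : ℝ) (ζ : ℂ) (V γ : A) : IsSelfAdjoint (dir s ζ V γ) := by
  unfold dir
  rw [IsSelfAdjoint, star_smul, star_add, star_star, Complex.star_def, Complex.conj_ofReal,
    add_comm]

theorem norm_dir_le {s G : ℝ} (hs : 0 ≤ s) {ζ : ℂ} (hζ : ‖ζ‖ = 1) {V γ : A} (hV : ‖V‖ ≤ 1)
    (hγ : ‖γ‖ ≤ G) : ‖dir s ζ V γ‖ ≤ s * G := by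
  unfold dir
  have h1 : ‖(ζ * I) • (V * γ)‖ ≤ G := by
    rw [norm_smul, norm_mul, hζ, norm_I, mul_one, one_mul]
    refine (norm_mul_le _ _).trans ?_
    have hG : 0 ≤ G := (norm_nonneg _).trans hγ
    nlinarith [norm_nonneg V, norm_nonneg γ]
  have h2 := norm_add_le ((ζ * I) • (V * γ)) (star ((ζ * I) • (V * γ)))
  rw [norm_star] at h2
  rw [norm_smul, Complex.norm_real, Real.norm_eq_abs, abs_of_nonneg (by positivity)]
  calc s / 2 * ‖(ζ * I) • (V * γ) + star ((ζ * I) • (V * γ))‖ ≤ s / 2 * (2 * G) := by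
        gcongr; linarith
    _ = s * G := by ring

/-- the first order gain -/
theorem re_τ_dir {s : ℝ} {ζ : ℂ} (hζ : ‖ζ‖ = 1) {V γ η : A} (hV : star V * V = 1) :
    (T.τ (ζ • (I • (dir s ζ V γ * V * η)))).re
      = s / 2 * ((T.τ (star γ * η)).re - (ζ * ζ * T.τ (V * γ * (V * η))).re) := by
  have hζ2 : (starRingEnd ℂ) ζ * ζ = 1 := by
    rw [← Complex.normSq_eq_conj_mul_self, Complex.normSq_eq_norm_sq, hζ]; simp
  have e : ζ • (I • (dir s ζ V γ * V * η))
      = ((s / 2 : ℝ) : ℂ) • (star γ * η - (ζ * ζ) • (V * γ * (V * η))) := by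
    unfold dir
    rw [star_smul]
    simp only [star_mul, smul_mul_assoc, add_mul, smul_add, smul_sub, smul_smul]
    have c1 : ζ * (I * (((s / 2 : ℝ) : ℂ) * (ζ * I))) = ((s / 2 : ℝ) : ℂ) * (-(ζ * ζ)) := by
      have : I * I = -1 := I_mul_I
      linear_combination (ζ * ζ * ((s / 2 : ℝ) : ℂ)) * this
    have c2 : ζ * (I * (((s / 2 : ℝ) : ℂ) * (star I * star ζ))) = ((s / 2 : ℝ) : ℂ) := by
      rw [Complex.star_def, Complex.conj_I]
      have : I * I = -1 := I_mul_I
      linear_combination (-(ζ * (starRingEnd ℂ) ζ) * ((s / 2 : ℝ) : ℂ)) * this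
        + ((s / 2 : ℝ) : ℂ) * hζ2
    rw [c1, c2]
    have m1 : V * γ * V * η = V * γ * (V * η) := by noncomm_ring
    have m2 : star γ * star V * V * η = star γ * η := by
      rw [mul_assoc (star γ), hV, mul_one]
    rw [m1, m2, mul_neg, neg_smul, add_comm, ← sub_eq_add_neg]
  rw [e, map_smul, smul_eq_mul, Complex.re_ofReal_mul, map_sub, map_smul, smul_eq_mul,
    Complex.sub_re]

/-- choice of the phase -/
theorem exists_phase {s : ℝ} (hs : 0 ≤ s) {V γ η : A} (hV : star V * V = 1) :
    ∃ ζ : ℂ, ‖ζ‖ = 1 ∧ s / 2 * (T.τ (star γ * η)).re ≤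
      (T.τ (ζ • (I • (dir s ζ V γ * V * η)))).re := by
  by_cases h : (T.τ (V * γ * (V * η))).re ≤ 0
  · refine ⟨1, by simp, ?_⟩
    rw [re_τ_dir T (by simp) hV]
    have : (1 * 1 * T.τ (V * γ * (V * η))).re = (T.τ (V * γ * (V * η))).re := by simp
    rw [this]
    have : 0 ≤ s / 2 := by positivity
    nlinarith
  · refine ⟨I, by simp, ?_⟩
    rw [re_τ_dir T (by simp) hV]
    have : (I * I * T.τ (V * γ * (V * η))).re = -(T.τ (V * γ * (V * η))).re := by
      rw [I_mul_I]; simp
    rw [this]
    have : 0 ≤ s / 2 := by positivity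
    push Not at h
    nlinarith

/-- own gain, averaged over the sign -/
theorem own_gain {d : ℕ} (hd : 0 < d) {X : ℕ → A} (hX : ∀ l, IsSelfAdjoint (X l)) {s G : ℝ}
    (hs : 0 ≤ s) {γ η : A} (hγ : ‖γ‖ ≤ G) :
    ∃ (ζ : ℂ) (β : A), ‖ζ‖ = 1 ∧ IsSelfAdjoint β ∧ ‖β‖ ≤ s * G ∧
      (∀ f, (∀ l < d, Commute f (X l)) → Commute f γ → Commute f (star γ) → Commute f β) ∧
      s / 2 * (T.τ (star γ * η)).re
        - (2 * (s * G) ^ 2 + 4 * (s * G) / d * ∑ l ∈ range d, T.n (X l)) * T.n η ≤
      (1 / 2) * ((T.τ (ζ • (pr (fun l => cay (X l + mv d X β l)) d * η))).re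
        - (T.τ (ζ • (pr (fun l => cay (X l - mv d X β l)) d * η))).re) := by
  set V := pr (fun l => cay (X l)) d with hV
  have hu1 : ∀ l, star (cay (X l)) * cay (X l) = 1 := fun l => star_cay_mul_cay (hX l)
  have hu2 : ∀ l, cay (X l) * star (cay (X l)) = 1 := fun l => cay_mul_star_cay (hX l)
  have hVu := pr_unitary hu1 hu2 d
  obtain ⟨ζ, hζ, hgain⟩ := exists_phase T hs (γ := γ) (η := η) hVu.1
  set β := dir s ζ V γ with hβ
  have hVn : ‖V‖ ≤ 1 := norm_pr_le (fun l _ => norm_cay_le (hX l))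
  have hβn : ‖β‖ ≤ s * G := norm_dir_le hs hζ hVn hγ
  have hβs : IsSelfAdjoint β := isSelfAdjoint_dir _ _ _ _
  refine ⟨ζ, β, hζ, hβs, hβn, ?_, ?_⟩
  · intro f hf hf1 hf2
    rw [hβ]; unfold dir
    have hfV : Commute f V := commute_pr (fun l hl => commute_cay (hX l) (hf l hl))
    have hfVs : Commute f (star V) := by
      -- `star V` is the inverse of `V`
      have h1 := hVu.1
      have h2 := hVu.2
      calc f * star V = star V * V * f * star V := by rw [h1, one_mul]
        _ = star V * (V * f) * star V := by noncomm_ring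
        _ = star V * (f * V) * star V := by rw [hfV.eq]
        _ = star V * f * (V * star V) := by noncomm_ring
        _ = star V * f := by rw [h2, mul_one]
    have g1 : Commute f ((ζ * I) • (V * γ)) := (hfV.mul_right hf1).smul_right _
    have g2 : Commute f (star ((ζ * I) • (V * γ))) := by
      have e0 : star ((ζ * I) • (V * γ)) = (star (ζ * I)) • (star γ * star V) := by
        rw [star_smul, star_mul V γ]
      rw [e0]
      exact Commute.smul_right (hf2.mul_right hfVs) (star (ζ * I))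
    exact Commute.smul_right (g1.add_right g2) (((s / 2 : ℝ) : ℂ))
  · have h1 := own_estimate T hd hX hβs hβn
    have h2 := own_estimate T hd hX hβs.neg (B := s * G) (by rw [norm_neg]; exact hβn)
    set e := 2 * (s * G) ^ 2 + 4 * (s * G) / d * ∑ l ∈ range d, T.n (X l) with he
    have e2 : (fun l => cay (X l + mv d X (-β) l)) = (fun l => cay (X l - mv d X β l)) := by
      funext l; rw [mv_neg, sub_eq_add_neg]
    rw [e2] at h2
    set P1 := pr (fun l => cay (X l + mv d X β l)) d with hP1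
    set P2 := pr (fun l => cay (X l - mv d X β l)) d with hP2
    -- error terms
    have key : ∀ (P Q : A), T.n (P - Q) ≤ e →
        |(T.τ (ζ • (P * η))).re - (T.τ (ζ • (Q * η))).re| ≤ e * T.n η := by
      intro P Q hPQ
      have : (T.τ (ζ • (P * η))).re - (T.τ (ζ • (Q * η))).re = (T.τ ((ζ • (P - Q)) * η)).re := by
        rw [smul_mul_assoc, sub_mul, smul_sub, map_sub, Complex.sub_re]
      rw [this]
      refine (T.abs_re_τ_mul_le _ _).trans ?_
      rw [T.n_smul, hζ, one_mul]
      gcongr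
      exact T.n_nonneg _
    have k1 := (abs_le.1 (key _ _ h1)).1
    have k2 := (abs_le.1 (key _ _ h2)).2
    have e3 : (1 / 2) * ((T.τ (ζ • ((1 + I • β) * V * η))).re
        - (T.τ (ζ • ((1 + I • -β) * V * η))).re) = (T.τ (ζ • (I • (β * V * η)))).re := by
      have a1 : ζ • ((1 + I • β) * V * η) = ζ • (V * η) + ζ • (I • (β * V * η)) := by
        rw [← smul_add]; congr 1
        rw [add_mul, add_mul, one_mul, smul_mul_assoc, smul_mul_assoc]
      have a2 : ζ • ((1 + I • -β) * V * η) = ζ • (V * η) - ζ • (I • (β * V * η)) := by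
        rw [← smul_sub]; congr 1
        rw [add_mul, add_mul, one_mul, smul_mul_assoc, smul_mul_assoc, neg_mul, neg_mul, smul_neg,
          sub_eq_add_neg]
      rw [a1, a2, map_add, map_sub, Complex.add_re, Complex.sub_re]; ring
    linarith

end Gain

section Signs

variable {S : Type} [Fintype S] [DecidableEq S]

/-- sign of a Bool -/
def sgn (b : Bool) : ℝ := if b then 1 else -1

theorem sgn_not (b : Bool) : sgn (!b) = - sgn b := by cases b <;> simp [sgn]

theorem sgn_mul_self (b : Bool) : sgn b * sgn b = 1 := by cases b <;> simp [sgn]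

theorem sgn_eq (b : Bool) : sgn b = 1 ∨ sgn b = -1 := by cases b <;> simp [sgn]

/-- flipping one coordinate -/
def flip (b : S) : (S → Bool) ≃ (S → Bool) where
  toFun ε := Function.update ε b (!ε b)
  invFun ε := Function.update ε b (!ε b)
  left_inv ε := by simp
  right_inv ε := by simp

theorem sum_flip (b : S) (Φ : (S → Bool) → ℝ) :
    ∑ ε, Φ ε = (1 / 2) * ∑ ε, (Φ ε + Φ (flip b ε)) := by
  rw [sum_add_distrib, Equiv.sum_comp (flip b) Φ]; ring

/-- switching off the coordinates in `R` -/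
noncomputable def off (R : Finset S) (ε : S → Bool) (c : S) : ℝ := if c ∈ R then 0 else sgn (ε c)

theorem hybrid (F : (S → ℝ) → ℝ) (R : Finset S) (κ : S → ℝ)
    (h : ∀ b ∈ R, ∀ v : S → ℝ, (∀ c, |v c| ≤ 1) →
      |F (Function.update v b 1) + F (Function.update v b (-1)) - 2 * F (Function.update v b 0)|
        ≤ 2 * κ b) :
    |∑ ε : S → Bool, F (off ∅ ε) - ∑ ε : S → Bool, F (off R ε)|
      ≤ (Fintype.card (S → Bool) : ℝ) * ∑ b ∈ R, κ b := by
  induction R using Finset.induction_on with
  | empty => simp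
  | insert b R hb ih =>
    have ih' := ih (fun c hc => h c (mem_insert_of_mem hc))
    have key : |∑ ε : S → Bool, F (off R ε) - ∑ ε : S → Bool, F (off (insert b R) ε)|
        ≤ (Fintype.card (S → Bool) : ℝ) * κ b := by
      have e1 : ∀ ε : S → Bool, off R ε = Function.update (off R ε) b (sgn (ε b)) := by
        intro ε; funext c
        by_cases hc : c = b
        · subst hc; simp [off, hb]
        · rw [Function.update_of_ne hc]
      have e2 : ∀ ε : S → Bool, off R (flip b ε) = Function.update (off R ε) b (- sgn (ε b)) := by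
        intro ε; funext c
        by_cases hc : c = b
        · subst hc; simp [off, hb, flip, sgn_not]
        · rw [Function.update_of_ne hc]
          simp [off, flip, Function.update_of_ne hc]
      have e3 : ∀ ε : S → Bool, off (insert b R) ε = Function.update (off R ε) b 0 := by
        intro ε; funext c
        by_cases hc : c = b
        · subst hc; simp [off]
        · rw [Function.update_of_ne hc]
          simp [off, hc]
      rw [sum_flip b (fun ε => F (off R ε)), ← sub_nonneg]
      have e4 : (1 / 2) * ∑ ε : S → Bool, (F (off R ε) + F (off R (flip b ε)))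
          - ∑ ε : S → Bool, F (off (insert b R) ε)
          = ∑ ε : S → Bool, (1 / 2) * (F (Function.update (off R ε) b 1)
            + F (Function.update (off R ε) b (-1)) - 2 * F (Function.update (off R ε) b 0)) := by
        rw [mul_sum, ← sum_sub_distrib]
        refine sum_congr rfl (fun ε _ => ?_)
        rw [e2, e3]
        nth_rewrite 1 [e1 ε]
        rcases sgn_eq (ε b) with hs | hs <;> rw [hs]
        · ring
        · rw [neg_neg]; ring
      rw [e4, sub_nonneg]
      refine (abs_sum_le_sum_abs _ _).trans ?_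
      have : ∀ ε ∈ (univ : Finset (S → Bool)), |(1 / 2) * (F (Function.update (off R ε) b 1)
            + F (Function.update (off R ε) b (-1)) - 2 * F (Function.update (off R ε) b 0))|
            ≤ κ b := by
        intro ε _
        rw [abs_mul, abs_of_pos (by norm_num : (0:ℝ) < 1 / 2)]
        have := h b (mem_insert_self b R) (off R ε) (fun c => by
          unfold off
          split_ifs
          · simp
          · rcases sgn_eq (ε c) with hs | hs <;> rw [hs] <;> simp)
        linarith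
      refine (sum_le_sum this).trans ?_
      rw [sum_const, card_univ, nsmul_eq_mul]
    rw [sum_insert hb, mul_add]
    have := abs_sub_le (∑ ε : S → Bool, F (off ∅ ε)) (∑ ε : S → Bool, F (off R ε))
      (∑ ε : S → Bool, F (off (insert b R) ε))
    linarith

theorem off_univ_erase (a : S) (ε : S → Bool) :
    off (univ.erase a) ε = Function.update (0 : S → ℝ) a (sgn (ε a)) := by
  funext c
  by_cases hc : c = a
  · subst hc; simp [off]
  · rw [Function.update_of_ne hc]; simp [off, hc]

theorem sum_own (F : (S → ℝ) → ℝ) (a : S) :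
    ∑ ε : S → Bool, F (off (univ.erase a) ε)
      = (Fintype.card (S → Bool) : ℝ) * ((1 / 2) * (F (Function.update (0 : S → ℝ) a 1)
        + F (Function.update (0 : S → ℝ) a (-1)))) := by
  rw [sum_flip a]
  have : ∀ ε : S → Bool, F (off (univ.erase a) ε) + F (off (univ.erase a) (flip a ε))
      = F (Function.update (0 : S → ℝ) a 1) + F (Function.update (0 : S → ℝ) a (-1)) := by
    intro ε
    rw [off_univ_erase, off_univ_erase]
    have e : sgn (flip a ε a) = - sgn (ε a) := by simp [flip, sgn_not]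
    rw [e]
    rcases sgn_eq (ε a) with hs | hs <;> rw [hs]
    · rw [neg_neg]; ring
  rw [sum_congr rfl (fun ε _ => this ε), sum_const, card_univ, nsmul_eq_mul]
  ring

theorem sum_N_signs {A : Type*} [CStarAlgebra A] (T : Tr A) (R : Finset S) (h : S → A) :
    ∑ ε : S → Bool, T.N (∑ b ∈ R, ((sgn (ε b) : ℝ) : ℂ) • h b)
      = (Fintype.card (S → Bool) : ℝ) * ∑ b ∈ R, T.N (h b) := by
  induction R using Finset.induction_on with
  | empty => simp [T.N_zero]
  | insert b R hb ih =>
    have e : ∀ ε : S → Bool, T.N (∑ c ∈ insert b R, ((sgn (ε c) : ℝ) : ℂ) • h c)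
        = T.N (h b) + 2 * (sgn (ε b) * T.ip (h b) (∑ c ∈ R, ((sgn (ε c) : ℝ) : ℂ) • h c))
          + T.N (∑ c ∈ R, ((sgn (ε c) : ℝ) : ℂ) • h c) := by
      intro ε
      rw [sum_insert hb, T.N_add, T.N_smul, T.ip_smul_left]
      have : ‖((sgn (ε b) : ℝ) : ℂ)‖ ^ 2 = 1 := by
        rcases sgn_eq (ε b) with hs | hs <;> rw [hs] <;> simp
      rw [this, one_mul]
    rw [sum_congr rfl (fun ε _ => e ε), sum_add_distrib, sum_add_distrib, ih, ← mul_sum]
    have h1 : ∑ ε : S → Bool, sgn (ε b) * T.ip (h b) (∑ c ∈ R, ((sgn (ε c) : ℝ) : ℂ) • h c) = 0 := by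
      rw [sum_flip b]
      have : ∀ ε : S → Bool, sgn (ε b) * T.ip (h b) (∑ c ∈ R, ((sgn (ε c) : ℝ) : ℂ) • h c)
          + sgn (flip b ε b) * T.ip (h b) (∑ c ∈ R, ((sgn (flip b ε c) : ℝ) : ℂ) • h c) = 0 := by
        intro ε
        have e1 : sgn (flip b ε b) = - sgn (ε b) := by simp [flip, sgn_not]
        have e2 : ∑ c ∈ R, ((sgn (flip b ε c) : ℝ) : ℂ) • h c
            = ∑ c ∈ R, ((sgn (ε c) : ℝ) : ℂ) • h c := by
          refine sum_congr rfl (fun c hc => ?_)
          have : c ≠ b := fun h' => hb (h' ▸ hc)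
          simp [flip, Function.update_of_ne this]
        rw [e1, e2]; ring
      rw [sum_congr rfl (fun ε _ => this ε)]; simp
    rw [h1, sum_const, card_univ, nsmul_eq_mul, sum_insert hb]
    ring

end Signs

section Step

variable {A : Type*} [CStarAlgebra A] (T : Tr A)
variable {S W : Type} [Fintype S] [DecidableEq S] [Fintype W] [DecidableEq W]

/-- the perturbed variable at `(l, w)` (multiplied by `t`) with sign pattern `v` -/
noncomputable def pert (p : S → ℕ → W) (Y : ℕ → W → A) (h : S → ℕ → A) (v : S → ℝ) (l : ℕ) (w : W) :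
    A := Y l w + ∑ b ∈ univ.filter (fun b => p b l = w), ((v b : ℝ) : ℂ) • h b l

omit [DecidableEq S] [Fintype W] in
theorem isSelfAdjoint_pert {p : S → ℕ → W} {Y : ℕ → W → A} (hY : ∀ l w, IsSelfAdjoint (Y l w))
    {h : S → ℕ → A} (hh : ∀ b l, IsSelfAdjoint (h b l)) (v : S → ℝ) (l : ℕ) (w : W) :
    IsSelfAdjoint (pert p Y h v l w) := by
  unfold pert
  refine (hY l w).add ?_
  rw [IsSelfAdjoint, star_sum]
  refine sum_congr rfl (fun b _ => ?_)
  rw [star_smul, Complex.star_def, Complex.conj_ofReal, (hh b l).star_eq]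

omit [Fintype W] in
theorem pert_update {p : S → ℕ → W} {Y : ℕ → W → A} {h : S → ℕ → A} (v : S → ℝ) (b : S) (r : ℝ)
    (l : ℕ) (w : W) :
    pert p Y h (Function.update v b r) l w
      = pert p Y h (Function.update v b 0) l w + (if p b l = w then ((r : ℝ) : ℂ) • h b l else 0) := by
  unfold pert
  rw [add_assoc]
  congr 1
  by_cases hb : p b l = w
  · have hmem : b ∈ univ.filter (fun b => p b l = w) := by simp [hb]
    rw [if_pos hb, ← add_sum_erase _ _ hmem, ← add_sum_erase (univ.filter (fun b => p b l = w))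
      (fun c => ((Function.update v b 0 c : ℝ) : ℂ) • h c l) hmem]
    simp only [Function.update_self, Complex.ofReal_zero, zero_smul, zero_add]
    rw [add_comm]
    congr 1
    refine sum_congr rfl (fun c hc => ?_)
    have : c ≠ b := (mem_erase.1 hc).1
    rw [Function.update_of_ne this, Function.update_of_ne this]
  · rw [if_neg hb, add_zero]
    refine sum_congr rfl (fun c hc => ?_)
    have : c ≠ b := by
      intro h'
      subst h'
      exact hb (mem_filter.1 hc).2
    rw [Function.update_of_ne this, Function.update_of_ne this]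

omit [Fintype W] in
/-- second difference of the correlation functional in one foreign sign -/
theorem foreign_second {d : ℕ} {p : S → ℕ → W}
    (hinter : ∀ a b, a ≠ b → ∀ l < d, ∀ l' < d, p a l = p b l → p a l' = p b l' → l = l')
    {Y : ℕ → W → A} (hY : ∀ l w, IsSelfAdjoint (Y l w))
    {h : S → ℕ → A} (hh : ∀ b l, IsSelfAdjoint (h b l)) {r : ℝ} (hr : ∀ b l, ‖h b l‖ ≤ r)
    (a b : S) (hab : b ≠ a) (ζ : ℂ) (hζ : ‖ζ‖ = 1) (η : A) (v : S → ℝ) (hv : ∀ c, |v c| ≤ 1) :
    |(T.τ (((Function.update v b 1 a : ℝ) * ζ : ℂ) •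
          (pr (fun l => cay (pert p Y h (Function.update v b 1) l (p a l))) d * η))).re
      + (T.τ (((Function.update v b (-1) a : ℝ) * ζ : ℂ) •
          (pr (fun l => cay (pert p Y h (Function.update v b (-1)) l (p a l))) d * η))).re
      - 2 * (T.τ (((Function.update v b 0 a : ℝ) * ζ : ℂ) •
          (pr (fun l => cay (pert p Y h (Function.update v b 0) l (p a l))) d * η))).re|
      ≤ 2 * ((((range d).filter (fun l => p b l = p a l)).card : ℝ) * (2 * r ^ 2 * T.n η)) := by
  have hab' : a ≠ b := fun h => hab h.symm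
  rw [Function.update_of_ne hab', Function.update_of_ne hab', Function.update_of_ne hab']
  set g1 : ℕ → A := fun l => cay (pert p Y h (Function.update v b 1) l (p a l)) with hg1
  set g2 : ℕ → A := fun l => cay (pert p Y h (Function.update v b (-1)) l (p a l)) with hg2
  set g3 : ℕ → A := fun l => cay (pert p Y h (Function.update v b 0) l (p a l)) with hg3
  have hr0 : 0 ≤ r := (norm_nonneg _).trans (hr a 0)
  have hg3n : ∀ l, ‖g3 l‖ ≤ 1 := fun l => norm_cay_le (isSelfAdjoint_pert hY hh _ _ _)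
  -- combine
  have e : (T.τ ((v a * ζ : ℂ) • (pr g1 d * η))).re + (T.τ ((v a * ζ : ℂ) • (pr g2 d * η))).re
      - 2 * (T.τ ((v a * ζ : ℂ) • (pr g3 d * η))).re
      = (T.τ (((v a * ζ : ℂ) • (pr g1 d + pr g2 d - (2 : ℂ) • pr g3 d)) * η)).re := by
    rw [smul_mul_assoc, sub_mul, add_mul, smul_mul_assoc, smul_sub, smul_add, map_sub, map_add,
      Complex.sub_re, Complex.add_re, smul_comm _ (2 : ℂ), map_smul T.τ (2 : ℂ), smul_eq_mul]
    simp
  rw [e]
  refine (T.abs_re_τ_mul_le _ _).trans ?_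
  rw [T.n_smul, norm_mul, hζ, mul_one, Complex.norm_real, Real.norm_eq_abs]
  by_cases hE : ∃ l0 < d, p b l0 = p a l0
  · obtain ⟨l0, hl0, hpl0⟩ := hE
    have hcard : (1 : ℝ) ≤ (((range d).filter (fun l => p b l = p a l)).card : ℝ) := by
      have : l0 ∈ (range d).filter (fun l => p b l = p a l) := by simp [hl0, hpl0]
      exact_mod_cast card_pos.2 ⟨l0, this⟩
    -- only the factor `l0` changes (for indices `< d`)
    have hother : ∀ l < d, l ≠ l0 → p b l ≠ p a l := by
      intro l hl hne heq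
      exact hne (hinter b a hab l hl l0 hl0 heq hpl0)
    have c1 : pr g1 d = pr (fun l => if l = l0 then g1 l0 else g3 l) d := by
      refine pr_congr (fun l hl => ?_)
      by_cases hl' : l = l0
      · subst hl'; simp
      · simp only [hl', if_false, hg1, hg3]
        rw [pert_update v b 1, if_neg (hother l hl hl'), add_zero]
    have c2 : pr g2 d = pr (fun l => if l = l0 then g2 l0 else g3 l) d := by
      refine pr_congr (fun l hl => ?_)
      by_cases hl' : l = l0
      · subst hl'; simp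
      · simp only [hl', if_false, hg2, hg3]
        rw [pert_update v b (-1), if_neg (hother l hl hl'), add_zero]
    have hn : ‖pr g1 d + pr g2 d - (2 : ℂ) • pr g3 d‖ ≤ 4 * r ^ 2 := by
      rw [c1, c2]
      refine (norm_pr_second (l0 := l0) ?_ hg3n).trans ?_
      · intro l hl; simp [hl]
      · simp only [if_true]
        have q1 : g1 l0 = cay (pert p Y h (Function.update v b 0) l0 (p a l0) + h b l0) := by
          simp only [hg1]
          rw [pert_update v b 1, if_pos hpl0]; simp
        have q2 : g2 l0 = cay (pert p Y h (Function.update v b 0) l0 (p a l0) - h b l0) := by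
          simp only [hg2]
          rw [pert_update v b (-1), if_pos hpl0]; simp [sub_eq_add_neg]
        rw [q1, q2]
        refine (norm_cay_second_diff (isSelfAdjoint_pert hY hh _ _ _) (hh b l0)).trans ?_
        have := hr b l0
        have h0 := norm_nonneg (h b l0)
        gcongr
    have hn2 : T.n (pr g1 d + pr g2 d - (2 : ℂ) • pr g3 d) ≤ 4 * r ^ 2 := (T.n_le_norm _).trans hn
    have hn0 := T.n_nonneg (pr g1 d + pr g2 d - (2 : ℂ) • pr g3 d)
    have hη0 := T.n_nonneg η
    have hva := hv a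
    have hva0 := abs_nonneg (v a)
    calc |v a| * T.n (pr g1 d + pr g2 d - (2 : ℂ) • pr g3 d) * T.n η
        ≤ 1 * (4 * r ^ 2) * T.n η := by gcongr
      _ = 2 * (1 * (2 * r ^ 2 * T.n η)) := by ring
      _ ≤ _ := by gcongr
  · push Not at hE
    have c1 : pr g1 d = pr g3 d := by
      refine pr_congr (fun l hl => ?_)
      simp only [hg1, hg3]
      rw [pert_update v b 1, if_neg (hE l hl), add_zero]
    have c2 : pr g2 d = pr g3 d := by
      refine pr_congr (fun l hl => ?_)
      simp only [hg2, hg3]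
      rw [pert_update v b (-1), if_neg (hE l hl), add_zero]
    rw [c1, c2, two_smul, sub_self, T.n_zero, mul_zero, zero_mul]
    have := T.n_nonneg η
    positivity

/-- **Main estimate.** -/
theorem core_step {d : ℕ} (hd : 0 < d) (p : S → ℕ → W)
    (hinter : ∀ a b, a ≠ b → ∀ l < d, ∀ l' < d, p a l = p b l → p a l' = p b l' → l = l')
    (hdeg : ∀ l < d, ∀ w, (univ.filter (fun b => p b l = w)).card ≤ d)
    (x : ℕ → W → A) (hx : ∀ l w, IsSelfAdjoint (x l w)) (η γ : S → A) {G s t Λ : ℝ}
    (hG : 0 ≤ G) (hγ : ∀ a, ‖γ a‖ ≤ G) (hs : 0 ≤ s) (ht : 0 < t) (hΛ : 0 ≤ Λ) :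
    ∃ (z : ℕ → W → A) (ω : S → ℂ), (∀ l w, IsSelfAdjoint (z l w)) ∧ (∀ a, ‖ω a‖ = 1) ∧
      (∀ f, (∀ l w, Commute f (x l w)) → (∀ a, Commute f (γ a) ∧ Commute f (star (γ a))) →
        ∀ l w, Commute f (z l w)) ∧
      s / 2 * ∑ a, (T.τ (star (γ a) * η a)).re
        - ∑ a, (3 * (s * G) ^ 2 + 4 * t * (s * G) / d * ∑ l ∈ range d, T.n (x l (p a l))) * T.n (η a)
        - Λ * ((Fintype.card S : ℝ) * (s * G) ^ 2 / (4 * t ^ 2 * d))
      ≤ ∑ a, (T.τ (ω a • (pr (fun l => cay ((t : ℂ) • z l (p a l))) d * η a))).re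
        - Λ * ∑ l ∈ range d, ∑ w, T.N (z l w - x l w) := by
  have hd' : (1 : ℝ) ≤ d := by exact_mod_cast hd
  have hd0 : (0 : ℝ) < d := by linarith
  set Y : ℕ → W → A := fun l w => (t : ℂ) • x l w with hYdef
  have hY : ∀ l w, IsSelfAdjoint (Y l w) := by
    intro l w
    rw [hYdef, IsSelfAdjoint, star_smul, Complex.star_def, Complex.conj_ofReal, (hx l w).star_eq]
  have hnY : ∀ l w, T.n (Y l w) = t * T.n (x l w) := by
    intro l w
    rw [hYdef]; simp only
    rw [T.n_smul, Complex.norm_real, Real.norm_eq_abs, abs_of_pos ht]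
  -- own data
  have hown : ∀ a, ∃ (ζ : ℂ) (β : A), ‖ζ‖ = 1 ∧ IsSelfAdjoint β ∧ ‖β‖ ≤ s * G ∧
      (∀ f, (∀ l < d, Commute f (Y l (p a l))) → Commute f (γ a) → Commute f (star (γ a)) →
        Commute f β) ∧
      s / 2 * (T.τ (star (γ a) * η a)).re
        - (2 * (s * G) ^ 2 + 4 * (s * G) / d * ∑ l ∈ range d, T.n (Y l (p a l))) * T.n (η a) ≤
      (1 / 2) * ((T.τ (ζ • (pr (fun l => cay (Y l (p a l)
          + mv d (fun l => Y l (p a l)) β l)) d * η a))).re
        - (T.τ (ζ • (pr (fun l => cay (Y l (p a l)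
          - mv d (fun l => Y l (p a l)) β l)) d * η a))).re) := fun a =>
    own_gain T hd (fun l => hY l (p a l)) hs (hγ a)
  choose ζ β hζ hβs hβn hβc hβg using hown
  set h : S → ℕ → A := fun a l => mv d (fun l => Y l (p a l)) (β a) l with hh
  have hhs : ∀ a l, IsSelfAdjoint (h a l) := fun a l => isSelfAdjoint_mv (hβs a) l
  have hhn : ∀ a l, ‖h a l‖ ≤ s * G / (2 * d) := fun a l =>
    norm_mv_le (fun l => hY l (p a l)) (hβn a) l
  -- the correlation functional of the constraint `a`
  set F : S → (S → ℝ) → ℝ := fun a v => (T.τ (((v a : ℝ) * ζ a : ℂ) •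
          (pr (fun l => cay (pert p Y h v l (p a l))) d * η a))).re with hF
  -- number of foreign constraints
  have hcount : ∀ a, ∑ b ∈ univ.erase a, (((range d).filter (fun l => p b l = p a l)).card : ℝ)
      ≤ (d : ℝ) * d := by
    intro a
    have h1 : ∑ b : S, (((range d).filter (fun l => p b l = p a l)).card : ℝ)
        = ∑ l ∈ range d, ((univ.filter (fun b => p b l = p a l)).card : ℝ) := by
      have : ∀ b : S, (((range d).filter (fun l => p b l = p a l)).card : ℝ)
          = ∑ l ∈ range d, if p b l = p a l then (1 : ℝ) else 0 := by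
        intro b; rw [← sum_filter, sum_const, nsmul_eq_mul, mul_one]
      rw [sum_congr rfl (fun b _ => this b), sum_comm]
      refine sum_congr rfl (fun l _ => ?_)
      rw [← sum_filter, sum_const, nsmul_eq_mul, mul_one]
    calc _ ≤ ∑ b : S, (((range d).filter (fun l => p b l = p a l)).card : ℝ) :=
          sum_le_sum_of_subset_of_nonneg (erase_subset _ _) (fun _ _ _ => by positivity)
      _ = _ := h1
      _ ≤ ∑ l ∈ range d, (d : ℝ) := sum_le_sum (fun l hl => by
          exact_mod_cast hdeg l (mem_range.1 hl) (p a l))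
      _ = (d : ℝ) * d := by rw [sum_const, card_range, nsmul_eq_mul]
  -- averaging over the signs, one constraint
  have havg : ∀ a, (Fintype.card (S → Bool) : ℝ) * (s / 2 * (T.τ (star (γ a) * η a)).re
        - (3 * (s * G) ^ 2 + 4 * t * (s * G) / d * ∑ l ∈ range d, T.n (x l (p a l))) * T.n (η a))
      ≤ ∑ ε : S → Bool, F a (off ∅ ε) := by
    intro a
    have h1 := hybrid (F a) (univ.erase a)
      (fun b => (((range d).filter (fun l => p b l = p a l)).card : ℝ) *
        (2 * (s * G / (2 * d)) ^ 2 * T.n (η a)))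
      (fun b hb v hv => foreign_second T hinter hY hhs hhn a b (mem_erase.1 hb).1 (ζ a) (hζ a)
        (η a) v hv)
    rw [sum_own (F a) a] at h1
    rw [← sum_mul] at h1
    have hη0 := T.n_nonneg (η a)
    have h2 : (∑ b ∈ univ.erase a, (((range d).filter (fun l => p b l = p a l)).card : ℝ)) *
        (2 * (s * G / (2 * d)) ^ 2 * T.n (η a)) ≤ (s * G) ^ 2 * T.n (η a) := by
      calc _ ≤ ((d : ℝ) * d) * (2 * (s * G / (2 * d)) ^ 2 * T.n (η a)) := by
            gcongr; exact hcount a
        _ = (s * G) ^ 2 / 2 * T.n (η a) := by field_simp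
        _ ≤ (s * G) ^ 2 * T.n (η a) := by
            have : 0 ≤ (s * G) ^ 2 := by positivity
            gcongr; linarith
    have h3 : F a (Function.update (0 : S → ℝ) a 1) = (T.τ (ζ a • (pr (fun l => cay (Y l (p a l)
          + mv d (fun l => Y l (p a l)) (β a) l)) d * η a))).re := by
      simp only [hF]
      rw [Function.update_self]
      have : pr (fun l => cay (pert p Y h (Function.update (0 : S → ℝ) a 1) l (p a l))) d
          = pr (fun l => cay (Y l (p a l) + mv d (fun l => Y l (p a l)) (β a) l)) d := by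
        refine pr_congr (fun l _ => ?_)
        rw [pert_update (0 : S → ℝ) a 1, if_pos rfl]
        have : pert p Y h (Function.update (0 : S → ℝ) a 0) l (p a l) = Y l (p a l) := by
          unfold pert
          rw [sum_eq_zero, add_zero]
          intro b _
          have : Function.update (0 : S → ℝ) a 0 b = 0 := by
            by_cases hb : b = a
            · subst hb; simp
            · rw [Function.update_of_ne hb]; rfl
          rw [this]; simp
        rw [this]; simp [hh]
      rw [this]; simp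
    have h4 : F a (Function.update (0 : S → ℝ) a (-1)) = - (T.τ (ζ a • (pr (fun l => cay (Y l (p a l)
          - mv d (fun l => Y l (p a l)) (β a) l)) d * η a))).re := by
      simp only [hF]
      rw [Function.update_self]
      have : pr (fun l => cay (pert p Y h (Function.update (0 : S → ℝ) a (-1)) l (p a l))) d
          = pr (fun l => cay (Y l (p a l) - mv d (fun l => Y l (p a l)) (β a) l)) d := by
        refine pr_congr (fun l _ => ?_)
        rw [pert_update (0 : S → ℝ) a (-1), if_pos rfl]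
        have : pert p Y h (Function.update (0 : S → ℝ) a 0) l (p a l) = Y l (p a l) := by
          unfold pert
          rw [sum_eq_zero, add_zero]
          intro b _
          have : Function.update (0 : S → ℝ) a 0 b = 0 := by
            by_cases hb : b = a
            · subst hb; simp
            · rw [Function.update_of_ne hb]; rfl
          rw [this]; simp
        rw [this]; simp [hh, sub_eq_add_neg]
      rw [this]; simp
    rw [h3, h4] at h1
    have h5 := hβg a
    have h6 : ∑ l ∈ range d, T.n (Y l (p a l)) = t * ∑ l ∈ range d, T.n (x l (p a l)) := by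
      rw [mul_sum]; exact sum_congr rfl (fun l _ => hnY l _)
    rw [h6] at h5
    have h7 := (abs_le.1 h1).1
    have hcard : (0 : ℝ) < Fintype.card (S → Bool) := by exact_mod_cast Fintype.card_pos
    have h8 : (Fintype.card (S → Bool) : ℝ) * ((∑ b ∈ univ.erase a,
        (((range d).filter (fun l => p b l = p a l)).card : ℝ)) *
        (2 * (s * G / (2 * d)) ^ 2 * T.n (η a))) ≤ (Fintype.card (S → Bool) : ℝ) *
          ((s * G) ^ 2 * T.n (η a)) := by gcongr
    have h9 : (Fintype.card (S → Bool) : ℝ) * (s / 2 * (T.τ (star (γ a) * η a)).re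
        - (3 * (s * G) ^ 2 + 4 * t * (s * G) / d * ∑ l ∈ range d, T.n (x l (p a l))) * T.n (η a))
        ≤ (Fintype.card (S → Bool) : ℝ) * ((1 / 2) * ((T.τ (ζ a • (pr (fun l => cay (Y l (p a l)
          + mv d (fun l => Y l (p a l)) (β a) l)) d * η a))).re
        - (T.τ (ζ a • (pr (fun l => cay (Y l (p a l)
          - mv d (fun l => Y l (p a l)) (β a) l)) d * η a))).re) - (s * G) ^ 2 * T.n (η a)) := by
      refine mul_le_mul_of_nonneg_left ?_ hcard.le
      have : 4 * (s * G) / d * (t * ∑ l ∈ range d, T.n (x l (p a l)))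
          = 4 * t * (s * G) / d * ∑ l ∈ range d, T.n (x l (p a l)) := by ring
      rw [this] at h5
      linarith
    rw [mul_sub] at h9
    rw [← sub_eq_add_neg] at h7
    linarith
  -- the cost
  set z : (S → Bool) → ℕ → W → A := fun ε l w => ((t⁻¹ : ℝ) : ℂ) • pert p Y h (off ∅ ε) l w with hz
  have hztz : ∀ ε l w, (t : ℂ) • z ε l w = pert p Y h (off ∅ ε) l w := by
    intro ε l w
    rw [hz]; simp only
    rw [smul_smul]
    have : (t : ℂ) * ((t⁻¹ : ℝ) : ℂ) = 1 := by
      rw [← Complex.ofReal_mul, mul_inv_cancel₀ ht.ne']; simp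
    rw [this, one_smul]
  have hzx : ∀ ε l w, z ε l w - x l w
      = ((t⁻¹ : ℝ) : ℂ) • ∑ b ∈ univ.filter (fun b => p b l = w), ((sgn (ε b) : ℝ) : ℂ) • h b l := by
    intro ε l w
    rw [hz]; simp only
    unfold pert
    rw [smul_add, hYdef]; simp only
    rw [smul_smul]
    have : ((t⁻¹ : ℝ) : ℂ) * (t : ℂ) = 1 := by
      rw [← Complex.ofReal_mul, inv_mul_cancel₀ ht.ne']; simp
    rw [this, one_smul, add_sub_cancel_left]
    simp [off]
  have hcost : ∑ ε : S → Bool, ∑ l ∈ range d, ∑ w, T.N (z ε l w - x l w)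
      ≤ (Fintype.card (S → Bool) : ℝ) * ((Fintype.card S : ℝ) * (s * G) ^ 2 / (4 * t ^ 2 * d)) := by
    have h1 : ∀ l w, ∑ ε : S → Bool, T.N (z ε l w - x l w)
        = t⁻¹ ^ 2 * ((Fintype.card (S → Bool) : ℝ) *
          ∑ b ∈ univ.filter (fun b => p b l = w), T.N (h b l)) := by
      intro l w
      rw [← sum_N_signs T (univ.filter (fun b => p b l = w)) (fun b => h b l), mul_sum]
      refine sum_congr rfl (fun ε _ => ?_)
      rw [hzx, T.N_smul, Complex.norm_real, Real.norm_eq_abs, sq_abs]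
    rw [sum_comm]
    have h2 : ∀ l ∈ range d, ∑ ε : S → Bool, ∑ w, T.N (z ε l w - x l w)
        ≤ t⁻¹ ^ 2 * ((Fintype.card (S → Bool) : ℝ) *
          ((Fintype.card S : ℝ) * (s * G / (2 * d)) ^ 2)) := by
      intro l _
      rw [sum_comm, sum_congr rfl (fun w _ => h1 l w), ← mul_sum, ← mul_sum]
      gcongr
      have h3 : ∑ w, ∑ b ∈ univ.filter (fun b => p b l = w), T.N (h b l) = ∑ b, T.N (h b l) := by
        exact sum_fiberwise univ (fun b => p b l) (fun b => T.N (h b l))
      rw [h3]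
      have h4 : ∀ b ∈ (univ : Finset S), T.N (h b l) ≤ (s * G / (2 * d)) ^ 2 := by
        intro b _
        rw [← T.n_sq]
        have := T.n_le_norm (h b l)
        have h5 := hhn b l
        have h6 := T.n_nonneg (h b l)
        have h7 : T.n (h b l) ≤ s * G / (2 * d) := this.trans h5
        gcongr
      refine (sum_le_sum h4).trans ?_
      rw [sum_const, card_univ, nsmul_eq_mul]
    refine (sum_le_sum h2).trans ?_
    rw [sum_const, card_range, nsmul_eq_mul]
    apply le_of_eq
    field_simp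
    ring
  -- choose the signs
  set obj : (S → Bool) → ℝ := fun ε => ∑ a, F a (off ∅ ε)
    - Λ * ∑ l ∈ range d, ∑ w, T.N (z ε l w - x l w) with hobj
  set m : ℝ := s / 2 * ∑ a, (T.τ (star (γ a) * η a)).re
        - ∑ a, (3 * (s * G) ^ 2 + 4 * t * (s * G) / d * ∑ l ∈ range d, T.n (x l (p a l))) * T.n (η a)
        - Λ * ((Fintype.card S : ℝ) * (s * G) ^ 2 / (4 * t ^ 2 * d)) with hm
  have htot : ∑ ε : S → Bool, m ≤ ∑ ε : S → Bool, obj ε := by
    rw [sum_const, card_univ, nsmul_eq_mul]
    simp only [hobj]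
    rw [sum_sub_distrib, sum_comm, ← mul_sum]
    have h1 := sum_le_sum (fun a (_ : a ∈ (univ : Finset S)) => havg a)
    rw [← mul_sum, sum_sub_distrib, ← mul_sum] at h1
    have h2 : Λ * ∑ ε : S → Bool, ∑ l ∈ range d, ∑ w, T.N (z ε l w - x l w)
        ≤ Λ * ((Fintype.card (S → Bool) : ℝ) *
          ((Fintype.card S : ℝ) * (s * G) ^ 2 / (4 * t ^ 2 * d))) := by gcongr
    rw [hm, mul_sub]
    linarith
  obtain ⟨ε, _, hε⟩ := exists_le_of_sum_le (s := (univ : Finset (S → Bool))) univ_nonempty htot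
  refine ⟨z ε, fun a => ((sgn (ε a) : ℝ) : ℂ) * ζ a, ?_, ?_, ?_, ?_⟩
  · intro l w
    have := isSelfAdjoint_pert hY hhs (off ∅ ε) l w (p := p)
    rw [hz]; simp only
    rw [IsSelfAdjoint, star_smul, Complex.star_def, Complex.conj_ofReal, this.star_eq]
  · intro a
    rw [norm_mul, hζ, mul_one, Complex.norm_real, Real.norm_eq_abs]
    rcases sgn_eq (ε a) with hs | hs <;> rw [hs] <;> simp
  · intro f hf1 hf2 l w
    rw [hz]; simp only
    refine Commute.smul_right ?_ (((t⁻¹ : ℝ) : ℂ))
    unfold pert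
    refine Commute.add_right (Commute.smul_right (hf1 l w) (t : ℂ)) ?_
    refine Commute.sum_right _ _ _ (fun b _ => Commute.smul_right ?_ _)
    have hfY : ∀ l w, Commute f (Y l w) := fun l w => Commute.smul_right (hf1 l w) (t : ℂ)
    have hfβ : Commute f (β b) := hβc b f (fun l _ => hfY l _) (hf2 b).1 (hf2 b).2
    have hfp : Commute f (pr (fun j => cay (Y j (p b j))) (l + 1)) :=
      commute_pr (fun l _ => commute_cay (hY _ _) (hfY _ _))
    have hu := pr_unitary (fun l => star_cay_mul_cay (hY l (p b l)))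
      (fun l => cay_mul_star_cay (hY l (p b l))) (l + 1)
    have hfps : Commute f (star (pr (fun j => cay (Y j (p b j))) (l + 1))) := by
      set V := pr (fun j => cay (Y j (p b j))) (l + 1)
      calc f * star V = star V * V * f * star V := by rw [hu.1, one_mul]
        _ = star V * (V * f) * star V := by noncomm_ring
        _ = star V * (f * V) * star V := by rw [hfp.eq]
        _ = star V * f * (V * star V) := by noncomm_ring
        _ = star V * f := by rw [hu.2, mul_one]
    rw [hh]; simp only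
    unfold mv
    exact (hfps.mul_right (Commute.smul_right hfβ _)).mul_right hfp
  · have e1 : ∑ a, (T.τ ((((sgn (ε a) : ℝ) : ℂ) * ζ a) •
        (pr (fun l => cay ((t : ℂ) • z ε l (p a l))) d * η a))).re = ∑ a, F a (off ∅ ε) := by
      refine sum_congr rfl (fun a _ => ?_)
      simp only [hF]
      have : pr (fun l => cay ((t : ℂ) • z ε l (p a l))) d
          = pr (fun l => cay (pert p Y h (off ∅ ε) l (p a l))) d :=
        pr_congr (fun l _ => by rw [hztz])
      rw [this]
      simp [off]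
    rw [e1]
    exact hε

end Step

end Crest.Agent.R95.CB
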