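import Crest.Agent.R95.CoreOwn
import Crest.Agent.R95.CoreLines

/-!
# R95 CoreSum (helper795): coordinates, sums over constraints.
-/

set_option autoImplicit false
set_option linter.unusedSectionVars false

namespace Crest.Agent.R95.Cor

open Complex

variable {A : Type*} [CStarAlgebra A] (T : TracialState A)
variable {ι κ : Type} [Fintype ι] [DecidableEq ι] [Fintype κ] [DecidableEq κ] (F : PauliSys A ι)
  {d k : ℕ} (L : Lines ι κ d k)

/-- coordinate collecting -/
noncomputable def coll (n : κ → ℕ → A) (i : ι) : A :=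
  ∑ a, ∑ l ∈ Finset.range d, if L.p l a = i then n a l else 0

theorem sum_coord (n : κ → ℕ → A) :
    ∑ a : κ, ∑ l ∈ Finset.range d, F.f (L.p l a) * n a l = ∑ i, F.f i * coll L n i := by
  symm
  unfold coll
  simp_rw [Finset.mul_sum, mul_ite, mul_zero]
  rw [Finset.sum_comm]
  refine Finset.sum_congr rfl (fun a _ => ?_)
  rw [Finset.sum_comm]
  refine Finset.sum_congr rfl (fun l _ => ?_)
  rw [Finset.sum_ite_eq]
  simp

/-- the constraints `b ≠ a` using the same variable as `a` at level `l` -/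
def Bset (a : κ) (l : ℕ) : Finset κ := Finset.univ.filter (fun b => b ≠ a ∧ L.p l b = L.p l a)

theorem mem_Bset {a b : κ} {l : ℕ} : b ∈ Bset L a l ↔ b ≠ a ∧ L.p l b = L.p l a := by
  simp [Bset]

theorem Bset_card_le (a : κ) (l : ℕ) (hl : l < d) : (Bset L a l).card ≤ k :=
  L.deg l hl (L.p l a) _ (fun _ hb => ((mem_Bset L).mp hb).2)

theorem Bset_disjoint (a : κ) : ∀ l < d, ∀ j < d, l ≠ j → Disjoint (Bset L a l) (Bset L a j) := by
  intro l hl j hj hlj
  rw [Finset.disjoint_left]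
  intro b hb hb'
  have h1 := (mem_Bset L).mp hb
  have h2 := (mem_Bset L).mp hb'
  exact hlj (L.meet b a h1.1 l hl j hj h1.2 h2.2)

theorem coll_eq (n : κ → ℕ → A) (a : κ) (l : ℕ) (hl : l < d) :
    coll L n (L.p l a) = n a l + ∑ b ∈ Bset L a l, n b l := by
  unfold coll
  have h1 : ∀ b, (∑ l' ∈ Finset.range d, if L.p l' b = L.p l a then n b l' else 0) =
      if L.p l b = L.p l a then n b l else 0 := by
    intro b
    rw [Finset.sum_eq_single_of_mem l (Finset.mem_range.mpr hl)]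
    intro l' hl' hne
    rw [if_neg]
    intro h
    exact hne (L.level l' (Finset.mem_range.mp hl') l hl b a h)
  simp_rw [h1]
  rw [← Finset.add_sum_erase Finset.univ _ (Finset.mem_univ a), if_pos rfl]
  congr 1
  rw [← Finset.sum_filter]
  refine Finset.sum_congr ?_ (fun _ _ => rfl)
  ext b
  simp [Bset]

theorem coll_inQ (n : κ → ℕ → A) (hn : ∀ a l, F.InQ (n a l)) (i : ι) : F.InQ (coll L n i) := by
  unfold coll
  refine PauliSys.InQ.sum F _ _ (fun a _ => PauliSys.InQ.sum F _ _ (fun l _ => ?_))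
  split_ifs
  · exact hn a l
  · intro i; simp

/-- rescaled coordinate -/
noncomputable def xh (X : A) (i : ι) : A := ((Real.sqrt (Fintype.card ι) : ℝ) : ℂ) • F.E (F.f i * X)

theorem xh_sa {X : A} (hX : IsSelfAdjoint X) (i : ι) : IsSelfAdjoint (xh F X i) :=
  isSelfAdjoint_real_smul (F.E_sa hX i) _

theorem xh_inQ (X : A) (i : ι) : F.InQ (xh F X i) := PauliSys.InQ.smul F _ (F.E_inQ _)

/-- modification of `X` -/
noncomputable def modi (X : A) (n : κ → ℕ → A) : A :=
  X + (((Real.sqrt (Fintype.card ι))⁻¹ : ℝ) : ℂ) •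
    ∑ a : κ, ∑ l ∈ Finset.range d, F.f (L.p l a) * n a l

include F in
theorem card_pos : 0 < Fintype.card ι := Fintype.card_pos_iff.mpr ⟨F.o⟩

include F in
theorem sqrt_card_pos : 0 < Real.sqrt (Fintype.card ι) :=
  Real.sqrt_pos.mpr (by exact_mod_cast card_pos F)

theorem xh_modi (X : A) (n : κ → ℕ → A) (hn : ∀ a l, F.InQ (n a l)) (i : ι) :
    xh F (modi F L X n) i = xh F X i + coll L n i := by
  unfold xh modi
  rw [mul_add, F.E_add, smul_add, mul_smul_comm, F.E_smul, smul_smul, sum_coord,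
    F.coord _ (coll_inQ F L n hn)]
  congr 1
  have := (sqrt_card_pos F).ne'
  rw [← Complex.ofReal_mul, mul_inv_cancel₀ this, Complex.ofReal_one, one_smul]

/-- each `f i * n` is selfadjoint if `n ∈ Q` is -/
theorem f_mul_sa {n : A} (hn : F.InQ n) (hsa : IsSelfAdjoint n) (i : ι) :
    IsSelfAdjoint (F.f i * n) := by
  rw [IsSelfAdjoint, star_mul, hsa.star_eq, (F.sa i).star_eq, hn i]

theorem modi_sa {X : A} (hX : IsSelfAdjoint X) (n : κ → ℕ → A) (hn : ∀ a l, F.InQ (n a l))
    (hsa : ∀ a l, IsSelfAdjoint (n a l)) : IsSelfAdjoint (modi F L X n) := by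
  unfold modi
  refine hX.add (isSelfAdjoint_real_smul ?_ _)
  exact isSelfAdjoint_sum _ (fun a _ => isSelfAdjoint_sum _ (fun l _ =>
    f_mul_sa F (hn a l) (hsa a l) _))

/-- orthogonality within one constraint -/
theorem nrm2_sum_level (a : κ) (n : ℕ → A) (hn : ∀ l, F.InQ (n l)) :
    T.nrm2 (∑ l ∈ Finset.range d, F.f (L.p l a) * n l) ^ 2 =
      ∑ l ∈ Finset.range d, T.nrm2 (n l) ^ 2 := by
  have e : ∑ l ∈ Finset.range d, F.f (L.p l a) * n l =
      ∑ i, F.f i * ∑ l ∈ Finset.range d, if L.p l a = i then n l else 0 := by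
    simp_rw [Finset.mul_sum, mul_ite, mul_zero]
    rw [Finset.sum_comm]
    refine Finset.sum_congr rfl (fun l _ => ?_)
    rw [Finset.sum_ite_eq]
    simp
  rw [e, F.nrm2_sum_sq T]
  · have h1 : ∀ i, T.nrm2 (∑ l ∈ Finset.range d, if L.p l a = i then n l else 0) ^ 2 =
        ∑ l ∈ Finset.range d, if L.p l a = i then T.nrm2 (n l) ^ 2 else 0 := by
      intro i
      by_cases h : ∃ l ∈ Finset.range d, L.p l a = i
      · obtain ⟨l, hl, hli⟩ := h
        have hz : ∀ l' ∈ Finset.range d, l' ≠ l → L.p l' a ≠ i := by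
          intro l' hl' hne h
          exact hne (L.level l' (Finset.mem_range.mp hl') l (Finset.mem_range.mp hl) a a
            (h.trans hli.symm))
        rw [Finset.sum_eq_single_of_mem l hl (fun l' hl' hne => if_neg (hz l' hl' hne)),
          Finset.sum_eq_single_of_mem l hl (fun l' hl' hne => if_neg (hz l' hl' hne)),
          if_pos hli, if_pos hli]
      · push Not at h
        rw [Finset.sum_eq_zero (fun l hl => if_neg (h l hl)),
          Finset.sum_eq_zero (fun l hl => if_neg (h l hl)), T.nrm2_zero]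
        simp
    simp_rw [h1]
    rw [Finset.sum_comm]
    refine Finset.sum_congr rfl (fun l _ => ?_)
    rw [Finset.sum_ite_eq]
    simp
  · intro i
    refine PauliSys.InQ.sum F _ _ (fun l _ => ?_)
    split_ifs
    · exact hn l
    · intro i; simp

/-- (F3) the distance moved, averaged over the phases -/
theorem avg_dist (X : A) (n : κ → ℕ → ZMod 4 → A) (hn : ∀ a l x, F.InQ (n a l x))
    (h0 : ∀ a l, ∑ x, n a l x = 0) (C : ℝ) (hC00 : 0 ≤ C) (hC : ∀ a l x, T.nrm2 (n a l x) ^ 2 ≤ C)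
    (hκ : Fintype.card κ ≤ Fintype.card ι) :
    avg (fun ω : κ → ZMod 4 =>
      T.nrm2 (modi F L X (fun a l => n a l (ω a)) - X) ^ 2) ≤ d * C := by
  have e1 : ∀ ω : κ → ZMod 4, T.nrm2 (modi F L X (fun a l => n a l (ω a)) - X) ^ 2 =
      (Fintype.card ι : ℝ)⁻¹ *
        T.nrm2 (∑ a, (fun b x => ∑ l ∈ Finset.range d, F.f (L.p l b) * n b l x) a (ω a)) ^ 2 := by
    intro ω
    unfold modi
    rw [add_sub_cancel_left, T.nrm2_smul, mul_pow, Complex.norm_real,
      Real.norm_of_nonneg (by positivity), inv_pow, Real.sq_sqrt (by positivity)]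
  have h1 := avg_nrm2_sum_sq T (fun (b : κ) (x : ZMod 4) =>
    ∑ l ∈ Finset.range d, F.f (L.p l b) * n b l x) (by
      intro b
      rw [Finset.sum_comm]
      refine Finset.sum_eq_zero (fun l _ => ?_)
      rw [← Finset.mul_sum, h0, mul_zero])
  have e2 : avg (fun ω : κ → ZMod 4 =>
      T.nrm2 (modi F L X (fun a l => n a l (ω a)) - X) ^ 2) =
      (Fintype.card ι : ℝ)⁻¹ * avg (fun ω : κ → ZMod 4 => T.nrm2
        (∑ a, (fun b x => ∑ l ∈ Finset.range d, F.f (L.p l b) * n b l x) a (ω a)) ^ 2) := by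
    unfold avg
    simp_rw [e1]
    rw [← Finset.mul_sum]
    ring
  rw [e2, h1]
  have h2 : ∀ b x, T.nrm2 (∑ l ∈ Finset.range d, F.f (L.p l b) * n b l x) ^ 2 ≤ d * C := by
    intro b x
    rw [nrm2_sum_level T F L b _ (fun l => hn b l x)]
    calc ∑ l ∈ Finset.range d, T.nrm2 (n b l x) ^ 2 ≤ ∑ l ∈ Finset.range d, C :=
          Finset.sum_le_sum (fun l _ => hC b l x)
      _ = d * C := by simp
  have hN : (0 : ℝ) < Fintype.card ι := by exact_mod_cast card_pos F
  have hC0 : 0 ≤ d * C := by positivity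
  calc (Fintype.card ι : ℝ)⁻¹ * ∑ b, (1 / 4) * ∑ x,
        T.nrm2 (∑ l ∈ Finset.range d, F.f (L.p l b) * n b l x) ^ 2
      ≤ (Fintype.card ι : ℝ)⁻¹ * ∑ b : κ, (1 / 4) * ∑ x : ZMod 4, d * C := by
        refine mul_le_mul_of_nonneg_left (Finset.sum_le_sum (fun b _ =>
          mul_le_mul_of_nonneg_left (Finset.sum_le_sum (fun x _ => h2 b x)) (by norm_num)))
          (by positivity)
    _ = (Fintype.card ι : ℝ)⁻¹ * Fintype.card κ * (d * C) := by
        rw [Finset.sum_const, Finset.sum_const, Finset.card_univ, Finset.card_univ, ZMod.card]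
        simp only [nsmul_eq_mul]
        push_cast
        ring
    _ ≤ 1 * (d * C) := by
        refine mul_le_mul_of_nonneg_right ?_ hC0
        rw [inv_mul_le_iff₀ hN, mul_one]
        exact_mod_cast hκ
    _ = d * C := one_mul _

/-! ### the output element `Y` -/

/-- the mixed coordinate `η_a` of `y0` -/
noncomputable def eta (y0 : A) (ζ : ι → Bool) (a : κ) : A :=
  ∑ i, (sg (ζ i) : ℂ) • ((F.c i (L.ai a) : ℂ) • F.E (F.f i * y0))

/-- the output `Y` -/
noncomputable def outY (ζ : ι → Bool) (D : κ → A) : A :=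
  (((Fintype.card ι : ℝ)⁻¹ : ℝ) : ℂ) •
    ∑ a : κ, ∑ i, ((F.c i (L.ai a) * sg (ζ i) : ℝ) : ℂ) • (F.f i * D a)

theorem sg_sq (b : Bool) : sg b * sg b = 1 := by
  cases b <;> simp [sg]

theorem outY_eq (ζ : ι → Bool) (D : κ → A) :
    outY F L ζ D = ∑ i, F.f i * ((((Fintype.card ι : ℝ)⁻¹ * sg (ζ i) : ℝ) : ℂ) •
      ∑ a : κ, (F.c i (L.ai a) : ℂ) • D a) := by
  unfold outY
  rw [Finset.sum_comm, Finset.smul_sum]
  refine Finset.sum_congr rfl (fun i _ => ?_)
  rw [Finset.smul_sum, Finset.smul_sum, Finset.mul_sum]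
  refine Finset.sum_congr rfl (fun a _ => ?_)
  rw [smul_smul, smul_smul, mul_smul_comm]
  congr 1
  push_cast
  ring

theorem nrm2_outY_sq (ζ : ι → Bool) (D : κ → A) (hD : ∀ a, F.InQ (D a)) :
    T.nrm2 (outY F L ζ D) ^ 2 = (Fintype.card ι : ℝ)⁻¹ * ∑ a, T.nrm2 (D a) ^ 2 := by
  rw [outY_eq, F.nrm2_sum_sq T]
  · have hN : (Fintype.card ι : ℝ) ≠ 0 := by exact_mod_cast (card_pos F).ne'
    have h1 : ∀ i, T.nrm2 ((((Fintype.card ι : ℝ)⁻¹ * sg (ζ i) : ℝ) : ℂ) •
        ∑ a : κ, (F.c i (L.ai a) : ℂ) • D a) ^ 2 =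
        ((Fintype.card ι : ℝ)⁻¹ ^ 2) * ∑ a : κ, ∑ b : κ, F.c i (L.ai a) * F.c i (L.ai b) *
          (T.τ (star (D a) * D b)).re := by
      intro i
      rw [T.nrm2_smul, mul_pow, Complex.norm_real, Real.norm_eq_abs, sq_abs, mul_pow,
        T.nrm2_sq]
      have h2 : sg (ζ i) ^ 2 = 1 := by rw [sq, sg_sq]
      rw [h2, mul_one]
      congr 1
      rw [star_sum, Finset.sum_mul_sum, map_sum, Complex.re_sum]
      refine Finset.sum_congr rfl (fun a _ => ?_)
      rw [map_sum, Complex.re_sum]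
      refine Finset.sum_congr rfl (fun b _ => ?_)
      rw [star_smul, smul_mul_smul_comm, map_smul, smul_eq_mul, RCLike.star_def,
        Complex.conj_ofReal, ← Complex.ofReal_mul, Complex.re_ofReal_mul]
    simp_rw [h1]
    rw [← Finset.mul_sum]
    have h3 : ∑ i, ∑ a : κ, ∑ b : κ, F.c i (L.ai a) * F.c i (L.ai b) *
          (T.τ (star (D a) * D b)).re = Fintype.card ι * ∑ a : κ, T.nrm2 (D a) ^ 2 := by
      rw [Finset.sum_comm, Finset.mul_sum]
      refine Finset.sum_congr rfl (fun a _ => ?_)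
      rw [Finset.sum_comm]
      have h4 : ∀ b : κ, ∑ i, F.c i (L.ai a) * F.c i (L.ai b) * (T.τ (star (D a) * D b)).re =
          if a = b then (Fintype.card ι : ℝ) * T.nrm2 (D b) ^ 2 else 0 := by
        intro b
        rw [← Finset.sum_mul, F.ortho]
        by_cases hab : a = b
        · subst hab
          rw [if_pos rfl, if_pos rfl, T.nrm2_sq]
        · rw [if_neg (fun h => hab (L.ai_inj h)), if_neg hab, zero_mul]
      simp_rw [h4]
      simp
    rw [h3]
    field_simp
  · intro i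
    exact PauliSys.InQ.smul F _ (PauliSys.InQ.sum F _ _ (fun a _ => PauliSys.InQ.smul F _ (hD a)))

theorem tau_outY (ζ : ι → Bool) (D : κ → A) (hD : ∀ a, F.InQ (D a)) {y0 : A}
    (hy : IsSelfAdjoint y0) :
    (T.τ (outY F L ζ D * y0)).re =
      (Fintype.card ι : ℝ)⁻¹ * ∑ a, (T.τ (D a * eta F L y0 ζ a)).re := by
  unfold outY eta
  rw [smul_mul_assoc, map_smul, smul_eq_mul, Complex.re_ofReal_mul, Finset.sum_mul, map_sum,
    Complex.re_sum]
  congr 1
  refine Finset.sum_congr rfl (fun a _ => ?_)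
  rw [Finset.sum_mul, map_sum, Finset.mul_sum, map_sum]
  congr 1
  refine Finset.sum_congr rfl (fun i _ => ?_)
  rw [smul_mul_assoc, map_smul, mul_smul_comm, mul_smul_comm, smul_smul, map_smul, mul_assoc,
    T.tr, mul_assoc, F.tau_E T _ _ (hD a), F.E_comm hy]
  congr 1
  push_cast
  ring

end Crest.Agent.R95.Cor
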