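import Mathlib
import Crest.Prelude.Def_VNFactor

/-! Basic tools for concrete von Neumann algebras: membership via the commutant, range
projections, spectral cut-off producing partial isometries. -/

set_option autoImplicit false

namespace Crest.Agent.R95

open scoped InnerProductSpace
open Filter Topology

variable {H : Type*} [NormedAddCommGroup H] [InnerProductSpace ℂ H] [CompleteSpace H]

/-- The von Neumann algebra of all operators commuting with `s` and `star s`. -/
noncomputable def commSet (s : Set (H →L[ℂ] H)) : VonNeumannAlgebra H where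
  toStarSubalgebra := StarSubalgebra.centralizer ℂ s
  centralizer_centralizer' := by
    simp

theorem mem_commSet {s : Set (H →L[ℂ] H)} {x : H →L[ℂ] H} :
    x ∈ commSet s ↔ ∀ y ∈ s, y * x = x * y ∧ star y * x = x * star y := by
  rw [commSet, ← SetLike.mem_coe]
  exact StarSubalgebra.mem_centralizer_iff ℂ

theorem mem_of_comm {M : VonNeumannAlgebra H} {x : H →L[ℂ] H}
    (h : ∀ y ∈ M.commutant, y * x = x * y) : x ∈ M := by
  rw [← VonNeumannAlgebra.commutant_commutant M, VonNeumannAlgebra.mem_commutant_iff]
  exact h

theorem comm_of_mem {M : VonNeumannAlgebra H} {x y : H →L[ℂ] H}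
    (hx : x ∈ M) (hy : y ∈ M.commutant) : x * y = y * x := by
  rw [VonNeumannAlgebra.mem_commutant_iff] at hy
  exact hy x hx

theorem smul_mem' {M : VonNeumannAlgebra H} {x : H →L[ℂ] H} (c : ℂ) (hx : x ∈ M) :
    c • x ∈ M := by
  apply mem_of_comm
  intro y hy
  rw [smul_mul_assoc, mul_smul_comm, comm_of_mem hx hy]

theorem cfc_mem {M : VonNeumannAlgebra H} {a : H →L[ℂ] H} (ha : a ∈ M)
    (f : ℝ → ℝ) : cfc f a ∈ M := by
  apply mem_of_comm
  intro y hy
  have : Commute a y := comm_of_mem ha hy
  exact (this.cfc_real f).eq.symm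

/-- The range projection of an operator. -/
noncomputable def rproj (c : H →L[ℂ] H) : H →L[ℂ] H :=
  (c.range.topologicalClosure).starProjection

theorem rproj_isStarProjection (c : H →L[ℂ] H) : IsStarProjection (rproj c) :=
  isStarProjection_starProjection


theorem rproj_star (c : H →L[ℂ] H) : star (rproj c) = rproj c :=
  (rproj_isStarProjection c).isSelfAdjoint

theorem rproj_idem (c : H →L[ℂ] H) : rproj c * rproj c = rproj c :=
  (rproj_isStarProjection c).isIdempotentElem

theorem rproj_mul (c : H →L[ℂ] H) : rproj c * c = c := by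
  ext v
  change rproj c (c v) = c v
  rw [rproj, Submodule.starProjection_eq_self_iff]
  exact Submodule.le_topologicalClosure _ ⟨v, rfl⟩

theorem rproj_ext {c x y : H →L[ℂ] H} (h : x * c = y * c) :
    x * rproj c = y * rproj c := by
  ext v
  change x (rproj c v) = y (rproj c v)
  have hcl : IsClosed {w : H | x w = y w} := isClosed_eq x.continuous y.continuous
  have hsub : (c.range.topologicalClosure : Set H) ⊆ {w : H | x w = y w} := by
    rw [Submodule.topologicalClosure_coe]
    apply closure_minimal _ hcl
    rintro _ ⟨u, rfl⟩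
    exact congrArg (fun T : H →L[ℂ] H => T u) h
  exact hsub (Submodule.starProjection_apply_mem _ v)

theorem rproj_zero_of {c x : H →L[ℂ] H} (h : x * c = 0) : x * rproj c = 0 := by
  have := rproj_ext (c := c) (x := x) (y := 0) (by simpa using h)
  simpa using this

theorem rproj_comm {c h : H →L[ℂ] H} (h1 : h * c = c * h) (h2 : star h * c = c * star h) :
    h * rproj c = rproj c * h := by
  have e1 : rproj c * h * rproj c = h * rproj c := by
    apply rproj_ext
    rw [mul_assoc, h1, ← mul_assoc, rproj_mul]
  have e2 : rproj c * star h * rproj c = star h * rproj c := by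
    apply rproj_ext
    rw [mul_assoc, h2, ← mul_assoc, rproj_mul]
  have e3 := congrArg star e2
  simp only [star_mul, rproj_star, star_star, ← mul_assoc] at e3
  rw [← e1, e3]

theorem rproj_mem {M : VonNeumannAlgebra H} {c : H →L[ℂ] H} (hc : c ∈ M) : rproj c ∈ M := by
  apply mem_of_comm
  intro y hy
  apply rproj_comm
  · exact (comm_of_mem hc hy).symm
  · exact (comm_of_mem hc (star_mem hy)).symm

theorem rproj_ne_zero {c : H →L[ℂ] H} (hc : c ≠ 0) : rproj c ≠ 0 := by
  intro h
  apply hc
  rw [← rproj_mul c, h, zero_mul]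

theorem exists_cutoff {M : VonNeumannAlgebra H} {a : H →L[ℂ] H} (ha : a ∈ M) (h0 : a ≠ 0) :
    ∃ w ∈ M, w ≠ 0 ∧ IsStarProjection (star w * w) ∧ (∀ r, r * a = a → r * w = w) ∧
      (∀ s, a * s = a → w * s = w) := by
  set h2 : H →L[ℂ] H := star a * a with hh2
  have hsa : IsSelfAdjoint h2 := IsSelfAdjoint.star_mul_self a
  have hpos : 0 ≤ h2 := star_mul_self_nonneg a
  have h2M : h2 ∈ M := mul_mem (star_mem ha) ha
  have hn0 : 0 < ‖h2‖ := by
    rw [hh2, CStarRing.norm_star_mul_self]
    have : 0 < ‖a‖ := norm_pos_iff.mpr h0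
    positivity
  set δ : ℝ := ‖h2‖ / 2 with hδ
  have hδ0 : 0 < δ := by positivity
  have hspec : ∀ t ∈ spectrum ℝ h2, 0 ≤ t := fun t ht => spectrum_nonneg_of_nonneg hpos ht
  set c : H →L[ℂ] H := cfc (fun t : ℝ => max (t - δ) 0) h2 with hc
  set f1 : H →L[ℂ] H := cfc (fun t : ℝ => max (t - δ) 0 / max t δ) h2 with hf1
  set g : H →L[ℂ] H := cfc (fun t : ℝ => 1 / Real.sqrt (max t δ)) h2 with hg
  have hmaxpos : ∀ t : ℝ, 0 < max t δ := fun t => lt_of_lt_of_le hδ0 (le_max_right _ _)
  have hcont1 : Continuous (fun t : ℝ => max (t - δ) 0) := by fun_prop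
  have hcont2 : Continuous (fun t : ℝ => max (t - δ) 0 / max t δ) := by
    apply Continuous.div (by fun_prop) (by fun_prop)
    intro t; exact (hmaxpos t).ne'
  have hcont3 : Continuous (fun t : ℝ => 1 / Real.sqrt (max t δ)) := by
    apply Continuous.div (by fun_prop) (by fun_prop)
    intro t; exact (Real.sqrt_pos.mpr (hmaxpos t)).ne'
  have hcM : c ∈ M := cfc_mem h2M _
  have hgM : g ∈ M := cfc_mem h2M _
  have hcid : Continuous (fun t : ℝ => t) := continuous_id
  have hid : cfc (fun t : ℝ => t) h2 = h2 := cfc_id' ℝ h2 hsa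
  -- c = f1 * h2
  have hcf : c = f1 * h2 := by
    rw [hc, hf1]
    nth_rewrite 3 [← hid]
    rw [← cfc_mul _ _ h2 hcont2.continuousOn hcid.continuousOn]
    apply cfc_congr
    intro t ht
    have h0t := hspec t ht
    simp only
    rcases le_total t δ with h | h
    · rw [max_eq_right (by linarith : t - δ ≤ 0)]; simp
    · rw [max_eq_left h]
      have : t ≠ 0 := by intro h'; linarith
      field_simp
  -- c ≠ 0
  have hcne : c ≠ 0 := by
    intro hc0
    have hle : ‖h2 - c‖ ≤ δ := by
      have : h2 - c = cfc (fun t : ℝ => t - max (t - δ) 0) h2 := by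
        rw [cfc_sub (R := ℝ) (fun t : ℝ => t) (fun t : ℝ => max (t - δ) 0) h2
          hcid.continuousOn hcont1.continuousOn, hid]
      rw [this]
      apply norm_cfc_le hδ0.le
      intro t ht
      have h0t := hspec t ht
      rcases le_total t δ with h | h
      · rw [max_eq_right (by linarith : t - δ ≤ 0), Real.norm_eq_abs, abs_of_nonneg (by linarith)]
        linarith
      · rw [max_eq_left (by linarith : 0 ≤ t - δ), Real.norm_eq_abs, abs_of_nonneg (by linarith)]
        linarith
    rw [hc0, sub_zero] at hle
    linarith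
  set e := rproj c with he
  have heM : e ∈ M := rproj_mem hcM
  have hene : e ≠ 0 := rproj_ne_zero hcne
  -- g h2 g e = e
  have hgsa : star g = g := (cfc_predicate (R := ℝ) _ h2 : IsSelfAdjoint g).star_eq
  have hk : g * h2 * g * e = e := by
    have h1 : g * h2 * g * c = 1 * c := by
      rw [hg, hc]
      nth_rewrite 2 [← hid]
      have hc4 : Continuous (fun t : ℝ => 1 / Real.sqrt (max t δ) * t) := hcont3.mul hcid
      have hc5 : Continuous (fun t : ℝ => 1 / Real.sqrt (max t δ) * t *
          (1 / Real.sqrt (max t δ))) := hc4.mul hcont3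
      rw [← cfc_mul _ _ h2 hcont3.continuousOn hcid.continuousOn,
        ← cfc_mul _ _ h2 hc4.continuousOn hcont3.continuousOn,
        ← cfc_mul _ _ h2 hc5.continuousOn hcont1.continuousOn,
        one_mul]
      apply cfc_congr
      intro t ht
      have h0t := hspec t ht
      simp only
      rcases le_total t δ with h | h
      · rw [max_eq_right (by linarith : t - δ ≤ 0)]; simp
      · rw [max_eq_left h]
        have ht0 : 0 < t := by linarith
        have hs : Real.sqrt t * Real.sqrt t = t := Real.mul_self_sqrt ht0.le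
        have hs0 : Real.sqrt t ≠ 0 := (Real.sqrt_pos.mpr ht0).ne'
        have : 1 / Real.sqrt t * t * (1 / Real.sqrt t) = 1 := by
          field_simp
          rw [sq]; exact hs.symm
        rw [this, one_mul]
    have h3 := rproj_ext h1
    rwa [one_mul] at h3
  have hee : e * e = e := rproj_idem c
  have hes : star e = e := rproj_star c
  have hww : star (a * g * e) * (a * g * e) = e := by
    calc star (a * g * e) * (a * g * e) = e * (g * h2 * g * e) := by
          simp only [star_mul, hgsa, hes, hh2, mul_assoc]
      _ = e := by rw [hk, hee]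
  refine ⟨a * g * e, mul_mem (mul_mem ha hgM) heM, ?_, ?_, ?_, ?_⟩
  · intro h
    rw [h] at hww
    simp at hww
    exact hene hww.symm
  · rw [hww]; exact rproj_isStarProjection c
  · intro r hr
    rw [← mul_assoc, ← mul_assoc, hr]
  · intro s hs
    have h1 : c * s = c := by
      rw [hcf, hh2, mul_assoc, mul_assoc, hs]
    have hcs : star c = c := (cfc_predicate (R := ℝ) _ h2 : IsSelfAdjoint c).star_eq
    have h2' : star s * c = 1 * c := by
      have := congrArg star h1
      rw [star_mul, hcs] at this
      rw [this, one_mul]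
    have h3 := rproj_ext h2'
    have h4 := congrArg star h3
    rw [star_mul, star_star, one_mul, rproj_star] at h4
    rw [mul_assoc, h4]

end Crest.Agent.R95
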