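import Crest.Agent.R95.L2
import Crest.Agent.R95.Factor1

/-! Factor lemmas: `p M q ≠ 0`, a minimal projection forces finite dimension, splitting of
projections in an infinite dimensional factor with faithful trace. -/

set_option autoImplicit false

namespace Crest.Agent.R95

open scoped InnerProductSpace
open Filter Topology Crest.OpAlg

variable {H : Type*} [NormedAddCommGroup H] [InnerProductSpace ℂ H] [CompleteSpace H]

theorem starProj_comm {K : Submodule ℂ H} [K.HasOrthogonalProjection] {y : H →L[ℂ] H}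
    (h1 : ∀ v ∈ K, y v ∈ K) (h2 : ∀ v ∈ K, star y v ∈ K) :
    y * K.starProjection = K.starProjection * y := by
  have hs : star K.starProjection = K.starProjection :=
    (isStarProjection_starProjection : IsStarProjection K.starProjection).isSelfAdjoint
  have key : ∀ z : H →L[ℂ] H, (∀ v ∈ K, z v ∈ K) →
      K.starProjection * z * K.starProjection = z * K.starProjection := by
    intro z hz
    ext v
    change K.starProjection (z (K.starProjection v)) = z (K.starProjection v)
    rw [Submodule.starProjection_eq_self_iff]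
    exact hz _ (Submodule.starProjection_apply_mem _ v)
  have e1 := key y h1
  have e3 := congrArg star (key (star y) h2)
  simp only [star_mul, hs, star_star, ← mul_assoc] at e3
  rw [← e1, e3]

theorem factor_exists_ne_zero {M : VonNeumannAlgebra H} (hM : IsFactor M) {p q : H →L[ℂ] H}
    (hp0 : p ≠ 0) (hq : q ∈ M) (hq0 : q ≠ 0) :
    ∃ x ∈ M, p * x * q ≠ 0 := by
  by_contra hcon
  push Not at hcon
  set K0 : Submodule ℂ H := Submodule.span ℂ {w | ∃ x ∈ M, ∃ v, w = x (q v)} with hK0
  set K := K0.topologicalClosure with hK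
  have hmaps : ∀ y : H →L[ℂ] H, (∀ w ∈ {w | ∃ x ∈ M, ∃ v, w = x (q v)}, y w ∈ K0) →
      ∀ v ∈ K, y v ∈ K := by
    intro y hy v hv
    have h1 : K0 ≤ K0.comap (y : H →ₗ[ℂ] H) := by
      rw [hK0, Submodule.span_le]
      intro w hw
      exact hy w hw
    have h2 : Set.MapsTo y (K0 : Set H) (K0 : Set H) := fun w hw => h1 hw
    have h3 := h2.closure y.continuous
    exact h3 hv
  have hzM : K.starProjection ∈ M := by
    apply mem_of_comm
    intro y hy
    have aux : ∀ y ∈ M.commutant, ∀ w ∈ {w | ∃ x ∈ M, ∃ v, w = x (q v)}, y w ∈ K0 := by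
      rintro y hy _ ⟨x, hx, v, rfl⟩
      apply Submodule.subset_span
      refine ⟨x, hx, y v, ?_⟩
      have e1 : y * (x * q) = (x * q) * y := (comm_of_mem (mul_mem hx hq) hy).symm
      exact congrArg (fun T : H →L[ℂ] H => T v) e1
    exact starProj_comm (hmaps y (aux y hy)) (hmaps _ (aux _ (star_mem hy)))
  have hzM' : ∀ y ∈ M, K.starProjection * y = y * K.starProjection := by
    intro y hy
    have aux : ∀ y ∈ M, ∀ w ∈ {w | ∃ x ∈ M, ∃ v, w = x (q v)}, y w ∈ K0 := by
      rintro y hy _ ⟨x, hx, v, rfl⟩
      apply Submodule.subset_span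
      exact ⟨y * x, mul_mem hy hx, v, rfl⟩
    exact (starProj_comm (hmaps y (aux y hy)) (hmaps _ (aux _ (star_mem hy)))).symm
  obtain ⟨c, hc⟩ := hM _ hzM hzM'
  have hzq : K.starProjection * q = q := by
    ext v
    change K.starProjection (q v) = q v
    rw [Submodule.starProjection_eq_self_iff]
    apply Submodule.le_topologicalClosure
    apply Submodule.subset_span
    exact ⟨1, one_mem M, v, rfl⟩
  have hc1 : c = 1 := by
    rw [hc] at hzq
    rw [smul_mul_assoc, one_mul] at hzq
    have : (c - 1) • q = 0 := by rw [sub_smul, hzq, one_smul, sub_self]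
    rcases smul_eq_zero.mp this with h | h
    · exact sub_eq_zero.mp h
    · exact absurd h hq0
  have hz1 : K.starProjection = 1 := by rw [hc, hc1, one_smul]
  apply hp0
  ext v
  have hv : v ∈ K := by
    rw [← Submodule.starProjection_eq_self_iff (K := K), hz1]; rfl
  have hcl : IsClosed {w : H | p w = 0} := isClosed_eq p.continuous continuous_const
  have hsub : (K : Set H) ⊆ {w : H | p w = 0} := by
    rw [hK, Submodule.topologicalClosure_coe]
    apply closure_minimal _ hcl
    intro w hw
    have : K0 ≤ LinearMap.ker (p : H →ₗ[ℂ] H) := by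
      rw [hK0, Submodule.span_le]
      rintro _ ⟨x, hx, v, rfl⟩
      exact congrArg (fun T : H →L[ℂ] H => T v) (hcon x hx)
    exact this hw
  exact hsub hv


theorem star_mul_eq_zero {a : H →L[ℂ] H} (h : star a * a = 0) : a = 0 :=
  (CStarRing.star_mul_self_eq_zero_iff a).mp h

/-- `w q = w` when `w⋆ w = q` is idempotent. -/
theorem mul_eq_self_of_star_mul {w q : H →L[ℂ] H} (h : star w * w = q) (hqq : q * q = q) :
    w * q = w := by
  have hqs : star q = q := by rw [← h]; simp
  have : star (w * q - w) * (w * q - w) = 0 := by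
    rw [star_sub, star_mul, hqs]
    have : (q * star w - star w) * (w * q - w) =
        q * (star w * w) * q - q * (star w * w) - (star w * w) * q + star w * w := by noncomm_ring
    rw [this, h, hqq, hqq]
    noncomm_ring
  exact sub_eq_zero.mp (star_mul_eq_zero this)

theorem N2_sq_add {ξ : ℕ → H} (hξ : SqSum (H := H) ξ) {x y : H →L[ℂ] H} (h : star x * y = 0) :
    N2 ξ (x + y) ^ 2 = N2 ξ x ^ 2 + N2 ξ y ^ 2 := by
  have := N2_sub_sq hξ x (-y)
  rw [sub_neg_eq_add, N2_neg, mul_neg, h, neg_zero, tr_zero] at this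
  rw [this]; simp

/-- A factor with a faithful tracial vector state and a minimal projection is finite dimensional. -/
theorem finiteDimensional_of_minimal {M : VonNeumannAlgebra H} {ξ : ℕ → H}
    (hξ : IsFaithfulTracialVectorState M ξ) (hM : IsFactor M) {q : H →L[ℂ] H} (hq : q ∈ M)
    (hqq : q * q = q) (hqs : star q = q) (hq0 : q ≠ 0)
    (hmin : ∀ x ∈ M, ∃ c : ℂ, q * x * q = c • q) :
    FiniteDimensional ℂ M.toStarSubalgebra := by
  set S : Set ℕ := {n : ℕ | ∃ w : Fin n → (H →L[ℂ] H), (∀ i, w i ∈ M) ∧
    (∀ i, star (w i) * w i = q) ∧ ∀ i j, i ≠ j → star (w i) * w j = 0} with hS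
  have htq : 0 < N2 ξ q ^ 2 := by
    have : N2 ξ q ≠ 0 := fun h => hq0 (eq_zero_of_N2 hξ hq h)
    have := N2_nonneg (ξ := ξ) q
    positivity
  have hproj : ∀ (n : ℕ) (w : Fin n → (H →L[ℂ] H)), (∀ i, w i ∈ M) →
      (∀ i, star (w i) * w i = q) → (∀ i j, i ≠ j → star (w i) * w j = 0) →
      ∀ i, star (w i) * (∑ j, w j * star (w j)) = star (w i) := by
    intro n w hwM hww hwo i
    rw [Finset.mul_sum, Finset.sum_eq_single i]
    · rw [← mul_assoc, hww]
      have h1 : w i * q = w i := mul_eq_self_of_star_mul (hww i) hqq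
      have := congrArg star h1
      rwa [star_mul, hqs] at this
    · intro j _ hj
      rw [← mul_assoc, hwo i j (Ne.symm hj), zero_mul]
    · intro h; exact absurd (Finset.mem_univ i) h
  have hbd : ∀ n ∈ S, (n : ℝ) ≤ 1 / N2 ξ q ^ 2 := by
    rintro n ⟨w, hwM, hww, hwo⟩
    set P := ∑ j, w j * star (w j) with hP
    have hPs : star P = P := by
      rw [hP, star_sum]
      apply Finset.sum_congr rfl
      intro i _
      rw [star_mul, star_star]
    have hPP : P * P = P := by
      conv_lhs => rw [hP, Finset.sum_mul]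
      rw [hP]
      apply Finset.sum_congr rfl
      intro i _
      rw [mul_assoc, hproj n w hwM hww hwo i]
    have hPproj : IsStarProjection P := ⟨hPP, hPs⟩
    have hPn : N2 ξ P ≤ 1 := (N2_le_norm hξ P).trans hPproj.norm_le
    have h1 : tr ξ P = ((N2 ξ P ^ 2 : ℝ) : ℂ) := by
      rw [← tr_star_mul_self (sqSum hξ), hPs, hPP]
    have h2 : tr ξ P = ((n * N2 ξ q ^ 2 : ℝ) : ℂ) := by
      rw [hP, tr_sum (sqSum hξ)]
      have : ∀ i ∈ (Finset.univ : Finset (Fin n)), tr ξ (w i * star (w i)) = ((N2 ξ q ^ 2 : ℝ) : ℂ) := by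
        intro i _
        rw [tr_mul_comm hξ (hwM i) (star_mem (hwM i)), hww, ← tr_star_mul_self (sqSum hξ), hqs, hqq]
      rw [Finset.sum_congr rfl this]
      simp
    have h3 : (n : ℝ) * N2 ξ q ^ 2 = N2 ξ P ^ 2 := by
      rw [h1] at h2; exact_mod_cast h2.symm
    rw [le_div_iff₀ htq, h3]
    have := N2_nonneg (ξ := ξ) P
    nlinarith
  have hbdd : BddAbove S := by
    obtain ⟨N, hN⟩ := exists_nat_gt (1 / N2 ξ q ^ 2)
    refine ⟨N, fun n hn => ?_⟩
    exact_mod_cast ((hbd n hn).trans_lt hN).le
  have hne : S.Nonempty := ⟨0, fun i => i.elim0, fun i => i.elim0, fun i => i.elim0,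
    fun i => i.elim0⟩
  obtain ⟨n, hnS, hnmax⟩ : ∃ n ∈ S, ∀ m ∈ S, m ≤ n :=
    ⟨sSup S, Nat.sSup_mem hne hbdd, fun m hm => le_csSup hbdd hm⟩
  obtain ⟨w, hwM, hww, hwo⟩ := hnS
  set P := ∑ j, w j * star (w j) with hP
  have hPM : P ∈ M := sum_mem fun j _ => mul_mem (hwM j) (star_mem (hwM j))
  have hP1 : P = 1 := by
    by_contra hne1
    have hr0 : (1 - P) ≠ 0 := fun h => hne1 (sub_eq_zero.mp h).symm
    obtain ⟨x, hx, hxne⟩ := factor_exists_ne_zero hM hr0 hq hq0
    set a := (1 - P) * x * q with ha
    have haM : a ∈ M := mul_mem (mul_mem (sub_mem (one_mem M) hPM) hx) hq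
    obtain ⟨c, hc⟩ := hmin (star a * a) (mul_mem (star_mem haM) haM)
    have haq : a * q = a := by rw [ha, mul_assoc _ q q, hqq]
    have hqa : q * star a = star a := by
      have := congrArg star haq
      rwa [star_mul, hqs] at this
    have hc' : star a * a = c • q := by
      rw [← hc]
      calc star a * a = (q * star a) * (a * q) := by rw [hqa, haq]
        _ = q * (star a * a) * q := by noncomm_ring
    have hcpos : c = ((N2 ξ a ^ 2 / N2 ξ q ^ 2 : ℝ) : ℂ) := by
      have h1 := tr_star_mul_self (sqSum hξ) a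
      have h2 : tr ξ q = ((N2 ξ q ^ 2 : ℝ) : ℂ) := by
        rw [← tr_star_mul_self (sqSum hξ), hqs, hqq]
      rw [hc', tr_smul (sqSum hξ), h2] at h1
      have h3 : ((N2 ξ q ^ 2 : ℝ) : ℂ) ≠ 0 := by exact_mod_cast htq.ne'
      rw [Complex.ofReal_div, eq_div_iff h3]
      exact h1
    have hapos : 0 < N2 ξ a ^ 2 := by
      have : N2 ξ a ≠ 0 := fun h => hxne (eq_zero_of_N2 hξ haM h)
      have := N2_nonneg (ξ := ξ) a
      positivity
    set t : ℝ := N2 ξ a ^ 2 / N2 ξ q ^ 2 with ht
    have htpos : 0 < t := div_pos hapos htq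
    set u := (((Real.sqrt t)⁻¹ : ℝ) : ℂ) • a with hu
    have huM : u ∈ M := smul_mem' _ haM
    have huu : star u * u = q := by
      rw [hu, star_smul, smul_mul_smul_comm, hc', hcpos, smul_smul]
      have : star (((Real.sqrt t)⁻¹ : ℝ) : ℂ) * (((Real.sqrt t)⁻¹ : ℝ) : ℂ) * ((t : ℝ) : ℂ) = 1 := by
        have h1 : star (((Real.sqrt t)⁻¹ : ℝ) : ℂ) = (((Real.sqrt t)⁻¹ : ℝ) : ℂ) :=
          Complex.conj_ofReal _
        rw [h1, ← Complex.ofReal_mul, ← Complex.ofReal_mul]
        have h2 : Real.sqrt t * Real.sqrt t = t := Real.mul_self_sqrt htpos.le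
        have h3 : Real.sqrt t ≠ 0 := (Real.sqrt_pos.mpr htpos).ne'
        have : (Real.sqrt t)⁻¹ * (Real.sqrt t)⁻¹ * t = 1 := by
          nth_rewrite 3 [← h2]
          field_simp
        rw [this]; simp
      rw [this, one_smul]
    have hortho : ∀ i, star (w i) * u = 0 := by
      intro i
      have h1 : star (w i) * (1 - P) = 0 := by
        rw [mul_sub, mul_one, hproj n w hwM hww hwo i, sub_self]
      rw [hu, mul_smul_comm, ha, ← mul_assoc, ← mul_assoc, h1]
      simp
    have hmem' : n + 1 ∈ S := by
      refine ⟨Fin.cons u w, ?_, ?_, ?_⟩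
      · intro i
        refine Fin.cases ?_ (fun i => ?_) i
        · simpa using huM
        · simpa using hwM i
      · intro i
        refine Fin.cases ?_ (fun i => ?_) i
        · simpa using huu
        · simpa using hww i
      · intro i j
        refine Fin.cases ?_ (fun i => ?_) i
        · refine Fin.cases ?_ (fun j => ?_) j
          · intro h; exact absurd rfl h
          · intro _
            have := congrArg star (hortho j)
            simpa using this
        · refine Fin.cases ?_ (fun j => ?_) j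
          · intro _
            simpa using hortho i
          · intro h
            simp only [Fin.cons_succ]
            exact hwo i j (fun h' => h (by rw [h']))
    have := hnmax _ hmem'
    omega
  -- spanning
  choose! φ hφ using hmin
  have hspan : ∀ x ∈ M, x = ∑ i, ∑ j, φ (star (w i) * x * w j) • (w i * star (w j)) := by
    intro x hx
    have h1 : x = P * x * P := by rw [hP1, one_mul, mul_one]
    nth_rewrite 1 [h1]
    rw [hP, Finset.sum_mul, Finset.sum_mul]
    apply Finset.sum_congr rfl
    intro i _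
    rw [Finset.mul_sum]
    apply Finset.sum_congr rfl
    intro j _
    have h2 := hφ (star (w i) * x * w j) (mul_mem (mul_mem (star_mem (hwM i)) hx) (hwM j))
    have hwi : w i * q = w i := mul_eq_self_of_star_mul (hww i) hqq
    have hwj : q * star (w j) = star (w j) := by
      have := congrArg star (mul_eq_self_of_star_mul (hww j) hqq)
      rwa [star_mul, hqs] at this
    calc w i * star (w i) * x * (w j * star (w j))
        = w i * (star (w i) * x * w j) * star (w j) := by noncomm_ring
      _ = (w i * q) * (star (w i) * x * w j) * (q * star (w j)) := by rw [hwi, hwj]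
      _ = w i * (q * (star (w i) * x * w j) * q) * star (w j) := by noncomm_ring
      _ = φ (star (w i) * x * w j) • (w i * star (w j)) := by
          rw [h2, mul_smul_comm, smul_mul_assoc, hwi]
  have hfin : (Submodule.span ℂ (Set.range fun ij : Fin n × Fin n => w ij.1 * star (w ij.2))).FG :=
    Submodule.fg_span (Set.finite_range _)
  have hle : M.toStarSubalgebra.toSubalgebra.toSubmodule ≤
      Submodule.span ℂ (Set.range fun ij : Fin n × Fin n => w ij.1 * star (w ij.2)) := by
    intro x hx
    have hxM : x ∈ M := hx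
    rw [hspan x hxM]
    refine Submodule.sum_mem _ fun i _ => Submodule.sum_mem _ fun j _ => ?_
    exact Submodule.smul_mem _ _ (Submodule.subset_span ⟨(i, j), rfl⟩)
  have : FiniteDimensional ℂ
      (Submodule.span ℂ (Set.range fun ij : Fin n × Fin n => w ij.1 * star (w ij.2))) :=
    Module.Finite.iff_fg.mpr hfin
  exact Submodule.finiteDimensional_of_le hle

end Crest.Agent.R95
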