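import Crest.Agent.R95.Factor2

/-! Splitting a projection and nonzero nilpotent partial isometries under every projection. -/

set_option autoImplicit false

namespace Crest.Agent.R95

open scoped InnerProductSpace
open Filter Topology Crest.OpAlg

variable {H : Type*} [NormedAddCommGroup H] [InnerProductSpace ℂ H] [CompleteSpace H]

/-- A self-adjoint element of trace zero with vanishing positive part is zero. -/
theorem eq_zero_of_posPart {M : VonNeumannAlgebra H} {ξ : ℕ → H}
    (hξ : IsFaithfulTracialVectorState M ξ) {y : H →L[ℂ] H} (hy : y ∈ M) (hys : star y = y)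
    (hty : tr ξ y = 0) (h : cfc (fun t : ℝ => t * max t 0) y = 0) : y = 0 := by
  have hsa : IsSelfAdjoint y := hys
  have c1 : Continuous (fun t : ℝ => max t 0) := by fun_prop
  have c2 : Continuous (fun t : ℝ => Real.sqrt (max (-t) 0)) := by fun_prop
  have cid : Continuous (fun t : ℝ => t) := continuous_id
  -- positive part zero
  have hp : cfc (fun t : ℝ => max t 0) y = 0 := by
    apply star_mul_eq_zero
    have hs : star (cfc (fun t : ℝ => max t 0) y) = cfc (fun t : ℝ => max t 0) y :=
      (cfc_predicate (R := ℝ) _ y : IsSelfAdjoint _).star_eq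
    rw [hs, ← cfc_mul _ _ y c1.continuousOn c1.continuousOn, ← h]
    apply cfc_congr
    intro t _
    simp only
    rcases le_total t 0 with h' | h'
    · rw [max_eq_right h']; simp
    · rw [max_eq_left h']
  set s := cfc (fun t : ℝ => Real.sqrt (max (-t) 0)) y with hs
  have hss : star s = s := (cfc_predicate (R := ℝ) _ y : IsSelfAdjoint _).star_eq
  have hsM : s ∈ M := cfc_mem hy _
  have hy2 : y = - (star s * s) := by
    have e1 : star s * s = cfc (fun t : ℝ => max (-t) 0) y := by
      rw [hss, hs, ← cfc_mul _ _ y c2.continuousOn c2.continuousOn]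
      apply cfc_congr
      intro t _
      exact Real.mul_self_sqrt (le_max_right _ _)
    have e2 : y = cfc (fun t : ℝ => max t 0) y - cfc (fun t : ℝ => max (-t) 0) y := by
      have c3 : Continuous (fun t : ℝ => max (-t) 0) := by fun_prop
      rw [← cfc_sub _ _ y c1.continuousOn c3.continuousOn]
      nth_rewrite 1 [← cfc_id' ℝ y hsa]
      apply cfc_congr
      intro t _
      simp only
      rcases le_total t 0 with h' | h'
      · rw [max_eq_right h', max_eq_left (by linarith)]; ring
      · rw [max_eq_left h', max_eq_right (by linarith)]; ring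
    rw [e1]
    nth_rewrite 1 [e2]
    rw [hp, zero_sub]
  have hN : N2 ξ s = 0 := by
    have h1 := tr_star_mul_self (sqSum hξ) s
    have h2 : tr ξ (star s * s) = 0 := by
      have : star s * s = -y := by rw [hy2]; simp
      rw [this, tr_neg (sqSum hξ), hty, neg_zero]
    rw [h2] at h1
    have h3 : N2 ξ s ^ 2 = 0 := by exact_mod_cast h1.symm
    exact pow_eq_zero_iff (two_ne_zero) |>.mp h3
  have hs0 : s = 0 := eq_zero_of_N2 hξ hsM hN
  rw [hy2, hs0]; simp

theorem exists_split {M : VonNeumannAlgebra H} {ξ : ℕ → H}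
    (hξ : IsFaithfulTracialVectorState M ξ) {q : H →L[ℂ] H} (hq : q ∈ M)
    (hqq : q * q = q) (hqs : star q = q) (hq0 : q ≠ 0)
    (hmin : ¬ ∀ x ∈ M, ∃ c : ℂ, q * x * q = c • q) :
    ∃ r ∈ M, IsStarProjection r ∧ r ≠ 0 ∧ q * r = r ∧ q - r ≠ 0 := by
  have htq : 0 < N2 ξ q ^ 2 := by
    have : N2 ξ q ≠ 0 := fun h => hq0 (eq_zero_of_N2 hξ hq h)
    have := N2_nonneg (ξ := ξ) q
    positivity
  have htrq : tr ξ q = ((N2 ξ q ^ 2 : ℝ) : ℂ) := by
    rw [← tr_star_mul_self (sqSum hξ), hqs, hqq]
  -- a self-adjoint non-scalar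
  obtain ⟨b, hbM, hbs, hqb, hbq, hb⟩ : ∃ b ∈ M, star b = b ∧ q * b = b ∧ b * q = b ∧
      ∀ c : ℂ, b ≠ c • q := by
    push Not at hmin
    obtain ⟨x, hx, hxc⟩ := hmin
    set a := q * x * q with ha
    have haM : a ∈ M := mul_mem (mul_mem hq hx) hq
    have hqa : q * a = a := by rw [ha, ← mul_assoc, ← mul_assoc, hqq]
    have haq : a * q = a := by rw [ha, mul_assoc _ q q, hqq]
    have hqa' : q * star a = star a := by
      have := congrArg star haq
      rwa [star_mul, hqs] at this
    have haq' : star a * q = star a := by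
      have := congrArg star hqa
      rwa [star_mul, hqs] at this
    by_contra hcon
    push Not at hcon
    obtain ⟨c1, hc1⟩ := hcon (a + star a) (add_mem haM (star_mem haM))
      (by rw [star_add, star_star, add_comm]) (by rw [mul_add, hqa, hqa'])
      (by rw [add_mul, haq, haq'])
    obtain ⟨c2, hc2⟩ := hcon (Complex.I • (a - star a)) (smul_mem' _ (sub_mem haM (star_mem haM)))
      (by
        rw [star_smul, star_sub, star_star]
        have : star Complex.I = - Complex.I := Complex.conj_I
        rw [this, neg_smul, ← smul_neg, neg_sub])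
      (by rw [mul_smul_comm, mul_sub, hqa, hqa'])
      (by rw [smul_mul_assoc, sub_mul, haq, haq'])
    apply hxc ((2 : ℂ)⁻¹ * (c1 - Complex.I * c2))
    have h1 : a = (2 : ℂ)⁻¹ • ((a + star a) - Complex.I • (Complex.I • (a - star a))) := by
      rw [smul_smul, Complex.I_mul_I, neg_smul, one_smul, sub_neg_eq_add]
      have : a + star a + (a - star a) = (2 : ℂ) • a := by
        rw [two_smul]; abel
      rw [this, smul_smul]; norm_num
    rw [h1, hc1, hc2, smul_smul, ← sub_smul, smul_smul]
  -- trace real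
  have htb : tr ξ b = (((tr ξ b).re : ℝ) : ℂ) := by
    have h1 := tr_star (sqSum hξ) b
    rw [hbs] at h1
    exact (Complex.conj_eq_iff_real.mp h1.symm).elim fun r hr => by rw [hr]; simp
  set lam : ℝ := (tr ξ b).re / N2 ξ q ^ 2 with hlam
  set y := b - ((lam : ℝ) : ℂ) • q with hy
  have hyM : y ∈ M := sub_mem hbM (smul_mem' _ hq)
  have hys : star y = y := by
    rw [hy, star_sub, hbs, star_smul, hqs]
    congr 2
    exact Complex.conj_ofReal _
  have hy0 : y ≠ 0 := fun h => hb _ (sub_eq_zero.mp h)
  have hqy : q * y = y := by rw [hy, mul_sub, hqb, mul_smul_comm, hqq]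
  have hyq : y * q = y := by rw [hy, sub_mul, hbq, smul_mul_assoc, hqq]
  have hty : tr ξ y = 0 := by
    rw [hy, tr_sub (sqSum hξ), tr_smul (sqSum hξ), htrq, htb, ← Complex.ofReal_mul,
      ← Complex.ofReal_sub]
    have : (tr ξ b).re - lam * N2 ξ q ^ 2 = 0 := by
      rw [hlam, div_mul_cancel₀ _ htq.ne', sub_self]
    simp [this]
  have hsa : IsSelfAdjoint y := hys
  have c1 : Continuous (fun t : ℝ => max t 0) := by fun_prop
  have c1' : Continuous (fun t : ℝ => max (-t) 0) := by fun_prop
  have cid : Continuous (fun t : ℝ => t) := continuous_id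
  set cp := cfc (fun t : ℝ => t * max t 0) y with hcp
  set cm := cfc (fun t : ℝ => t * max (-t) 0) y with hcm
  have hid : cfc (fun t : ℝ => t) y = y := cfc_id' ℝ y hsa
  have hcp1 : cp = y * cfc (fun t : ℝ => max t 0) y := by
    rw [hcp, cfc_mul _ _ y cid.continuousOn c1.continuousOn, hid]
  have hcm1 : cm = y * cfc (fun t : ℝ => max (-t) 0) y := by
    rw [hcm, cfc_mul _ _ y cid.continuousOn c1'.continuousOn, hid]
  have hcms : star cm = cm := (cfc_predicate (R := ℝ) _ y : IsSelfAdjoint _).star_eq
  have hqcm : q * cm = cm := by rw [hcm1, ← mul_assoc, hqy]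
  have hcmq : cm * q = cm := by
    have := congrArg star hqcm
    rwa [star_mul, hqs, hcms] at this
  have c5 : Continuous (fun t : ℝ => t * max t 0) := cid.mul c1
  have c6 : Continuous (fun t : ℝ => t * max (-t) 0) := cid.mul c1'
  have hmp : cm * cp = 0 := by
    rw [hcm, hcp, ← cfc_mul _ _ y c6.continuousOn c5.continuousOn,
      ← cfc_const_zero ℝ y]
    apply cfc_congr
    intro t _
    simp only
    rcases le_total t 0 with h' | h'
    · rw [max_eq_right h']; simp
    · rw [max_eq_right (by linarith : -t ≤ 0)]; simp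
  have hcp0 : cp ≠ 0 := fun h => hy0 (eq_zero_of_posPart hξ hyM hys hty h)
  have hcm0 : cm ≠ 0 := by
    intro h
    have hneg : -y = 0 := by
      apply eq_zero_of_posPart hξ (neg_mem hyM) (by rw [star_neg, hys])
        (by rw [tr_neg (sqSum hξ), hty, neg_zero])
      have c3 : Continuous (fun t : ℝ => t * max t 0) := cid.mul c1
      have c4 : Continuous (fun t : ℝ => -t) := by fun_prop
      have e1 : -y = cfc (fun t : ℝ => -t) y := by
        rw [cfc_neg, hid]
      rw [e1, ← cfc_comp' (fun t : ℝ => t * max t 0) (fun t : ℝ => -t) y c3.continuousOn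
        c4.continuousOn hsa]
      have e2 : cfc (fun t : ℝ => -t * max (-t) 0) y = - cm := by
        rw [hcm, ← cfc_neg]
        apply cfc_congr
        intro t _
        ring
      rw [e2, h, neg_zero]
    exact hy0 (neg_eq_zero.mp hneg)
  refine ⟨rproj cp, rproj_mem (cfc_mem hyM _), rproj_isStarProjection cp, rproj_ne_zero hcp0,
    ?_, ?_⟩
  · have := rproj_ext (c := cp) (x := q) (y := 1) (by rw [hcp1, ← mul_assoc, hqy, one_mul])
    rwa [one_mul] at this
  · intro h
    have h1 : cm * rproj cp = 0 := rproj_zero_of hmp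
    rw [← sub_eq_zero.mp h, hcmq] at h1
    exact hcm0 h1

/-- Under every nonzero projection of a II₁ factor there is a nonzero partial isometry with square
zero. -/
theorem exists_nilp {M : VonNeumannAlgebra H} {ξ : ℕ → H}
    (hξ : IsFaithfulTracialVectorState M ξ) (hM : IsFactor M)
    (hinf : ¬ FiniteDimensional ℂ M.toStarSubalgebra) {q : H →L[ℂ] H} (hq : q ∈ M)
    (hqq : q * q = q) (hqs : star q = q) (hq0 : q ≠ 0) :
    ∃ w ∈ M, w ≠ 0 ∧ w * star w * w = w ∧ w * w = 0 ∧ q * w = w ∧ w * q = w := by
  have hmin : ¬ ∀ x ∈ M, ∃ c : ℂ, q * x * q = c • q := fun h =>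
    hinf (finiteDimensional_of_minimal hξ hM hq hqq hqs hq0 h)
  obtain ⟨r, hrM, hr, hr0, hqr, hqr0⟩ := exists_split hξ hq hqq hqs hq0 hmin
  have hrr : r * r = r := hr.isIdempotentElem
  have hrs : star r = r := hr.isSelfAdjoint
  have hrq : r * q = r := by
    have := congrArg star hqr
    rwa [star_mul, hrs, hqs] at this
  obtain ⟨x, hx, hxne⟩ := factor_exists_ne_zero hM (p := r) (q := q - r) hr0 (sub_mem hq hrM) hqr0
  have haM : r * x * (q - r) ∈ M := mul_mem (mul_mem hrM hx) (sub_mem hq hrM)
  obtain ⟨w, hwM, hw0, hww, hl, hri⟩ := exists_cutoff haM hxne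
  have h1 : r * w = w := hl r (by rw [← mul_assoc, ← mul_assoc, hrr])
  have h2 : w * (q - r) = w := hri (q - r) (by
    rw [mul_assoc]
    congr 1
    rw [sub_mul, mul_sub, mul_sub, hqq, hqr, hrq, hrr]; simp)
  refine ⟨w, hwM, hw0, ?_, ?_, ?_, ?_⟩
  · rw [mul_assoc]
    exact mul_eq_self_of_star_mul rfl hww.isIdempotentElem
  · calc w * w = (w * (q - r)) * (r * w) := by rw [h1, h2]
      _ = w * ((q - r) * r) * w := by noncomm_ring
      _ = 0 := by rw [sub_mul, hqr, hrr, sub_self]; simp
  · calc q * w = q * (r * w) := by rw [h1]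
      _ = (q * r) * w := by rw [mul_assoc]
      _ = w := by rw [hqr, h1]
  · calc w * q = (w * (q - r)) * q := by rw [h2]
      _ = w * ((q - r) * q) := by rw [mul_assoc]
      _ = w := by rw [sub_mul, hqq, hrq, h2]

end Crest.Agent.R95
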