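import Crest.Agent.R95.Factor3

/-! Halving: in a II₁ factor there is `v` with `v⋆ v + v v⋆ = 1`, `v² = 0`. -/

set_option autoImplicit false

namespace Crest.Agent.R95

open scoped InnerProductSpace
open Filter Topology Crest.OpAlg

variable {H : Type*} [NormedAddCommGroup H] [InnerProductSpace ℂ H] [CompleteSpace H]

/-- partial isometries of `M` with square zero -/
structure PN (M : VonNeumannAlgebra H) (v : H →L[ℂ] H) : Prop where
  mem : v ∈ M
  pi : v * star v * v = v
  sq : v * v = 0

/-- the remaining projection -/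
noncomputable def qv (v : H →L[ℂ] H) : H →L[ℂ] H := 1 - star v * v - v * star v

section qv

variable {M : VonNeumannAlgebra H} {v : H →L[ℂ] H}

theorem PN.zero (M : VonNeumannAlgebra H) : PN M 0 := ⟨zero_mem M, by simp, by simp⟩

theorem qv_star (v : H →L[ℂ] H) : star (qv v) = qv v := by
  simp [qv]

theorem PN.qv_mem (h : PN M v) : qv v ∈ M :=
  sub_mem (sub_mem (one_mem M) (mul_mem (star_mem h.mem) h.mem)) (mul_mem h.mem (star_mem h.mem))

theorem PN.mul_qv (h : PN M v) : v * qv v = 0 := by
  rw [qv, mul_sub, mul_sub, mul_one, ← mul_assoc, h.pi, ← mul_assoc, h.sq, zero_mul, sub_self,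
    sub_zero]

theorem PN.qv_mul (h : PN M v) : qv v * v = 0 := by
  rw [qv, sub_mul, sub_mul, one_mul, h.pi, mul_assoc, h.sq, mul_zero, sub_zero, sub_self]

theorem PN.star_mul_qv (h : PN M v) : star v * qv v = 0 := by
  have := congrArg star h.qv_mul
  rwa [star_mul, qv_star, star_zero] at this

theorem PN.qv_mul_star (h : PN M v) : qv v * star v = 0 := by
  have := congrArg star h.mul_qv
  rwa [star_mul, qv_star, star_zero] at this

theorem PN.qv_idem (h : PN M v) : qv v * qv v = qv v := by
  calc qv v * qv v = (1 - star v * v - v * star v) * qv v := rfl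
    _ = qv v - star v * (v * qv v) - v * (star v * qv v) := by
        rw [sub_mul, sub_mul, one_mul, mul_assoc, mul_assoc]
    _ = qv v := by rw [h.mul_qv, h.star_mul_qv]; simp

theorem PN.norm_le (h : PN M v) : ‖v‖ ≤ 1 := by
  have h1 : IsStarProjection (star v * v) := by
    refine ⟨?_, by simp [IsSelfAdjoint]⟩
    change star v * v * (star v * v) = star v * v
    calc star v * v * (star v * v) = star v * (v * star v * v) := by noncomm_ring
      _ = star v * v := by rw [h.pi]
  have h2 := h1.norm_le
  rw [CStarRing.norm_star_mul_self] at h2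
  nlinarith [norm_nonneg v]

theorem PN.add {u : H →L[ℂ] H} (h : PN M v) (hu : PN M u) (h1 : qv v * u = u)
    (h2 : u * qv v = u) : PN M (v + u) ∧ star v * u = 0 ∧
      qv (v + u) = qv v - star u * u - u * star u := by
  have e1 : v * u = 0 := by rw [← h1, ← mul_assoc, h.mul_qv, zero_mul]
  have e2 : star v * u = 0 := by rw [← h1, ← mul_assoc, h.star_mul_qv, zero_mul]
  have e3 : u * v = 0 := by rw [← h2, mul_assoc, h.qv_mul, mul_zero]
  have e4 : u * star v = 0 := by rw [← h2, mul_assoc, h.qv_mul_star, mul_zero]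
  have e5 : star u * v = 0 := by
    have := congrArg star e2
    rwa [star_mul, star_star, star_zero] at this
  have e6 : v * star u = 0 := by
    have := congrArg star e4
    rwa [star_mul, star_star, star_zero] at this
  refine ⟨⟨add_mem h.mem hu.mem, ?_, ?_⟩, e2, ?_⟩
  · rw [star_add]
    have : (v + u) * (star v + star u) * (v + u) = v * star v * v + u * star u * u
        + v * (star v * u) + (v * star u) * v + (v * star u) * u + (u * star v) * v
        + (u * star v) * u + u * (star u * v) := by noncomm_ring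
    rw [this, e2, e6, e4, e5, h.pi, hu.pi]
    simp
  · have : (v + u) * (v + u) = v * v + v * u + u * v + u * u := by noncomm_ring
    rw [this, h.sq, e1, e3, hu.sq]; simp
  · rw [qv, qv, star_add]
    have : 1 - (star v + star u) * (v + u) - (v + u) * (star v + star u) =
        1 - star v * v - v * star v - star u * u - u * star u - star v * u - star u * v
        - v * star u - u * star v := by noncomm_ring
    rw [this, e2, e5, e6, e4]
    simp

end qv

theorem exists_half {M : VonNeumannAlgebra H} {ξ : ℕ → H}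
    (hξ : IsFaithfulTracialVectorState M ξ) (hM : IsFactor M)
    (hinf : ¬ FiniteDimensional ℂ M.toStarSubalgebra) :
    ∃ v, PN M v ∧ star v * v + v * star v = 1 := by
  -- the set of masses
  let T : (H →L[ℂ] H) → Set ℝ := fun v =>
    {t | ∃ u, PN M u ∧ qv v * u = u ∧ u * qv v = u ∧ t = N2 ξ u ^ 2}
  have hN1 : ∀ u, PN M u → N2 ξ u ^ 2 ≤ 1 := by
    intro u hu
    have h1 := (N2_le_norm hξ u).trans hu.norm_le
    have h2 := N2_nonneg (ξ := ξ) u
    nlinarith
  have hTb : ∀ v, BddAbove (T v) := by
    intro v
    refine ⟨1, ?_⟩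
    rintro t ⟨u, hu, _, _, rfl⟩
    exact hN1 u hu
  have hT0 : ∀ v, (0 : ℝ) ∈ T v := fun v => ⟨0, PN.zero M, by simp, by simp, by simp⟩
  have hstep : ∀ v : H →L[ℂ] H, ∃ u, PN M u ∧ qv v * u = u ∧ u * qv v = u ∧
      sSup (T v) ≤ 2 * N2 ξ u ^ 2 := by
    intro v
    rcases le_or_gt (sSup (T v)) 0 with h | h
    · exact ⟨0, PN.zero M, by simp, by simp, by simpa using h⟩
    · obtain ⟨t, ⟨u, hu, h1, h2, rfl⟩, ht⟩ :=
        exists_lt_of_lt_csSup (s := T v) ⟨0, hT0 v⟩ (b := sSup (T v) / 2) (by linarith)
      exact ⟨u, hu, h1, h2, by linarith⟩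
  choose U hU1 hU2 hU3 hU4 using hstep
  let V : ℕ → (H →L[ℂ] H) := fun n => Nat.rec 0 (fun _ v => v + U v) n
  have hV0 : V 0 = 0 := rfl
  have hVs : ∀ n, V (n + 1) = V n + U (V n) := fun n => rfl
  have hPN : ∀ n, PN M (V n) := by
    intro n
    induction n with
    | zero => rw [hV0]; exact PN.zero M
    | succ n ih => rw [hVs]; exact (ih.add (hU1 _) (hU2 _) (hU3 _)).1
  have hqs : ∀ n, qv (V (n + 1)) = qv (V n) - star (U (V n)) * U (V n) - U (V n) * star (U (V n)) := by
    intro n
    rw [hVs]; exact ((hPN n).add (hU1 _) (hU2 _) (hU3 _)).2.2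
  -- `q_i` kills `V n`, `star (V n)` for `n ≤ i`
  have hkill : ∀ n i, n ≤ i → qv (V i) * V n = 0 ∧ qv (V i) * star (V n) = 0 := by
    intro n i hni
    induction i, hni using Nat.le_induction with
    | base => exact ⟨(hPN n).qv_mul, (hPN n).qv_mul_star⟩
    | succ i hni ih =>
      obtain ⟨ih1, ih2⟩ := ih
      have hu3 := hU3 (V i)
      have hu2 : star (U (V i)) * qv (V i) = star (U (V i)) := by
        have := congrArg star (hU2 (V i))
        rwa [star_mul, qv_star] at this
      have aux : ∀ z, qv (V i) * z = 0 → qv (V (i + 1)) * z = 0 := by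
        intro z hz
        have e1 : U (V i) * z = 0 := by rw [← hu3, mul_assoc, hz, mul_zero]
        have e2 : star (U (V i)) * z = 0 := by rw [← hu2, mul_assoc, hz, mul_zero]
        rw [hqs, sub_mul, sub_mul, hz, mul_assoc, e1, mul_assoc, e2]
        simp
      exact ⟨aux _ ih1, aux _ ih2⟩
  have hkill' : ∀ n i, n ≤ i → V n * qv (V i) = 0 ∧ star (V n) * qv (V i) = 0 := by
    intro n i hni
    obtain ⟨h1, h2⟩ := hkill n i hni
    constructor
    · have := congrArg star h2
      rwa [star_mul, star_star, qv_star, star_zero] at this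
    · have := congrArg star h1
      rwa [star_mul, qv_star, star_zero] at this
  have hu0 : ∀ n i, n ≤ i → U (V i) * V n = 0 ∧ U (V i) * star (V n) = 0 ∧
      V n * U (V i) = 0 ∧ star (V n) * U (V i) = 0 := by
    intro n i hni
    obtain ⟨h1, h2⟩ := hkill n i hni
    obtain ⟨h3, h4⟩ := hkill' n i hni
    refine ⟨?_, ?_, ?_, ?_⟩
    · rw [← hU3, mul_assoc, h1, mul_zero]
    · rw [← hU3, mul_assoc, h2, mul_zero]
    · rw [← hU2, ← mul_assoc, h3, zero_mul]
    · rw [← hU2, ← mul_assoc, h4, zero_mul]
  have hA : ∀ n m, n ≤ m → star (V n) * V m = star (V n) * V n ∧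
      V m * star (V n) = V n * star (V n) ∧ V n * V m = 0 ∧ V m * V n = 0 := by
    intro n m hnm
    induction m, hnm using Nat.le_induction with
    | base => exact ⟨rfl, rfl, (hPN n).sq, (hPN n).sq⟩
    | succ m hnm ih =>
      obtain ⟨i1, i2, i3, i4⟩ := ih
      obtain ⟨j1, j2, j3, j4⟩ := hu0 n m hnm
      rw [hVs]
      refine ⟨?_, ?_, ?_, ?_⟩
      · rw [mul_add, i1, j4, add_zero]
      · rw [add_mul, i2, j2, add_zero]
      · rw [mul_add, i3, j3, add_zero]
      · rw [add_mul, i4, j1, add_zero]
  -- Pythagoras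
  have hpyth : ∀ n m, n ≤ m → ∀ x, ‖V m x‖ ^ 2 = ‖V n x‖ ^ 2 + ‖V m x - V n x‖ ^ 2 := by
    intro n m hnm x
    have h1 : ⟪V n x, V m x - V n x⟫_ℂ = 0 := by
      have e1 : star (V n) * (V m - V n) = 0 := by
        rw [mul_sub, (hA n m hnm).1, sub_self]
      have e2 : (star (V n)) ((V m - V n) x) = 0 :=
        congrArg (fun T : H →L[ℂ] H => T x) e1
      rw [ContinuousLinearMap.star_eq_adjoint] at e2
      have e3 := ContinuousLinearMap.adjoint_inner_right (V n) x ((V m - V n) x)
      rw [e2, inner_zero_right] at e3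
      exact e3.symm
    have h2 : V m x = V n x + (V m x - V n x) := by abel
    have h3 := norm_add_sq_eq_norm_sq_add_norm_sq_of_inner_eq_zero (V n x) (V m x - V n x) h1
    rw [← h2] at h3
    rw [sq, sq, sq]; exact h3
  have hbound : ∀ n x, ‖V n x‖ ≤ ‖x‖ := by
    intro n x
    have := (V n).le_opNorm x
    have h1 := (hPN n).norm_le
    calc ‖V n x‖ ≤ ‖V n‖ * ‖x‖ := this
      _ ≤ 1 * ‖x‖ := by gcongr
      _ = ‖x‖ := one_mul _
  have hconv : ∀ x, ∃ y, Tendsto (fun n => V n x) atTop (𝓝 y) := by
    intro x
    apply cauchySeq_tendsto_of_complete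
    have hmono : Monotone fun n => ‖V n x‖ ^ 2 := by
      intro n m hnm
      have := hpyth n m hnm x
      simp only
      rw [this]
      linarith [sq_nonneg ‖V m x - V n x‖]
    have hbdd : BddAbove (Set.range fun n => ‖V n x‖ ^ 2) := by
      refine ⟨‖x‖ ^ 2, ?_⟩
      rintro _ ⟨n, rfl⟩
      exact pow_le_pow_left₀ (norm_nonneg _) (hbound n x) 2
    have hlim := tendsto_atTop_ciSup hmono hbdd
    set L := ⨆ n, ‖V n x‖ ^ 2 with hL
    have hle : ∀ n, ‖V n x‖ ^ 2 ≤ L := fun n => le_ciSup hbdd n
    apply cauchySeq_of_le_tendsto_0 (fun N => 2 * Real.sqrt (L - ‖V N x‖ ^ 2))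
    · intro n m N hn hm
      have key : ∀ k, N ≤ k → dist (V k x) (V N x) ≤ Real.sqrt (L - ‖V N x‖ ^ 2) := by
        intro k hk
        apply Real.le_sqrt_of_sq_le
        rw [dist_eq_norm]
        have := hpyth N k hk x
        have h2 := hle k
        linarith
      have h1 := key n hn
      have h2 := key m hm
      have h3 := dist_triangle (V n x) (V N x) (V m x)
      rw [dist_comm (V N x)] at h3
      linarith
    · have h1 : Tendsto (fun N => L - ‖V N x‖ ^ 2) atTop (𝓝 (L - L)) :=
        tendsto_const_nhds.sub hlim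
      rw [sub_self] at h1
      have h2 := (Real.continuous_sqrt.tendsto 0).comp h1
      rw [Real.sqrt_zero] at h2
      simpa using h2.const_mul 2
  choose W0 hW0 using hconv
  set W : H →L[ℂ] H := continuousLinearMapOfTendsto (fun n => V n) (f := W0)
    (tendsto_pi_nhds.mpr hW0) with hWdef
  have hW : ∀ x, Tendsto (fun n => V n x) atTop (𝓝 (W x)) := hW0
  -- identities
  have L1 : ∀ n, W * star (V n) = V n * star (V n) := by
    intro n
    ext x
    refine tendsto_nhds_unique (hW (star (V n) x)) ?_
    apply tendsto_const_nhds.congr'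
    filter_upwards [eventually_ge_atTop n] with m hm
    exact congrArg (fun T : H →L[ℂ] H => T x) (hA n m hm).2.1.symm
  have L2 : ∀ n, W * V n = 0 := by
    intro n
    ext x
    refine tendsto_nhds_unique (hW (V n x)) ?_
    apply tendsto_const_nhds.congr'
    filter_upwards [eventually_ge_atTop n] with m hm
    exact congrArg (fun T : H →L[ℂ] H => T x) (hA n m hm).2.2.2.symm
  have L3 : ∀ n, star (V n) * W = star (V n) * V n := by
    intro n
    ext x
    refine tendsto_nhds_unique (((star (V n)).continuous.tendsto (W x)).comp (hW x)) ?_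
    apply tendsto_const_nhds.congr'
    filter_upwards [eventually_ge_atTop n] with m hm
    exact congrArg (fun T : H →L[ℂ] H => T x) (hA n m hm).1.symm
  have L4 : ∀ n, V n * W = 0 := by
    intro n
    ext x
    refine tendsto_nhds_unique (((V n).continuous.tendsto (W x)).comp (hW x)) ?_
    apply tendsto_const_nhds.congr'
    filter_upwards [eventually_ge_atTop n] with m hm
    exact congrArg (fun T : H →L[ℂ] H => T x) (hA n m hm).2.2.1.symm
  have L1' : ∀ n, V n * star W = V n * star (V n) := by
    intro n
    have := congrArg star (L1 n)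
    simpa only [star_mul, star_star] using this
  have L2' : ∀ n, star (V n) * star W = 0 := by
    intro n
    have := congrArg star (L2 n)
    simpa only [star_mul, star_star, star_zero] using this
  have L3' : ∀ n, star W * V n = star (V n) * V n := by
    intro n
    have := congrArg star (L3 n)
    simpa only [star_mul, star_star] using this
  have L4' : ∀ n, star W * star (V n) = 0 := by
    intro n
    have := congrArg star (L4 n)
    simpa only [star_mul, star_star, star_zero] using this
  have hWPN : PN M W := by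
    refine ⟨?_, ?_, ?_⟩
    · apply mem_of_comm
      intro y hy
      ext x
      refine tendsto_nhds_unique ((y.continuous.tendsto (W x)).comp (hW x)) ?_
      refine (hW (y x)).congr ?_
      intro n
      exact congrArg (fun T : H →L[ℂ] H => T x) (comm_of_mem (hPN n).mem hy)
    · ext x
      refine tendsto_nhds_unique (((W * star W).continuous.tendsto (W x)).comp (hW x)) ?_
      refine (hW x).congr ?_
      intro n
      have : W * star W * V n = V n := by
        rw [mul_assoc, L3' n, ← mul_assoc, L1 n, (hPN n).pi]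
      exact congrArg (fun T : H →L[ℂ] H => T x) this.symm
    · ext x
      refine tendsto_nhds_unique ((W.continuous.tendsto (W x)).comp (hW x)) ?_
      apply tendsto_const_nhds.congr
      intro n
      exact congrArg (fun T : H →L[ℂ] H => T x) (L2 n).symm
  -- masses tend to zero
  have hsum : ∀ n, ∑ i ∈ Finset.range n, N2 ξ (U (V i)) ^ 2 = N2 ξ (V n) ^ 2 := by
    intro n
    induction n with
    | zero => simp [hV0]
    | succ n ih =>
      rw [Finset.sum_range_succ, ih, hVs, N2_sq_add (sqSum hξ)]
      exact ((hPN n).add (hU1 _) (hU2 _) (hU3 _)).2.1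
  have hsummable : Summable fun n => N2 ξ (U (V n)) ^ 2 := by
    apply summable_of_sum_range_le (c := 1)
    · intro n; positivity
    · intro n; rw [hsum]; exact hN1 _ (hPN n)
  have hto0 := hsummable.tendsto_atTop_zero
  have hq0 : qv W = 0 := by
    by_contra hne
    obtain ⟨u, huM, hu0', hupi, husq, hqu, huq⟩ := exists_nilp hξ hM hinf hWPN.qv_mem
      hWPN.qv_idem (qv_star W) hne
    have huPN : PN M u := ⟨huM, hupi, husq⟩
    have hmem : ∀ n, N2 ξ u ^ 2 ∈ T (V n) := by
      intro n
      have k1 : V n * qv W = 0 := by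
        rw [qv, mul_sub, mul_sub, mul_one, ← mul_assoc, L1' n, ← mul_assoc, L4 n, zero_mul,
          mul_assoc, L3 n, ← mul_assoc, (hPN n).pi]
        simp
      have k2 : star (V n) * qv W = 0 := by
        rw [qv, mul_sub, mul_sub, mul_one, ← mul_assoc, L2' n, zero_mul, ← mul_assoc, L3 n,
          mul_assoc, L1' n, ← mul_assoc]
        have := congrArg star (hPN n).pi
        simp only [star_mul, star_star] at this
        rw [← mul_assoc] at this
        rw [this]; simp
      have k3 : qv W * V n = 0 := by
        have := congrArg star k2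
        simpa only [star_mul, star_star, star_zero, qv_star] using this
      have k4 : qv W * star (V n) = 0 := by
        have := congrArg star k1
        simpa only [star_mul, star_star, star_zero, qv_star] using this
      refine ⟨u, huPN, ?_, ?_, rfl⟩
      · have e1 : V n * u = 0 := by rw [← hqu, ← mul_assoc, k1, zero_mul]
        have e2 : star (V n) * u = 0 := by rw [← hqu, ← mul_assoc, k2, zero_mul]
        rw [qv, sub_mul, sub_mul, one_mul, mul_assoc, e1, mul_assoc, e2]
        simp
      · have e1 : u * V n = 0 := by rw [← huq, mul_assoc, k3, mul_zero]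
        have e2 : u * star (V n) = 0 := by rw [← huq, mul_assoc, k4, mul_zero]
        rw [qv, mul_sub, mul_sub, mul_one, ← mul_assoc, e2, ← mul_assoc, e1]
        simp
    have hle : ∀ n, N2 ξ u ^ 2 ≤ 2 * N2 ξ (U (V n)) ^ 2 := fun n =>
      (le_csSup (hTb _) (hmem n)).trans (hU4 _)
    have hle0 : N2 ξ u ^ 2 ≤ 2 * 0 := ge_of_tendsto' (hto0.const_mul 2) hle
    have h0 : N2 ξ u = 0 := by
      have : N2 ξ u ^ 2 = 0 := le_antisymm (by simpa using hle0) (sq_nonneg _)
      exact pow_eq_zero_iff (two_ne_zero) |>.mp this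
    exact hu0' (eq_zero_of_N2 hξ huM h0)
  refine ⟨W, hWPN, ?_⟩
  rw [qv, sub_sub, sub_eq_zero] at hq0
  exact hq0.symm

end Crest.Agent.R95
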