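import Crest.Agent.R95.Defs
import Crest.Agent.R95.L2
import Crest.Agent.R95.Closure
import Crest.Agent.R95.Bridge
import Crest.Agent.R95.CoreBase

/-!
R95 reduction module Red2 (helper400): from the key lemma (`core_concrete`), the unitary
approximation, the truncation lemma, density and closure lemmas, derive the generic generation
statement for unitaries (dense `G_δ`).
-/

set_option autoImplicit false

open scoped InnerProductSpace ENNReal
open Filter Topology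

namespace Crest.Agent.R95

open Crest.OpAlg

variable {H : Type*} [NormedAddCommGroup H] [InnerProductSpace ℂ H] [CompleteSpace H]

/-! ### Separability -/

omit [CompleteSpace H] in
theorem separableSpace_L2 [TopologicalSpace.SeparableSpace H] :
    TopologicalSpace.SeparableSpace (L2 H) := by
  have hs : ∀ i : ℕ, TopologicalSpace.IsSeparable
      (Set.range (fun x : H => (lp.single 2 i x : L2 H))) := by
    intro i
    have hc : Continuous (fun x : H => (lp.single 2 i x : L2 H)) :=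
      (lp.isometry_single (E := fun _ : ℕ => H) (p := 2) i).continuous
    exact TopologicalSpace.isSeparable_range hc
  have h1 : TopologicalSpace.IsSeparable
      (⋃ i : ℕ, Set.range (fun x : H => (lp.single 2 i x : L2 H))) :=
    TopologicalSpace.IsSeparable.iUnion hs
  have h2 := h1.span (R := ℂ)
  have h3 := h2.closure
  have h4 : closure ((Submodule.span ℂ (⋃ i : ℕ,
      Set.range (fun x : H => (lp.single 2 i x : L2 H))) : Submodule ℂ (L2 H)) : Set (L2 H))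
      = Set.univ := by
    refine Set.eq_univ_of_forall fun f => ?_
    have hf := lp.hasSum_single (E := fun _ : ℕ => H) (p := 2) (by norm_num) f
    refine mem_closure_of_tendsto hf (Filter.Eventually.of_forall fun s => ?_)
    refine Submodule.sum_mem _ fun i _ => Submodule.subset_span ?_
    exact Set.mem_iUnion.2 ⟨i, ⟨_, rfl⟩⟩
  rw [h4] at h3
  exact TopologicalSpace.isSeparable_univ_iff.1 h3

omit [CompleteSpace H] in
theorem exists_dense_seq_N2 [TopologicalSpace.SeparableSpace H] {ξ : ℕ → H} (hξ : SqSum ξ)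
    (S : Set (H →L[ℂ] H)) (hS : S.Nonempty) :
    ∃ y : ℕ → (H →L[ℂ] H), (∀ k, y k ∈ S) ∧ ∀ x ∈ S, ∀ ε : ℝ, 0 < ε → ∃ k, N2 ξ (y k - x) < ε := by
  have : TopologicalSpace.SeparableSpace (L2 H) := separableSpace_L2
  have : SecondCountableTopology (L2 H) := UniformSpace.secondCountable_of_separable _
  have : Nonempty (io hξ '' S) := (hS.image _).to_subtype
  obtain ⟨z, hz⟩ := TopologicalSpace.exists_dense_seq (io hξ '' S)
  choose y hyS hy using fun k => (z k).2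
  refine ⟨y, hyS, fun x hx ε hε => ?_⟩
  obtain ⟨k, hk⟩ := Metric.denseRange_iff.1 hz ⟨io hξ x, x, hx, rfl⟩ ε hε
  refine ⟨k, ?_⟩
  rw [Subtype.dist_eq, dist_eq_norm] at hk
  rw [← norm_io hξ, map_sub, hy k, norm_sub_rev]
  exact hk

/-! ### Lipschitz dependence of noncommutative polynomials -/

/-- the star algebra generated by `P` and `w` -/
noncomputable def Adj (P : VonNeumannAlgebra H) (w : H →L[ℂ] H) :
    StarSubalgebra ℂ (H →L[ℂ] H) :=
  StarAlgebra.adjoin ℂ ((P : Set (H →L[ℂ] H)) ∪ {w})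

theorem Adj_le {P : VonNeumannAlgebra H} {w : H →L[ℂ] H} {V : VonNeumannAlgebra H}
    (hP : P ≤ V) (hw : w ∈ V) : Adj P w ≤ V.toStarSubalgebra := by
  refine StarAlgebra.adjoin_le ?_
  rintro x (hx | hx)
  · exact hP hx
  · rw [Set.mem_singleton_iff.1 hx]; exact hw

theorem mem_Adj_of_mem {P : VonNeumannAlgebra H} {w x : H →L[ℂ] H} (hx : x ∈ P) :
    x ∈ Adj P w := StarAlgebra.subset_adjoin _ _ (Or.inl hx)

theorem self_mem_Adj {P : VonNeumannAlgebra H} {w : H →L[ℂ] H} :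
    w ∈ Adj P w := StarAlgebra.subset_adjoin _ _ (Or.inr rfl)

theorem smul_mem_vn {V : VonNeumannAlgebra H} {x : H →L[ℂ] H} (c : ℂ) (hx : x ∈ V) :
    c • x ∈ V := V.toStarSubalgebra.smul_mem hx c

theorem algebraMap_mem_vn {V : VonNeumannAlgebra H} (c : ℂ) :
    algebraMap ℂ (H →L[ℂ] H) c ∈ V := V.toStarSubalgebra.algebraMap_mem c

theorem Adj_lip {M P : VonNeumannAlgebra H} (hPM : P ≤ M) {ξ : ℕ → H}
    (hξ : IsFaithfulTracialVectorState M ξ) {w : H →L[ℂ] H} (hw : w ∈ M)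
    (hwu : w ∈ unitary (H →L[ℂ] H)) {x : H →L[ℂ] H} (hx : x ∈ Adj P w) :
    ∃ B C : ℝ, 0 ≤ B ∧ 0 ≤ C ∧ ‖x‖ ≤ B ∧ x ∈ M ∧ ∀ w' ∈ M, w' ∈ unitary (H →L[ℂ] H) →
      ∃ x' ∈ Adj P w', ‖x'‖ ≤ B ∧ x' ∈ M ∧ N2 ξ (x' - x) ≤ C * N2 ξ (w' - w) := by
  have hss := sqSum hξ
  induction hx using StarAlgebra.adjoin_induction with
  | mem x hx =>
    rcases hx with hx | hx
    · refine ⟨‖x‖, 0, norm_nonneg _, le_refl _, le_refl _, hPM hx, fun w' _ _ => ?_⟩
      refine ⟨x, mem_Adj_of_mem hx, le_refl _, hPM hx, ?_⟩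
      simp
    · rw [Set.mem_singleton_iff] at hx
      subst hx
      have hn : ∀ z ∈ unitary (H →L[ℂ] H), ‖z‖ ≤ 1 := by
        intro z hz
        rcases subsingleton_or_nontrivial (H →L[ℂ] H) with h | h
        · rw [Subsingleton.elim z 0]; simp
        · exact (CStarRing.norm_of_mem_unitary hz).le
      refine ⟨1, 1, zero_le_one, zero_le_one, hn _ hwu, hw, fun w' hw' hwu' => ?_⟩
      exact ⟨w', self_mem_Adj, hn _ hwu', hw', by simp⟩
  | algebraMap r =>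
    refine ⟨‖algebraMap ℂ (H →L[ℂ] H) r‖, 0, norm_nonneg _, le_refl _, le_refl _,
      algebraMap_mem_vn r, fun w' _ _ => ?_⟩
    refine ⟨_, (Adj P w').algebraMap_mem r, le_refl _, algebraMap_mem_vn r, ?_⟩
    simp
  | add x y _ _ ihx ihy =>
    obtain ⟨B1, C1, hB1, hC1, hx1, hxM, h1⟩ := ihx
    obtain ⟨B2, C2, hB2, hC2, hy2, hyM, h2⟩ := ihy
    refine ⟨B1 + B2, C1 + C2, by positivity, by positivity,
      (norm_add_le _ _).trans (by gcongr), add_mem hxM hyM, fun w' hw' hwu' => ?_⟩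
    obtain ⟨x', hx', hxB, hxM', hxx⟩ := h1 w' hw' hwu'
    obtain ⟨y', hy', hyB, hyM', hyy⟩ := h2 w' hw' hwu'
    refine ⟨x' + y', add_mem hx' hy', (norm_add_le _ _).trans (by gcongr), add_mem hxM' hyM', ?_⟩
    have e : x' + y' - (x + y) = (x' - x) + (y' - y) := by abel
    rw [e]
    refine (N2_add_le hss _ _).trans ?_
    rw [add_mul]; gcongr
  | mul x y _ _ ihx ihy =>
    obtain ⟨B1, C1, hB1, hC1, hx1, hxM, h1⟩ := ihx
    obtain ⟨B2, C2, hB2, hC2, hy2, hyM, h2⟩ := ihy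
    refine ⟨B1 * B2, C1 * B2 + B1 * C2, by positivity, by positivity,
      (norm_mul_le _ _).trans (by gcongr), mul_mem hxM hyM, fun w' hw' hwu' => ?_⟩
    obtain ⟨x', hx', hxB, hxM', hxx⟩ := h1 w' hw' hwu'
    obtain ⟨y', hy', hyB, hyM', hyy⟩ := h2 w' hw' hwu'
    refine ⟨x' * y', mul_mem hx' hy', (norm_mul_le _ _).trans (by gcongr), mul_mem hxM' hyM', ?_⟩
    have e : x' * y' - x * y = (x' - x) * y' + x * (y' - y) := by
      rw [sub_mul, mul_sub]; abel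
    rw [e]
    refine (N2_add_le hss _ _).trans ?_
    have h3 : N2 ξ ((x' - x) * y') ≤ (C1 * N2 ξ (w' - w)) * B2 := by
      refine (N2_mul_right hξ (sub_mem hxM' hxM) hyM').trans ?_
      have : 0 ≤ N2 ξ (w' - w) := N2_nonneg _
      gcongr
    have h4 : N2 ξ (x * (y' - y)) ≤ B1 * (C2 * N2 ξ (w' - w)) := by
      refine (N2_mul_left hss _ _).trans ?_
      have : 0 ≤ N2 ξ (w' - w) := N2_nonneg _
      gcongr
      exact N2_nonneg _
    calc _ ≤ (C1 * N2 ξ (w' - w)) * B2 + B1 * (C2 * N2 ξ (w' - w)) := add_le_add h3 h4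
      _ = _ := by ring
  | star x _ ihx =>
    obtain ⟨B1, C1, hB1, hC1, hx1, hxM, h1⟩ := ihx
    refine ⟨B1, C1, hB1, hC1, by rwa [norm_star], star_mem hxM, fun w' hw' hwu' => ?_⟩
    obtain ⟨x', hx', hxB, hxM', hxx⟩ := h1 w' hw' hwu'
    refine ⟨star x', star_mem hx', by rwa [norm_star], star_mem hxM', ?_⟩
    rw [← star_sub, N2_star hξ (sub_mem hxM' hxM)]
    exact hxx

/-! ### The von Neumann algebra generated by `P` and `w` -/

/-- `W*(P, w)` -/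
noncomputable def Vw (P : VonNeumannAlgebra H) (w : H →L[ℂ] H) : VonNeumannAlgebra H :=
  vnGen ((P : Set (H →L[ℂ] H)) ∪ {w})

theorem P_le_Vw (P : VonNeumannAlgebra H) (w : H →L[ℂ] H) : P ≤ Vw P w :=
  fun _ hx => subset_vnGen _ _ (Or.inl hx)

theorem self_mem_Vw (P : VonNeumannAlgebra H) (w : H →L[ℂ] H) : w ∈ Vw P w :=
  subset_vnGen _ _ (Or.inr rfl)

theorem Vw_le {P V : VonNeumannAlgebra H} {w : H →L[ℂ] H} (hP : P ≤ V) (hw : w ∈ V) :
    Vw P w ≤ V := by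
  refine vnGen_le ?_
  rintro x (hx | hx)
  · exact hP hx
  · rw [Set.mem_singleton_iff.1 hx]; exact hw

theorem Vw_centralizer {P : VonNeumannAlgebra H} {w x : H →L[ℂ] H} (hx : x ∈ Vw P w) :
    x ∈ Set.centralizer (Set.centralizer (Adj P w : Set (H →L[ℂ] H))) := by
  rw [Vw, ← SetLike.mem_coe, coe_vnGen] at hx
  refine Set.centralizer_subset (Set.centralizer_subset ?_) hx
  rintro y (hy | hy)
  · exact StarAlgebra.subset_adjoin _ _ hy
  · have := star_mem (s := Adj P w) (StarAlgebra.subset_adjoin ℂ _ hy)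
    rwa [star_star] at this

theorem Adj_le_Vw {P : VonNeumannAlgebra H} {w x : H →L[ℂ] H} (hx : x ∈ Adj P w) :
    x ∈ Vw P w := Adj_le (P_le_Vw P w) (self_mem_Vw P w) hx

/-! ### Facts on the Cayley transform in von Neumann algebras -/

theorem mem_vn_of_commute {V : VonNeumannAlgebra H} {x : H →L[ℂ] H}
    (h : ∀ z ∈ V.commutant, z * x = x * z) : x ∈ V := by
  rw [← VonNeumannAlgebra.commutant_commutant V, VonNeumannAlgebra.mem_commutant_iff]
  exact h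

theorem res_mem_vn_iff {V : VonNeumannAlgebra H} {X : H →L[ℂ] H} (hX : IsSelfAdjoint X) :
    res X ∈ V ↔ X ∈ V := by
  have h1 := CB.res_mul hX
  have h2 := CB.mul_res hX
  constructor
  · intro h
    have key : (1 - Complex.I • X) ∈ V := by
      refine mem_vn_of_commute fun z hz => ?_
      have hc : res X * z = z * res X := (VonNeumannAlgebra.mem_commutant_iff.1 hz) _ h
      calc z * (1 - Complex.I • X) = ((1 - Complex.I • X) * res X) * z * (1 - Complex.I • X) := by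
            rw [h2, one_mul]
        _ = (1 - Complex.I • X) * z * (res X * (1 - Complex.I • X)) := by
            rw [mul_assoc (1 - Complex.I • X), hc]; simp only [mul_assoc]
        _ = (1 - Complex.I • X) * z := by rw [h1, mul_one]
    have e : X = (-Complex.I) • (1 - (1 - Complex.I • X)) := by
      rw [sub_sub_cancel, smul_smul]; simp
    rw [e]
    exact smul_mem_vn _ (sub_mem (one_mem _) key)
  · intro h
    refine mem_vn_of_commute fun z hz => ?_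
    have hc : X * z = z * X := (VonNeumannAlgebra.mem_commutant_iff.1 hz) _ h
    have hc' : z * (1 - Complex.I • X) = (1 - Complex.I • X) * z := by
      rw [mul_sub, sub_mul, mul_one, one_mul, mul_smul_comm, smul_mul_assoc, hc]
    calc z * res X = (res X * (1 - Complex.I • X)) * z * res X := by rw [h1, one_mul]
      _ = res X * z * ((1 - Complex.I • X) * res X) := by
          rw [mul_assoc (res X), ← hc']; simp only [mul_assoc]
      _ = res X * z := by rw [h2, mul_one]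

theorem cay_mem_vn_iff {V : VonNeumannAlgebra H} {X : H →L[ℂ] H} (hX : IsSelfAdjoint X) :
    cay X ∈ V ↔ X ∈ V := by
  rw [← res_mem_vn_iff hX, CB.cay_def hX]
  constructor
  · intro h
    have e : res X = (2⁻¹ : ℂ) • (((2 : ℂ) • res X - 1) + 1) := by
      rw [sub_add_cancel, smul_smul]; norm_num
    rw [e]
    exact smul_mem_vn _ (add_mem h (one_mem _))
  · intro h
    exact sub_mem (smul_mem_vn _ h) (one_mem _)

theorem cay_mem_unitary_r2 {X : H →L[ℂ] H} (hX : IsSelfAdjoint X) :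
    cay X ∈ unitary (H →L[ℂ] H) :=
  Unitary.mem_iff.2 ⟨CB.star_cay_mul_cay hX, CB.cay_mul_star_cay hX⟩

theorem N2_cay_sub_le {M : VonNeumannAlgebra H} {ξ : ℕ → H}
    (hξ : IsFaithfulTracialVectorState M ξ) {X Z : H →L[ℂ] H} (hX : X ∈ M) (hZ : Z ∈ M)
    (hXsa : IsSelfAdjoint X) (hZsa : IsSelfAdjoint Z) :
    N2 ξ (cay Z - cay X) ≤ 2 * N2 ξ (Z - X) := by
  have hss := sqSum hξ
  have h1 := CB.cay_add_sub hXsa (hZsa.sub hXsa)
  rw [add_sub_cancel] at h1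
  rw [h1, N2_smul hss]
  have hrX : res X ∈ M := (res_mem_vn_iff hXsa).2 hX
  have hrZ : res Z ∈ M := (res_mem_vn_iff hZsa).2 hZ
  have h2 := N2_mul_mul hξ (a := res Z) (sub_mem hZ hX) hrX
  have h3 : ‖(2 * Complex.I : ℂ)‖ = 2 := by simp
  rw [h3]
  have h4 : 0 ≤ N2 ξ (Z - X) := N2_nonneg _
  have h5 : N2 ξ (res Z * (Z - X) * res X) ≤ N2 ξ (Z - X) := by
    refine h2.trans ?_
    calc ‖res Z‖ * N2 ξ (Z - X) * ‖res X‖ ≤ 1 * N2 ξ (Z - X) * 1 := by
          gcongr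
          · exact CB.norm_res_le hZsa
          · exact CB.norm_res_le hXsa
      _ = N2 ξ (Z - X) := by ring
  linarith

/-! ### Inputs -/

/-- Inputs for the reduction, supplied by the other modules. -/
structure Red2Hyp (M P : VonNeumannAlgebra H) (ξ : ℕ → H) : Prop where
  unitary_approx : ∀ w ∈ M, w ∈ unitary (H →L[ℂ] H) → ∀ ε : ℝ, 0 < ε →
    ∃ z : ℂ, ‖z‖ = 1 ∧ ∃ X ∈ M, IsSelfAdjoint X ∧ N2 ξ (z • cay X - w) < ε
  trunc : ∀ N : VonNeumannAlgebra H, N ≤ M → ∀ R : ℝ, 0 ≤ R → ∀ x ∈ M, IsSelfAdjoint x →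
    ‖x‖ ≤ R → ∀ y ∈ N, IsSelfAdjoint y →
    ∃ y' ∈ N, IsSelfAdjoint y' ∧ ‖y'‖ ≤ R ∧ N2 ξ (y' - x) ≤ N2 ξ (y - x)
  core : ∀ R s0 : ℝ, 0 < s0 → ∃ κ : ℝ, 0 < κ ∧ ∀ y0 ∈ M, IsSelfAdjoint y0 → ‖y0‖ ≤ R →
    s0 ≤ N2 ξ y0 → ∀ X ∈ M, IsSelfAdjoint X → ∀ ε : ℝ, 0 < ε → ∃ Z ∈ M, ∃ Y ∈ M,
      IsSelfAdjoint Z ∧ N2 ξ (Z - X) < ε ∧ N2 ξ Y ≤ 1 ∧ κ ≤ (vectorState ξ (Y * y0)).re ∧
      ∀ N : VonNeumannAlgebra H, P ≤ N → Z ∈ N → Y ∈ N

/-! ### The infimum argument -/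

theorem smul_unitary {z : ℂ} (hz : ‖z‖ = 1) {w : H →L[ℂ] H} (hw : w ∈ unitary (H →L[ℂ] H)) :
    z • w ∈ unitary (H →L[ℂ] H) := by
  rw [Unitary.mem_iff] at hw ⊢
  have hzz : starRingEnd ℂ z * z = 1 := by
    rw [← Complex.normSq_eq_conj_mul_self, Complex.normSq_eq_norm_sq, hz]; simp
  have hzz' : z * starRingEnd ℂ z = 1 := by rw [mul_comm]; exact hzz
  constructor
  · rw [star_smul, smul_mul_smul_comm, hw.1]
    simp only [RCLike.star_def]
    rw [hzz, one_smul]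
  · rw [star_smul, smul_mul_smul_comm, hw.2]
    simp only [RCLike.star_def]
    rw [hzz', one_smul]

theorem smul_mem_iff {V : VonNeumannAlgebra H} {z : ℂ} (hz : z ≠ 0) {x : H →L[ℂ] H} :
    z • x ∈ V ↔ x ∈ V := by
  refine ⟨fun h => ?_, fun h => smul_mem_vn z h⟩
  have := smul_mem_vn (V := V) z⁻¹ h
  rwa [smul_smul, inv_mul_cancel₀ hz, one_smul] at this

/-- one improvement step -/
theorem improve {M P : VonNeumannAlgebra H} {ξ : ℕ → H} (hPM : P ≤ M)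
    (hξ : IsFaithfulTracialVectorState M ξ) (h : Red2Hyp M P ξ)
    {y : H →L[ℂ] H} (hy : y ∈ M) (hysa : IsSelfAdjoint y)
    {R : ℝ} (hR : ‖y‖ ≤ R) {κ s0 : ℝ} (hκ : 0 < κ)
    (hcore : ∀ y0 ∈ M, IsSelfAdjoint y0 → ‖y0‖ ≤ 2 * R →
      s0 ≤ N2 ξ y0 → ∀ X ∈ M, IsSelfAdjoint X → ∀ ε : ℝ, 0 < ε → ∃ Z ∈ M, ∃ Y ∈ M,
      IsSelfAdjoint Z ∧ N2 ξ (Z - X) < ε ∧ N2 ξ Y ≤ 1 ∧ κ ≤ (vectorState ξ (Y * y0)).re ∧
      ∀ N : VonNeumannAlgebra H, P ≤ N → Z ∈ N → Y ∈ N)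
    {w : H →L[ℂ] H} (hw : w ∈ M) (hwu : w ∈ unitary (H →L[ℂ] H)) {x : H →L[ℂ] H}
    (hx : x ∈ Vw P w) (hxsa : IsSelfAdjoint x) (hxR : ‖x‖ ≤ R) (hs0 : s0 ≤ N2 ξ (y - x))
    {ε δ : ℝ} (hε : 0 < ε) (hδ : 0 < δ) :
    ∃ w' ∈ M, w' ∈ unitary (H →L[ℂ] H) ∧ N2 ξ (w' - w) < ε ∧ ∃ x' ∈ Vw P w',
      IsSelfAdjoint x' ∧ ‖x'‖ ≤ R ∧
      N2 ξ (y - x') ≤ Real.sqrt (N2 ξ (y - x) ^ 2 - κ ^ 2) + δ := by
  have hss := sqSum hξ
  have hxM : x ∈ M := Vw_le hPM hw hx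
  -- approximate `x` by a polynomial
  obtain ⟨x1, hx1, hx1x⟩ := exists_near_of_centralizer hss (Adj P w) (Vw_centralizer hx)
    (show 0 < δ / 2 by positivity)
  obtain ⟨B, C, hB, hC, hx1B, hx1M, hlip⟩ := Adj_lip hPM hξ hw hwu hx1
  set ε' : ℝ := min ε (δ / (2 * (C + 1))) with hε'
  have hC1 : 0 < C + 1 := by linarith
  have hε'0 : 0 < ε' := by rw [hε']; positivity
  obtain ⟨z, hz, X, hX, hXsa, hXw⟩ := h.unitary_approx w hw hwu (ε' / 2) (by positivity)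
  have hz0 : z ≠ 0 := by
    intro h0; rw [h0] at hz; simp at hz
  obtain ⟨Z, hZ, Y, hY, hZsa, hZX, hY1, hYk, hYN⟩ := hcore (y - x) (sub_mem hy hxM)
    (hysa.sub hxsa) ((norm_sub_le _ _).trans (by linarith)) hs0 X hX hXsa (ε' / 4)
    (by positivity)
  set w' := z • cay Z with hw'
  have hcZ : cay Z ∈ M := (cay_mem_vn_iff hZsa).2 hZ
  have hcX : cay X ∈ M := (cay_mem_vn_iff hXsa).2 hX
  have hw'M : w' ∈ M := smul_mem_vn z hcZ
  have hw'u : w' ∈ unitary (H →L[ℂ] H) := smul_unitary hz (cay_mem_unitary_r2 hZsa)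
  have hww : N2 ξ (w' - w) < ε' := by
    have h1 : N2 ξ (w' - z • cay X) ≤ 2 * N2 ξ (Z - X) := by
      rw [hw', ← smul_sub, N2_smul hss, hz, one_mul]
      exact N2_cay_sub_le hξ hX hZ hXsa hZsa
    have h2 := N2_triangle hss w' (z • cay X) w
    linarith
  refine ⟨w', hw'M, hw'u, lt_of_lt_of_le hww (min_le_left _ _), ?_⟩
  have hZV : Z ∈ Vw P w' := by
    have h1 := self_mem_Vw P w'
    have h2 : cay Z ∈ Vw P w' := (smul_mem_iff hz0).1 h1
    exact (cay_mem_vn_iff hZsa).1 h2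
  have hYV : Y ∈ Vw P w' := hYN _ (P_le_Vw P w') hZV
  obtain ⟨x2, hx2, _, hx2M, hx21⟩ := hlip w' hw'M hw'u
  have hx2V : x2 ∈ Vw P w' := Adj_le_Vw hx2
  have hx2x : N2 ξ (x2 - x) ≤ δ := by
    have h1 := N2_triangle hss x2 x1 x
    have h2 : C * N2 ξ (w' - w) ≤ δ / 2 := by
      have h3 : N2 ξ (w' - w) ≤ δ / (2 * (C + 1)) := (hww.le).trans (min_le_right _ _)
      have h4 : 0 ≤ N2 ξ (w' - w) := N2_nonneg _
      calc C * N2 ξ (w' - w) ≤ (C + 1) * (δ / (2 * (C + 1))) := by gcongr; linarith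
        _ = δ / 2 := by field_simp
    linarith
  -- the candidate
  set a := x2 + (κ : ℂ) • star Y with ha
  have haV : a ∈ Vw P w' := add_mem hx2V (smul_mem_vn _ (star_mem hYV))
  have haM : a ∈ M := Vw_le hPM hw'M haV
  have hya : N2 ξ (y - a) ≤ Real.sqrt (N2 ξ (y - x) ^ 2 - κ ^ 2) + δ := by
    have e : y - a = ((y - x) - (κ : ℂ) • star Y) - (x2 - x) := by rw [ha]; abel
    rw [e]
    refine (N2_sub_le hss _ _).trans ?_
    gcongr
    apply Real.le_sqrt_of_sq_le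
    have h1 := N2_sub_sq hss ((κ : ℂ) • star Y) (y - x)
    rw [N2_sub_comm] at h1
    rw [h1, N2_smul hss, N2_star hξ hY, star_smul, star_star, smul_mul_assoc, tr_smul hss]
    simp only [RCLike.star_def, Complex.conj_ofReal, Complex.norm_real, Real.norm_eq_abs]
    have h2 : ((κ : ℂ) * tr ξ (Y * (y - x))).re = κ * (tr ξ (Y * (y - x))).re := by
      simp
    rw [h2, abs_of_pos hκ]
    have h3 : κ ≤ (tr ξ (Y * (y - x))).re := hYk
    have h4 : 0 ≤ N2 ξ Y := N2_nonneg _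
    nlinarith [mul_le_mul_of_nonneg_left hY1 hκ.le, mul_nonneg hκ.le h4,
      mul_le_mul_of_nonneg_left h3 hκ.le]
  -- symmetrise
  set b := (2⁻¹ : ℂ) • (a + star a) with hb
  have hbsa : IsSelfAdjoint b := by
    rw [hb]
    have h1 : IsSelfAdjoint (a + star a) := IsSelfAdjoint.add_star_self a
    have h2 : IsSelfAdjoint (2⁻¹ : ℂ) := by
      rw [isSelfAdjoint_iff]; simp
    exact h2.smul h1
  have hbV : b ∈ Vw P w' := smul_mem_vn _ (add_mem haV (star_mem haV))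
  have hyb : N2 ξ (y - b) ≤ N2 ξ (y - a) := by
    have e : y - b = (2⁻¹ : ℂ) • ((y - a) + star (y - a)) := by
      rw [star_sub, hysa.star_eq, hb]
      module
    rw [e, N2_smul hss]
    have h1 := N2_add_le hss (y - a) (star (y - a))
    rw [N2_star hξ (sub_mem hy haM)] at h1
    have h2 : ‖(2⁻¹ : ℂ)‖ = 2⁻¹ := by simp
    rw [h2]
    linarith
  obtain ⟨x', hx', hx'sa, hx'R, hx'y⟩ := h.trunc (Vw P w') (Vw_le hPM hw'M) R
    ((norm_nonneg _).trans hR) y hy hysa hR b hbV hbsa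
  refine ⟨x', hx', hx'sa, hx'R, ?_⟩
  rw [N2_sub_comm]
  refine hx'y.trans ?_
  rw [N2_sub_comm]
  exact hyb.trans hya

/-- infimum argument: near any unitary `w0` there is a unitary `w` with `W*(P, w)` close to `y` -/
theorem exists_near {M P : VonNeumannAlgebra H} {ξ : ℕ → H} (hPM : P ≤ M)
    (hξ : IsFaithfulTracialVectorState M ξ) (h : Red2Hyp M P ξ)
    {y : H →L[ℂ] H} (hy : y ∈ M) (hysa : IsSelfAdjoint y)
    {w0 : H →L[ℂ] H} (hw0 : w0 ∈ M) (hw0u : w0 ∈ unitary (H →L[ℂ] H))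
    {ε η : ℝ} (hε : 0 < ε) (hη : 0 < η) :
    ∃ w ∈ M, w ∈ unitary (H →L[ℂ] H) ∧ N2 ξ (w - w0) < ε ∧ ∃ x ∈ Vw P w, N2 ξ (x - y) < η := by
  have hss := sqSum hξ
  by_contra hcon
  push Not at hcon
  set R := ‖y‖ with hR
  let 𝒯 : Set ℝ := {t | ∃ w ∈ M, w ∈ unitary (H →L[ℂ] H) ∧ N2 ξ (w - w0) < ε ∧
    ∃ x ∈ Vw P w, IsSelfAdjoint x ∧ ‖x‖ ≤ R ∧ N2 ξ (y - x) = t}
  have hne : 𝒯.Nonempty := by
    refine ⟨N2 ξ (y - 0), w0, hw0, hw0u, by simpa using hε, 0, zero_mem _, IsSelfAdjoint.zero _,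
      by simp [hR], rfl⟩
  have hlb : ∀ t ∈ 𝒯, η ≤ t := by
    rintro t ⟨w, hw, hwu, hwε, x, hx, _, _, rfl⟩
    rw [N2_sub_comm]
    exact hcon w hw hwu hwε x hx
  have hbdd : BddBelow 𝒯 := ⟨η, fun t ht => hlb t ht⟩
  set s := sInf 𝒯 with hs
  have hηs : η ≤ s := le_csInf hne hlb
  have hs0 : 0 < s := lt_of_lt_of_le hη hηs
  obtain ⟨κ, hκ, hcore⟩ := h.core (2 * R) η hη
  have hlt : s < Real.sqrt (s ^ 2 + κ ^ 2 / 2) := by
    apply Real.lt_sqrt_of_sq_lt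
    have : 0 < κ ^ 2 := by positivity
    linarith
  obtain ⟨t, ⟨w, hw, hwu, hwε, x, hx, hxsa, hxR, hxt⟩, hts⟩ := exists_lt_of_csInf_lt hne hlt
  have ht0 : 0 ≤ t := by rw [← hxt]; exact N2_nonneg _
  have ht2 : t ^ 2 < s ^ 2 + κ ^ 2 / 2 := by
    have := Real.sq_sqrt (show (0 : ℝ) ≤ s ^ 2 + κ ^ 2 / 2 by positivity)
    rw [← this]
    gcongr
  have hlt2 : Real.sqrt (t ^ 2 - κ ^ 2) < s := by
    rw [Real.sqrt_lt' hs0]
    have : 0 < κ ^ 2 := by positivity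
    linarith
  set δ := (s - Real.sqrt (t ^ 2 - κ ^ 2)) / 2 with hδ
  have hδ0 : 0 < δ := by rw [hδ]; linarith
  have hηx : η ≤ N2 ξ (y - x) := by
    rw [N2_sub_comm]; exact hcon w hw hwu hwε x hx
  obtain ⟨w', hw', hwu', hww', x', hx', hxsa', hxR', hyx'⟩ := improve hPM hξ h hy hysa
    (le_refl R) hκ hcore hw hwu hx hxsa hxR hηx (sub_pos.2 hwε) hδ0
  have hmem : N2 ξ (y - x') ∈ 𝒯 := by
    refine ⟨w', hw', hwu', ?_, x', hx', hxsa', hxR', rfl⟩
    have := N2_triangle hss w' w w0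
    linarith
  have h1 := csInf_le hbdd hmem
  rw [← hs] at h1
  rw [hxt] at hyx'
  linarith

/-! ### Completeness of the unitary group in the 2-norm -/

theorem norm_unitary_le {z : H →L[ℂ] H} (hz : z ∈ unitary (H →L[ℂ] H)) : ‖z‖ ≤ 1 := by
  rcases subsingleton_or_nontrivial (H →L[ℂ] H) with h | h
  · rw [Subsingleton.elim z 0]; simp
  · exact (CStarRing.norm_of_mem_unitary hz).le

theorem isClosed_io_unitary {M : VonNeumannAlgebra H} {ξ : ℕ → H}
    (hξ : IsFaithfulTracialVectorState M ξ) :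
    IsClosed (io (sqSum hξ) '' {w | w ∈ M ∧ w ∈ unitary (H →L[ℂ] H)}) := by
  have hss := sqSum hξ
  refine IsSeqClosed.isClosed ?_
  intro z η hz hzη
  choose w hw hwz using hz
  have hcau : CauchySeq z := hzη.cauchySeq
  have h1 : ∀ ε : ℝ, 0 < ε → ∃ n₀ : ℕ, ∀ m ≥ n₀, ∀ n ≥ n₀, N2 ξ (w m - w n) < ε := by
    intro ε hε
    obtain ⟨n₀, hn⟩ := Metric.cauchySeq_iff.1 hcau ε hε
    refine ⟨n₀, fun m hm n hn' => ?_⟩
    rw [← norm_io hss, map_sub, hwz, hwz, ← dist_eq_norm]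
    exact hn m hm n hn'
  obtain ⟨y, hyM, _, hty, _⟩ := exists_lim_of_cauchy hξ (fun k => (hw k).1)
    (fun k => norm_unitary_le (hw k).2) h1
  have hst := tendsto_N2_star hξ (fun k => (hw k).1) hyM hty
  have e1 := tendsto_N2_mul hξ (C := 1) (fun k => by rw [norm_star]; exact norm_unitary_le (hw k).2)
    (fun k => star_mem (hw k).1) (star_mem hyM) hyM hst hty
  have e2 := tendsto_N2_mul hξ (C := 1) (fun k => norm_unitary_le (hw k).2)
    (fun k => (hw k).1) hyM (star_mem hyM) hty hst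
  have e1' : Tendsto (fun _ : ℕ => N2 ξ (1 - star y * y)) atTop (𝓝 0) := by
    refine e1.congr fun k => ?_
    rw [(Unitary.mem_iff.1 (hw k).2).1]
  have e2' : Tendsto (fun _ : ℕ => N2 ξ (1 - y * star y)) atTop (𝓝 0) := by
    refine e2.congr fun k => ?_
    rw [(Unitary.mem_iff.1 (hw k).2).2]
  have f1 : N2 ξ (1 - star y * y) = 0 := tendsto_nhds_unique tendsto_const_nhds e1'
  have f2 : N2 ξ (1 - y * star y) = 0 := tendsto_nhds_unique tendsto_const_nhds e2'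
  have g1 : 1 = star y * y := eq_of_N2 hξ (one_mem _) (mul_mem (star_mem hyM) hyM) f1
  have g2 : 1 = y * star y := eq_of_N2 hξ (one_mem _) (mul_mem hyM (star_mem hyM)) f2
  refine ⟨y, ⟨hyM, Unitary.mem_iff.2 ⟨g1.symm, g2.symm⟩⟩, ?_⟩
  have h3 : Tendsto z atTop (𝓝 (io hss y)) := by
    rw [tendsto_iff_norm_sub_tendsto_zero]
    refine hty.congr fun k => ?_
    rw [← norm_io hss, map_sub, hwz]
  exact tendsto_nhds_unique h3 hzη

/-! ### The main reduction -/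

/-- the open sets -/
def OO (P : VonNeumannAlgebra H) (ξ : ℕ → H) (y : ℕ → (H →L[ℂ] H)) (j : ℕ) :
    Set (H →L[ℂ] H) :=
  {w | ∃ x ∈ Adj P w, N2 ξ (x - y (Nat.unpair j).1) < 1 / ((Nat.unpair j).2 + 1)}

theorem OO_open {M P : VonNeumannAlgebra H} {ξ : ℕ → H} (hPM : P ≤ M)
    (hξ : IsFaithfulTracialVectorState M ξ) (y : ℕ → (H →L[ℂ] H)) (j : ℕ)
    {w : H →L[ℂ] H} (hw : w ∈ M) (hwu : w ∈ unitary (H →L[ℂ] H)) (hwO : w ∈ OO P ξ y j) :
    ∃ δ : ℝ, 0 < δ ∧ ∀ v ∈ M, v ∈ unitary (H →L[ℂ] H) → N2 ξ (v - w) < δ → v ∈ OO P ξ y j := by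
  obtain ⟨x, hx, hxy⟩ := hwO
  obtain ⟨B, C, hB, hC, hxB, hxM, hlip⟩ := Adj_lip hPM hξ hw hwu hx
  set r := 1 / (((Nat.unpair j).2 : ℝ) + 1) - N2 ξ (x - y (Nat.unpair j).1) with hr
  have hr0 : 0 < r := by rw [hr]; linarith
  have hC1 : 0 < C + 1 := by linarith
  refine ⟨r / (C + 1), by positivity, fun v hv hvu hvw => ?_⟩
  obtain ⟨x', hx', _, _, hxx⟩ := hlip v hv hvu
  refine ⟨x', hx', ?_⟩
  have h1 := N2_triangle (sqSum hξ) x' x (y (Nat.unpair j).1)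
  have h2 : C * N2 ξ (v - w) < r := by
    have h4 : 0 ≤ N2 ξ (v - w) := N2_nonneg _
    calc C * N2 ξ (v - w) ≤ (C + 1) * N2 ξ (v - w) := by gcongr; linarith
      _ < (C + 1) * (r / (C + 1)) := by gcongr
      _ = r := by field_simp
  linarith

theorem gen_iff {M P : VonNeumannAlgebra H} {ξ : ℕ → H} (hPM : P ≤ M)
    (hξ : IsFaithfulTracialVectorState M ξ) {y : ℕ → (H →L[ℂ] H)}
    (hy : ∀ k, y k ∈ M)
    (hyd : ∀ x ∈ M, IsSelfAdjoint x → ∀ ε : ℝ, 0 < ε → ∃ k, N2 ξ (y k - x) < ε)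
    {w : H →L[ℂ] H} (hw : w ∈ M) :
    (∀ N : VonNeumannAlgebra H, P ≤ N → w ∈ N → M ≤ N) ↔ ∀ j, w ∈ OO P ξ y j := by
  constructor
  · intro hN j
    have h1 : M ≤ Vw P w := hN _ (P_le_Vw P w) (self_mem_Vw P w)
    exact exists_near_of_centralizer (sqSum hξ) (Adj P w) (Vw_centralizer (h1 (hy _)))
      (by positivity)
  · intro hO N hPN hwN
    have hVN : Vw P w ≤ N := Vw_le hPN hwN
    have hVM : Vw P w ≤ M := Vw_le hPM hw
    have hsa : ∀ x ∈ M, IsSelfAdjoint x → x ∈ Vw P w := by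
      intro x hx hxsa
      refine mem_of_forall_N2_lt hξ hVM hx fun ε hε => ?_
      obtain ⟨k, hk⟩ := hyd x hx hxsa (ε / 2) (by positivity)
      obtain ⟨m, hm⟩ := exists_nat_one_div_lt (show (0 : ℝ) < ε / 2 by positivity)
      obtain ⟨a, ha, hak⟩ := hO (Nat.pair k m)
      rw [Nat.unpair_pair] at hak
      refine ⟨a, Adj_le_Vw ha, ?_⟩
      have := N2_triangle (sqSum hξ) a (y k) x
      simp only at hak
      linarith
    intro x hx
    apply hVN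
    -- real and imaginary parts
    have hre : (2⁻¹ : ℂ) • (x + star x) ∈ Vw P w := by
      refine hsa _ (smul_mem_vn _ (add_mem hx (star_mem hx))) ?_
      have h2 : IsSelfAdjoint (2⁻¹ : ℂ) := by rw [isSelfAdjoint_iff]; simp
      exact h2.smul (IsSelfAdjoint.add_star_self x)
    have him : (Complex.I * 2⁻¹ : ℂ) • (star x - x) ∈ Vw P w := by
      refine hsa _ (smul_mem_vn _ (sub_mem (star_mem hx) hx)) ?_
      rw [isSelfAdjoint_iff, star_smul, star_sub, star_star]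
      simp only [RCLike.star_def, map_mul, Complex.conj_I, map_inv₀, map_ofNat]
      rw [neg_mul, neg_smul, ← smul_neg, neg_sub]
    have e : x = (2⁻¹ : ℂ) • (x + star x) + Complex.I • ((Complex.I * 2⁻¹ : ℂ) • (star x - x)) := by
      rw [smul_smul, ← mul_assoc, Complex.I_mul_I]
      module
    rw [e]
    exact add_mem hre (smul_mem_vn _ him)

/-- The main reduction: the generating unitaries are a relatively 2-norm dense `G_δ`. -/
theorem red2_main [TopologicalSpace.SeparableSpace H] {M P : VonNeumannAlgebra H} {ξ : ℕ → H}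
    (hPM : P ≤ M) (hξ : IsFaithfulTracialVectorState M ξ) (h : Red2Hyp M P ξ) :
    (∃ O : ℕ → Set (H →L[ℂ] H),
      (∀ k : ℕ, ∀ u ∈ M, u ∈ unitary (H →L[ℂ] H) → u ∈ O k → ∃ δ : ℝ, 0 < δ ∧
        ∀ v ∈ M, v ∈ unitary (H →L[ℂ] H) → Crest.OpAlg.traceNormSq ξ (v - u) < δ → v ∈ O k) ∧
      (∀ u ∈ M, u ∈ unitary (H →L[ℂ] H) →
        ((∀ N : VonNeumannAlgebra H, P ≤ N → u ∈ N → M ≤ N) ↔ ∀ k : ℕ, u ∈ O k))) ∧
    (∀ u ∈ M, u ∈ unitary (H →L[ℂ] H) → ∀ ε : ℝ, 0 < ε →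
      ∃ v ∈ M, v ∈ unitary (H →L[ℂ] H) ∧ (∀ N : VonNeumannAlgebra H, P ≤ N → v ∈ N → M ≤ N) ∧
        Crest.OpAlg.traceNormSq ξ (v - u) < ε) := by
  have hss := sqSum hξ
  obtain ⟨y, hyS, hyd'⟩ := exists_dense_seq_N2 hss {x | x ∈ M ∧ IsSelfAdjoint x}
    ⟨0, zero_mem _, IsSelfAdjoint.zero _⟩
  have hy : ∀ k, y k ∈ M := fun k => (hyS k).1
  have hysa : ∀ k, IsSelfAdjoint (y k) := fun k => (hyS k).2
  have hyd : ∀ x ∈ M, IsSelfAdjoint x → ∀ ε : ℝ, 0 < ε → ∃ k, N2 ξ (y k - x) < ε :=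
    fun x hx hxsa => hyd' x ⟨hx, hxsa⟩
  refine ⟨⟨OO P ξ y, ?_, fun u hu _ => gen_iff hPM hξ hy hyd hu⟩, ?_⟩
  · intro k u hu huu huO
    obtain ⟨δ, hδ, hO⟩ := OO_open hPM hξ y k hu huu huO
    refine ⟨δ ^ 2, by positivity, fun v hv hvu hvuδ => hO v hv hvu ?_⟩
    rw [N2, Real.sqrt_lt' hδ]
    exact hvuδ
  · -- Baire
    intro u hu huu ε hε
    let 𝒰 : Set (L2 H) := io hss '' {w | w ∈ M ∧ w ∈ unitary (H →L[ℂ] H)}
    have hcl : IsClosed 𝒰 := isClosed_io_unitary hξ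
    have hcs : CompleteSpace 𝒰 := hcl.completeSpace_coe
    let G : ℕ → Set 𝒰 := fun j => {η | ∃ w ∈ M, w ∈ unitary (H →L[ℂ] H) ∧ io hss w = η ∧
      w ∈ OO P ξ y j}
    have hinj : ∀ w ∈ M, ∀ w' ∈ M, io hss w = io hss w' → w = w' := by
      intro w hw w' hw' he
      refine eq_of_N2 hξ hw hw' ?_
      rw [← norm_io hss, map_sub, he, sub_self, norm_zero]
    have hGo : ∀ j, IsOpen (G j) := by
      intro j
      rw [Metric.isOpen_iff]
      rintro ⟨η, hη⟩ ⟨w, hw, hwu, hwη, hwO⟩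
      obtain ⟨δ, hδ, hO⟩ := OO_open hPM hξ y j hw hwu hwO
      refine ⟨δ, hδ, ?_⟩
      rintro ⟨η', v, ⟨hv, hvu⟩, rfl⟩ hη'
      refine ⟨v, hv, hvu, rfl, hO v hv hvu ?_⟩
      rw [Metric.mem_ball, Subtype.dist_eq, dist_eq_norm] at hη'
      rw [← norm_io hss, map_sub, hwη]
      exact hη'
    have hGd : ∀ j, Dense (G j) := by
      intro j
      rw [Metric.dense_iff]
      rintro ⟨η, w0, ⟨hw0, hw0u⟩, rfl⟩ r hr
      obtain ⟨w, hw, hwu, hwr, x, hx, hxy⟩ := exists_near hPM hξ h (hy (Nat.unpair j).1)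
        (hysa _) hw0 hw0u hr (show (0 : ℝ) < 1 / ((Nat.unpair j).2 + 1) / 2 by positivity)
      obtain ⟨x1, hx1, hx1x⟩ := exists_near_of_centralizer hss (Adj P w) (Vw_centralizer hx)
        (show (0 : ℝ) < 1 / ((Nat.unpair j).2 + 1) / 2 by positivity)
      refine ⟨⟨io hss w, w, ⟨hw, hwu⟩, rfl⟩, ?_, w, hw, hwu, rfl, x1, hx1, ?_⟩
      · rw [Metric.mem_ball, Subtype.dist_eq, dist_eq_norm]
        change ‖io hss w - io hss w0‖ < r
        rw [← map_sub, norm_io hss]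
        exact hwr
      · have := N2_triangle hss x1 x (y (Nat.unpair j).1)
        linarith
    have hdense : Dense (⋂ j, G j) := dense_iInter_of_isOpen_nat hGo hGd
    rw [Metric.dense_iff] at hdense
    obtain ⟨⟨η, w, ⟨hw, hwu⟩, rfl⟩, hηb, hηG⟩ := hdense ⟨io hss u, u, ⟨hu, huu⟩, rfl⟩
      (Real.sqrt ε) (Real.sqrt_pos.2 hε)
    refine ⟨w, hw, hwu, ?_, ?_⟩
    · refine (gen_iff hPM hξ hy hyd hw).2 fun j => ?_
      obtain ⟨w', hw', hwu', hww', hO⟩ := Set.mem_iInter.1 hηG j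
      have : w' = w := hinj w' hw' w hw hww'
      rwa [this] at hO
    · rw [Metric.mem_ball, Subtype.dist_eq, dist_eq_norm] at hηb
      change ‖io hss w - io hss u‖ < _ at hηb
      rw [← map_sub, norm_io hss, N2, Real.sqrt_lt_sqrt_iff (traceNormSq_nonneg _)] at hηb
      exact hηb

end Crest.Agent.R95
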