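import Mathlib
import Crest.Prelude.Def_VNFactor
import Crest.Agent.R95.Defs

/-!
R95 (helper761): reduction of S0125 to the density statement for `Q = M ∩ {u 0, v 0}'`.
-/

set_option autoImplicit false

namespace Crest.Agent.R95

open scoped InnerProductSpace
open Filter Topology

variable {H : Type*} [NormedAddCommGroup H] [InnerProductSpace ℂ H] [CompleteSpace H]

/-- if `t` commutes with `z + r`, `z² = 1`, `z r = r z`, `‖r‖ < 1`, then `t` commutes with `z`. -/
theorem comm_of_comm_add {z r t : H →L[ℂ] H} (hz : z * z = 1) (hzr : z * r = r * z)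
    (hr : ‖r‖ < 1) (ht : t * (z + r) = (z + r) * t) : t * z = z * t := by
  have key : ∀ z' : H →L[ℂ] H, z' * z' = 1 → z' * r = r * z' →
      (t * (z' + r) = (z' + r) * t ∨ t * (-z' + r) = (-z' + r) * t) →
      (1 + z') * t * (1 - z') = 0 := by
    intro z' hz' hzr' ht'
    set s := (1 + z') * t * (1 - z') with hs
    have h1 : z' * s = s := by
      rw [hs]
      have : z' * (1 + z') = 1 + z' := by rw [mul_add, mul_one, hz', add_comm]
      rw [← mul_assoc, ← mul_assoc, this]
    have h2 : s * z' = -s := by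
      rw [hs, mul_assoc]
      have : (1 - z') * z' = -(1 - z') := by rw [sub_mul, one_mul, hz']; abel
      rw [this, mul_neg]
    have hr1 : (1 + z') * r = r * (1 + z') := by rw [add_mul, mul_add, one_mul, mul_one, hzr']
    have hr2 : (1 - z') * r = r * (1 - z') := by rw [sub_mul, mul_sub, one_mul, mul_one, hzr']
    have hz1 : (1 + z') * z' = z' * (1 + z') := by rw [add_mul, mul_add, one_mul, mul_one]
    have hz2 : (1 - z') * z' = z' * (1 - z') := by rw [sub_mul, mul_sub, one_mul, mul_one]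
    have h3 : (2 : ℂ) • s = s * r - r * s ∨ (2 : ℂ) • s = r * s - s * r := by
      rcases ht' with ht' | ht'
      · left
        have e : s * (z' + r) = (z' + r) * s := by
          calc s * (z' + r) = (1 + z') * t * ((1 - z') * (z' + r)) := by rw [hs, mul_assoc]
            _ = (1 + z') * t * ((z' + r) * (1 - z')) := by
                rw [mul_add (1 - z'), add_mul z' r, hz2, hr2]
            _ = (1 + z') * (t * (z' + r)) * (1 - z') := by simp only [mul_assoc]
            _ = (1 + z') * ((z' + r) * t) * (1 - z') := by rw [ht']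
            _ = ((1 + z') * (z' + r)) * t * (1 - z') := by simp only [mul_assoc]
            _ = ((z' + r) * (1 + z')) * t * (1 - z') := by
                rw [mul_add (1 + z'), add_mul z' r, hz1, hr1]
            _ = (z' + r) * s := by rw [hs]; simp only [mul_assoc]
        rw [mul_add, add_mul, h1, h2] at e
        rw [two_smul]
        have e' : s + s = (s + r * s) - r * s + s := by abel
        rw [e', ← e]; abel
      · right
        have e : s * (-z' + r) = (-z' + r) * s := by
          calc s * (-z' + r) = (1 + z') * t * ((1 - z') * (-z' + r)) := by rw [hs, mul_assoc]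
            _ = (1 + z') * t * ((-z' + r) * (1 - z')) := by
                rw [mul_add (1 - z'), add_mul (-z') r, mul_neg, neg_mul, hz2, hr2]
            _ = (1 + z') * (t * (-z' + r)) * (1 - z') := by simp only [mul_assoc]
            _ = (1 + z') * ((-z' + r) * t) * (1 - z') := by rw [ht']
            _ = ((1 + z') * (-z' + r)) * t * (1 - z') := by simp only [mul_assoc]
            _ = ((-z' + r) * (1 + z')) * t * (1 - z') := by
                rw [mul_add (1 + z'), add_mul (-z') r, mul_neg, neg_mul, hz1, hr1]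
            _ = (-z' + r) * s := by rw [hs]; simp only [mul_assoc]
        rw [mul_add, add_mul, mul_neg, neg_mul, h1, h2] at e
        rw [two_smul]
        have e' : s + s = (- -s + s * r) - s * r + s := by abel
        rw [e', e]; abel
    have h4 : 2 * ‖s‖ ≤ 2 * ‖r‖ * ‖s‖ := by
      have e1 : ‖(2 : ℂ) • s‖ = 2 * ‖s‖ := by rw [norm_smul]; norm_num
      have e2 : ‖s * r‖ ≤ ‖r‖ * ‖s‖ := (norm_mul_le _ _).trans (by rw [mul_comm])
      have e3 : ‖r * s‖ ≤ ‖r‖ * ‖s‖ := norm_mul_le _ _
      rcases h3 with h3 | h3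
      · rw [← e1, h3]
        exact (norm_sub_le _ _).trans (by linarith)
      · rw [← e1, h3]
        exact (norm_sub_le _ _).trans (by linarith)
    have h5 : ‖s‖ ≤ 0 := by
      by_contra h
      push Not at h
      nlinarith
    exact norm_le_zero_iff.1 h5
  have k1 := key z hz hzr (Or.inl ht)
  have k2 := key (-z) (by rw [neg_mul_neg, hz]) (by rw [neg_mul, mul_neg, hzr])
    (Or.inr (by rw [neg_neg]; exact ht))
  have k3 : (2 : ℂ) • (t * z) = (2 : ℂ) • (z * t) := by
    rw [two_smul, two_smul]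
    have e1 : (1 + z) * t * (1 - z) = t - t * z + z * t - z * t * z := by
      rw [add_mul, one_mul, add_mul, mul_sub, mul_sub, mul_one, mul_one]; abel
    have e2 : (1 + -z) * t * (1 - -z) = t + t * z - z * t - z * t * z := by
      rw [sub_neg_eq_add, add_mul, one_mul, add_mul, mul_add, mul_add, mul_one, mul_one, neg_mul,
        neg_mul]; abel
    rw [e1] at k1
    rw [e2] at k2
    have e3 : t * z + t * z = (t + t * z - z * t - z * t * z) - (t - t * z + z * t - z * t * z)
        + (z * t + z * t) := by abel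
    rw [e3, k1, k2]; abel
  exact smul_right_injective _ (two_ne_zero) k3

theorem vn_mem_of_comm {M : VonNeumannAlgebra H} {x : H →L[ℂ] H}
    (h : ∀ y ∈ M.commutant, y * x = x * y) : x ∈ M := by
  rw [← VonNeumannAlgebra.commutant_commutant M, VonNeumannAlgebra.mem_commutant_iff]
  exact h

theorem vn_comm_of_mem {M : VonNeumannAlgebra H} {x y : H →L[ℂ] H}
    (hx : x ∈ M) (hy : y ∈ M.commutant) : x * y = y * x := by
  rw [VonNeumannAlgebra.mem_commutant_iff] at hy
  exact hy x hx

theorem vn_smul_mem {M : VonNeumannAlgebra H} {x : H →L[ℂ] H} (c : ℂ) (hx : x ∈ M) :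
    c • x ∈ M := by
  apply vn_mem_of_comm
  intro y hy
  rw [smul_mul_assoc, mul_smul_comm, vn_comm_of_mem hx hy]

theorem vn_recover {N : VonNeumannAlgebra H} {z r : H →L[ℂ] H} (hz : z * z = 1)
    (hzr : z * r = r * z) (hr : ‖r‖ < 1) (h : z + r ∈ N) : z ∈ N ∧ r ∈ N := by
  have h1 : z ∈ N := by
    apply vn_mem_of_comm
    intro y hy
    exact comm_of_comm_add hz hzr hr (vn_comm_of_mem h hy).symm
  refine ⟨h1, ?_⟩
  have := sub_mem h h1
  simpa using this

/-- norm of a selfadjoint unitary is at most one -/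
theorem norm_le_one_of_sa_sq {z : H →L[ℂ] H} (hsa : IsSelfAdjoint z) (hz : z * z = 1) :
    ‖z‖ ≤ 1 := by
  have h1 : ‖z‖ * ‖z‖ = ‖z * z‖ := by
    have := CStarRing.norm_star_mul_self (x := z)
    rw [hsa.star_eq] at this
    exact this.symm
  have h2 : ‖(1 : H →L[ℂ] H)‖ ≤ 1 := ContinuousLinearMap.norm_id_le
  rw [hz] at h1
  nlinarith [norm_nonneg z]

/-- the weighted tail sum -/
noncomputable def tailSum (u : ℕ → H →L[ℂ] H) (m : ℕ) : H →L[ℂ] H :=
  ∑' j : ℕ, ((1 / 3 : ℂ) ^ j) • u (m + j)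

section tail

variable {u : ℕ → H →L[ℂ] H}

theorem tail_summable (hu : ∀ j, ‖u j‖ ≤ 1) (m : ℕ) :
    Summable fun j : ℕ => ((1 / 3 : ℂ) ^ j) • u (m + j) := by
  refine Summable.of_norm_bounded (g := fun j : ℕ => ((1 / 3 : ℝ)) ^ j)
    (summable_geometric_of_lt_one (by norm_num) (by norm_num)) fun j => ?_
  rw [norm_smul, norm_pow]
  have : ‖(1 / 3 : ℂ)‖ = 1 / 3 := by norm_num
  rw [this]
  exact mul_le_of_le_one_right (by positivity) (hu _)

theorem norm_tailSum_le (hu : ∀ j, ‖u j‖ ≤ 1) (m : ℕ) : ‖tailSum u m‖ ≤ 3 / 2 := by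
  have h : HasSum (fun j : ℕ => ((1 / 3 : ℝ)) ^ j) (3 / 2) := by
    have := hasSum_geometric_of_lt_one (r := (1 / 3 : ℝ)) (by norm_num) (by norm_num)
    convert this using 1
    norm_num
  refine tsum_of_norm_bounded h fun j => ?_
  rw [norm_smul, norm_pow]
  have : ‖(1 / 3 : ℂ)‖ = 1 / 3 := by norm_num
  rw [this]
  exact mul_le_of_le_one_right (by positivity) (hu _)

theorem tailSum_succ (hu : ∀ j, ‖u j‖ ≤ 1) (m : ℕ) :
    tailSum u m = u m + (1 / 3 : ℂ) • tailSum u (m + 1) := by
  unfold tailSum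
  rw [(tail_summable hu m).tsum_eq_zero_add, ← (tail_summable hu (m + 1)).tsum_const_smul]
  simp only [pow_zero, one_smul, add_zero]
  congr 1
  refine tsum_congr fun j => ?_
  rw [smul_smul, pow_succ', show m + (j + 1) = m + 1 + j by ring]

theorem comm_tailSum (hu : ∀ j, ‖u j‖ ≤ 1) {m : ℕ} {y : H →L[ℂ] H}
    (h : ∀ j, m ≤ j → y * u j = u j * y) : y * tailSum u m = tailSum u m * y := by
  unfold tailSum
  rw [← (tail_summable hu m).tsum_mul_left, ← (tail_summable hu m).tsum_mul_right]
  refine tsum_congr fun j => ?_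
  rw [mul_smul_comm, smul_mul_assoc, h _ (Nat.le_add_right _ _)]

theorem tailSum_mem (hu : ∀ j, ‖u j‖ ≤ 1) {M : VonNeumannAlgebra H} (m : ℕ)
    (h : ∀ j, u j ∈ M) : tailSum u m ∈ M := by
  apply vn_mem_of_comm
  intro y hy
  exact comm_tailSum hu fun j _ => (vn_comm_of_mem (h j) hy).symm

theorem tailSum_sa (hsa : ∀ j, IsSelfAdjoint (u j)) (m : ℕ) :
    IsSelfAdjoint (tailSum u m) := by
  unfold tailSum
  rw [isSelfAdjoint_iff, tsum_star]
  refine tsum_congr fun j => ?_
  rw [star_smul, (hsa _).star_eq]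
  congr 1
  simp

/-- a von Neumann algebra containing a tail sum contains all its terms -/
theorem mem_of_tailSum_mem (hsa : ∀ j, IsSelfAdjoint (u j)) (hsq : ∀ j, u j * u j = 1)
    (hcomm : ∀ i j, i ≠ j → u i * u j = u j * u i) {N : VonNeumannAlgebra H} {m : ℕ}
    (h : tailSum u m ∈ N) : ∀ j, u (m + j) ∈ N := by
  have hu : ∀ j, ‖u j‖ ≤ 1 := fun j => norm_le_one_of_sa_sq (hsa j) (hsq j)
  have key : ∀ m, tailSum u m ∈ N → u m ∈ N ∧ tailSum u (m + 1) ∈ N := by
    intro m hm
    rw [tailSum_succ hu] at hm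
    have hc : u m * ((1 / 3 : ℂ) • tailSum u (m + 1)) = ((1 / 3 : ℂ) • tailSum u (m + 1)) * u m := by
      rw [mul_smul_comm, smul_mul_assoc]
      congr 1
      exact comm_tailSum hu fun j hj => hcomm m j (by omega)
    have hn : ‖(1 / 3 : ℂ) • tailSum u (m + 1)‖ < 1 := by
      rw [norm_smul]
      have h1 : ‖(1 / 3 : ℂ)‖ = 1 / 3 := by norm_num
      have h2 := norm_tailSum_le hu (m + 1)
      rw [h1]; linarith
    obtain ⟨h1, h2⟩ := vn_recover (hsq m) hc hn hm
    refine ⟨h1, ?_⟩
    have := vn_smul_mem (3 : ℂ) h2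
    rw [smul_smul] at this
    norm_num at this
    exact this
  have all : ∀ j, tailSum u (m + j) ∈ N := by
    intro j
    induction j with
    | zero => simpa using h
    | succ j ih => exact (key _ ih).2
  exact fun j => (key _ (all j)).1

end tail

/-- **RED3**: single generation of `M` from the density statement for `M ∩ {u 0, v 0}'`. -/
theorem single_gen_of_density {M : VonNeumannAlgebra H} {u v : ℕ → H →L[ℂ] H}
    (h : HasPauli M u v)
    (hd : ∃ w ∈ M, w ∈ unitary (H →L[ℂ] H) ∧ w * u 0 = u 0 * w ∧ w * v 0 = v 0 * w ∧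
      ∀ N : VonNeumannAlgebra H, (∀ j, u (1 + j) ∈ N ∧ v (1 + j) ∈ N) → w ∈ N →
        ∀ y ∈ M, y * u 0 = u 0 * y → y * v 0 = v 0 * y → y ∈ N) :
    ∃ x ∈ M, ∀ N : VonNeumannAlgebra H, x ∈ N → M ≤ N := by
  obtain ⟨w, hwM, hwU, hwZ, hwX, hgen⟩ := hd
  obtain ⟨h1, h2⟩ := h
  have husa : ∀ j, IsSelfAdjoint (u j) := fun j => (h1 j).2.2.1
  have hvsa : ∀ j, IsSelfAdjoint (v j) := fun j => (h1 j).2.2.2.1
  have husq : ∀ j, u j * u j = 1 := fun j => (h1 j).2.2.2.2.1
  have hvsq : ∀ j, v j * v j = 1 := fun j => (h1 j).2.2.2.2.2.1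
  have hun : ∀ j, ‖u j‖ ≤ 1 := fun j => norm_le_one_of_sa_sq (husa j) (husq j)
  have hvn : ∀ j, ‖v j‖ ≤ 1 := fun j => norm_le_one_of_sa_sq (hvsa j) (hvsq j)
  set Z := u 0 with hZdef
  set X := v 0 with hXdef
  have hZM : Z ∈ M := (h1 0).1
  have hXM : X ∈ M := (h1 0).2.1
  have hZX : Z * X = -(X * Z) := (h1 0).2.2.2.2.2.2
  have hXX : X * X = 1 := hvsq 0
  have hZsa : star Z = Z := (husa 0).star_eq
  have hXsa : star X = X := (hvsa 0).star_eq
  have hZZ : Z * Z = 1 := husq 0
  set e : H →L[ℂ] H := (1 / 2 : ℂ) • (1 + Z) with he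
  set f : H →L[ℂ] H := (1 / 2 : ℂ) • (1 - Z) with hf
  have hef1 : e + f = 1 := by
    rw [he, hf, ← smul_add]
    have : (1 + Z + (1 - Z)) = (2 : ℂ) • (1 : H →L[ℂ] H) := by rw [two_smul]; abel
    rw [this, smul_smul]; norm_num
  have hZef : Z = e - f := by
    rw [he, hf, ← smul_sub]
    have : (1 + Z - (1 - Z)) = (2 : ℂ) • Z := by rw [two_smul]; abel
    rw [this, smul_smul]; norm_num
  have hf' : f = 1 - e := eq_sub_of_add_eq' hef1
  have hee : e * e = e := by
    rw [he, smul_mul_smul_comm, add_mul, mul_add, mul_add]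
    simp only [one_mul, mul_one, hZZ]
    have : (1 + Z + (Z + 1)) = (2 : ℂ) • (1 + Z) := by rw [two_smul]; abel
    rw [this, smul_smul]; norm_num
  have hef : e * f = 0 := by rw [hf', mul_sub, mul_one, hee, sub_self]
  have hfe : f * e = 0 := by rw [hf', sub_mul, one_mul, hee, sub_self]
  have hff : f * f = f := by rw [hf', mul_sub, sub_mul, sub_mul, one_mul, hee]; simp
  have hXe : X * e = f * X := by
    rw [he, hf, mul_smul_comm, smul_mul_assoc, mul_add, sub_mul, hZX]; simp
  have hXf : X * f = e * X := by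
    rw [he, hf, mul_smul_comm, smul_mul_assoc, mul_sub, add_mul, hZX]; simp [sub_eq_add_neg]
  have hee' : ∀ t, e * (e * t) = e * t := fun t => by rw [← mul_assoc, hee]
  have hef' : ∀ t, e * (f * t) = 0 := fun t => by rw [← mul_assoc, hef, zero_mul]
  have hfe' : ∀ t, f * (e * t) = 0 := fun t => by rw [← mul_assoc, hfe, zero_mul]
  have hff' : ∀ t, f * (f * t) = f * t := fun t => by rw [← mul_assoc, hff]
  have hXe' : ∀ t, X * (e * t) = f * (X * t) := fun t => by
    rw [← mul_assoc, hXe, mul_assoc]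
  have hXf' : ∀ t, X * (f * t) = e * (X * t) := fun t => by
    rw [← mul_assoc, hXf, mul_assoc]
  have hXX' : ∀ t, X * (X * t) = t := fun t => by rw [← mul_assoc, hXX, one_mul]
  have hesa : star e = e := by
    rw [he, star_smul, star_add, star_one, hZsa]; simp
  have hfsa : star f = f := by rw [hf', star_sub, star_one, hesa]
  have heM : e ∈ M := vn_smul_mem _ (add_mem (one_mem _) hZM)
  have hfM : f ∈ M := vn_smul_mem _ (sub_mem (one_mem _) hZM)
  have hen : ‖e‖ ≤ 1 := by
    rw [he, norm_smul]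
    have h2' : ‖(1 : H →L[ℂ] H)‖ ≤ 1 := ContinuousLinearMap.norm_id_le
    have h3' : ‖(1 : H →L[ℂ] H) + Z‖ ≤ 2 := (norm_add_le _ _).trans (by linarith [hun 0])
    have h4' : ‖(1 / 2 : ℂ)‖ = 1 / 2 := by norm_num
    rw [h4']; linarith
  have hfn : ‖f‖ ≤ 1 := by
    rw [hf, norm_smul]
    have h2' : ‖(1 : H →L[ℂ] H)‖ ≤ 1 := ContinuousLinearMap.norm_id_le
    have h3' : ‖(1 : H →L[ℂ] H) - Z‖ ≤ 2 := (norm_sub_le _ _).trans (by linarith [hun 0])
    have h4' : ‖(1 / 2 : ℂ)‖ = 1 / 2 := by norm_num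
    rw [h4']; linarith
  -- the four selfadjoint generators of `Q`
  have hwn : ‖w‖ ≤ 1 := by
    have hw1 := CStarRing.norm_star_mul_self (x := w)
    rw [Unitary.star_mul_self_of_mem hwU] at hw1
    have h2' : ‖(1 : H →L[ℂ] H)‖ ≤ 1 := ContinuousLinearMap.norm_id_le
    nlinarith [norm_nonneg w]
  have hwsn : ‖star w‖ ≤ 1 := by rw [norm_star]; exact hwn
  have hcommstar : ∀ a : H →L[ℂ] H, IsSelfAdjoint a → w * a = a * w → star w * a = a * star w := by
    intro a ha hwa
    have := congrArg star hwa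
    rw [star_mul, star_mul, ha.star_eq] at this
    exact this.symm
  have hwsZ : star w * Z = Z * star w := hcommstar Z (husa 0) hwZ
  have hwsX : star w * X = X * star w := hcommstar X (hvsa 0) hwX
  set b1 := tailSum u 1 with hb1
  set b2 := tailSum v 1 with hb2
  set b3 : H →L[ℂ] H := (1 / 2 : ℂ) • (w + star w) with hb3
  set b4 : H →L[ℂ] H := (-(Complex.I / 2) : ℂ) • (w - star w) with hb4
  have hb1Z : b1 * Z = Z * b1 := (comm_tailSum hun fun j hj => (h2 0 j (by omega)).1).symm
  have hb1X : b1 * X = X * b1 := by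
    refine (comm_tailSum hun fun j hj => ?_).symm
    exact ((h2 j 0 (by omega)).2.1).symm
  have hb2Z : b2 * Z = Z * b2 := (comm_tailSum hvn fun j hj => (h2 0 j (by omega)).2.1).symm
  have hb2X : b2 * X = X * b2 := (comm_tailSum hvn fun j hj => (h2 0 j (by omega)).2.2).symm
  have hb3Z : b3 * Z = Z * b3 := by
    rw [hb3, smul_mul_assoc, mul_smul_comm, add_mul, mul_add, hwZ, hwsZ]
  have hb3X : b3 * X = X * b3 := by
    rw [hb3, smul_mul_assoc, mul_smul_comm, add_mul, mul_add, hwX, hwsX]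
  have hb4Z : b4 * Z = Z * b4 := by
    rw [hb4, smul_mul_assoc, mul_smul_comm, sub_mul, mul_sub, hwZ, hwsZ]
  have hb4X : b4 * X = X * b4 := by
    rw [hb4, smul_mul_assoc, mul_smul_comm, sub_mul, mul_sub, hwX, hwsX]
  have comme : ∀ b : H →L[ℂ] H, b * Z = Z * b → b * e = e * b := by
    intro b hb
    rw [he, mul_smul_comm, smul_mul_assoc, mul_add, add_mul, hb, one_mul, mul_one]
  have commf : ∀ b : H →L[ℂ] H, b * Z = Z * b → b * f = f * b := by
    intro b hb
    rw [hf, mul_smul_comm, smul_mul_assoc, mul_sub, sub_mul, hb, one_mul, mul_one]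
  have hb1M : b1 ∈ M := tailSum_mem hun 1 fun j => (h1 j).1
  have hb2M : b2 ∈ M := tailSum_mem hvn 1 fun j => (h1 j).2.1
  have hwsM : star w ∈ M := star_mem hwM
  have hb3M : b3 ∈ M := vn_smul_mem _ (add_mem hwM hwsM)
  have hb4M : b4 ∈ M := vn_smul_mem _ (sub_mem hwM hwsM)
  have hb1sa : star b1 = b1 := (tailSum_sa husa 1).star_eq
  have hb2sa : star b2 = b2 := (tailSum_sa hvsa 1).star_eq
  have hb3sa : star b3 = b3 := by
    rw [hb3, star_smul, star_add, star_star, add_comm]; simp
  have hb4sa : star b4 = b4 := by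
    rw [hb4, star_smul, star_sub, star_star]
    simp only [star_neg, RCLike.star_def, map_div₀, Complex.conj_I, map_ofNat]
    rw [← neg_sub w (star w), smul_neg, ← neg_smul]
    congr 1; ring
  have hb3n : ‖b3‖ ≤ 1 := by
    rw [hb3, norm_smul]
    have h3' : ‖w + star w‖ ≤ 2 := (norm_add_le _ _).trans (by linarith)
    have h4' : ‖(1 / 2 : ℂ)‖ = 1 / 2 := by norm_num
    rw [h4']; linarith
  have hb4n : ‖b4‖ ≤ 1 := by
    rw [hb4, norm_smul]
    have h3' : ‖w - star w‖ ≤ 2 := (norm_sub_le _ _).trans (by linarith)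
    have h4' : ‖(-(Complex.I / 2) : ℂ)‖ = 1 / 2 := by simp
    rw [h4']; linarith
  have hw34 : w = b3 + Complex.I • b4 := by
    rw [hb3, hb4, smul_smul]
    have : Complex.I * -(Complex.I / 2) = 1 / 2 := by
      have := Complex.I_mul_I
      linear_combination (-1 / 2 : ℂ) * this
    rw [this, ← smul_add]
    have : w + star w + (w - star w) = (2 : ℂ) • w := by rw [two_smul]; abel
    rw [this, smul_smul]; norm_num
  -- the two selfadjoint generators of `M`
  set r : H →L[ℂ] H := (1 / 4 : ℂ) • (e * b3 - f * b4) with hr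
  set T1 : H →L[ℂ] H := Z + r with hT1
  set T2 : H →L[ℂ] H := X + (e * b1 + f * b2) with hT2
  have hrM : r ∈ M := vn_smul_mem _ (sub_mem (mul_mem heM hb3M) (mul_mem hfM hb4M))
  have hT1M : T1 ∈ M := add_mem hZM hrM
  have hT2M : T2 ∈ M := add_mem hXM (add_mem (mul_mem heM hb1M) (mul_mem hfM hb2M))
  have hT1sa : star T1 = T1 := by
    rw [hT1, hr, star_add, hZsa, star_smul, star_sub, star_mul, star_mul, hesa, hfsa,
      hb3sa, hb4sa, comme b3 hb3Z, commf b4 hb4Z]
    simp
  have hT2sa : star T2 = T2 := by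
    rw [hT2, star_add, star_add, hXsa, star_mul, star_mul, hesa, hfsa,
      hb1sa, hb2sa, comme b1 hb1Z, commf b2 hb2Z]
  have hrn : ‖r‖ < 1 := by
    rw [hr, norm_smul]
    have h4' : ‖(1 / 4 : ℂ)‖ = 1 / 4 := by norm_num
    have h5' : ‖e * b3‖ ≤ 1 := (norm_mul_le _ _).trans (mul_le_one₀ hen (norm_nonneg _) hb3n)
    have h6' : ‖f * b4‖ ≤ 1 := (norm_mul_le _ _).trans (mul_le_one₀ hfn (norm_nonneg _) hb4n)
    have h7' := norm_sub_le (e * b3) (f * b4)
    rw [h4']; linarith
  have hZr : Z * r = r * Z := by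
    have k1 : Z * (e * b3) = (e * b3) * Z := by
      rw [← mul_assoc, comme Z rfl, mul_assoc, mul_assoc, hb3Z]
    have k2 : Z * (f * b4) = (f * b4) * Z := by
      rw [← mul_assoc, commf Z rfl, mul_assoc, mul_assoc, hb4Z]
    rw [hr, mul_smul_comm (1 / 4 : ℂ) Z, smul_mul_assoc (1 / 4 : ℂ) (e * b3 - f * b4) Z, mul_sub,
      sub_mul, k1, k2]
  refine ⟨T1 + Complex.I • T2, add_mem hT1M (vn_smul_mem _ hT2M), fun N hxN => ?_⟩
  -- recover everything in `N`
  have hxsN : T1 - Complex.I • T2 ∈ N := by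
    have := star_mem hxN
    rw [star_add, star_smul, hT1sa, hT2sa] at this
    simpa [sub_eq_add_neg] using this
  have hT1N : T1 ∈ N := by
    have := vn_smul_mem (1 / 2 : ℂ) (add_mem hxN hxsN)
    have e1 : T1 + Complex.I • T2 + (T1 - Complex.I • T2) = (2 : ℂ) • T1 := by
      rw [two_smul]; abel
    rw [e1, smul_smul] at this
    norm_num at this
    exact this
  have hT2N : T2 ∈ N := by
    have := vn_smul_mem (-Complex.I : ℂ) (sub_mem hxN hT1N)
    have e1 : T1 + Complex.I • T2 - T1 = Complex.I • T2 := by abel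
    rw [e1, smul_smul] at this
    simpa using this
  obtain ⟨hZN, hrN⟩ := vn_recover hZZ hZr hrn hT1N
  have heN : e ∈ N := vn_smul_mem _ (add_mem (one_mem _) hZN)
  have hfN : f ∈ N := vn_smul_mem _ (sub_mem (one_mem _) hZN)
  have heb3N : e * b3 ∈ N := by
    have := vn_smul_mem (4 : ℂ) (mul_mem heN hrN)
    have e1 : (4 : ℂ) • (e * r) = e * b3 := by
      rw [hr, mul_smul_comm, smul_smul, mul_sub, hee', hef']; norm_num
    rwa [e1] at this
  have hfb4N : f * b4 ∈ N := by
    have := vn_smul_mem (-4 : ℂ) (mul_mem hfN hrN)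
    have e1 : (-4 : ℂ) • (f * r) = f * b4 := by
      rw [hr, mul_smul_comm, smul_smul, mul_sub, hfe', hff']; norm_num
    rwa [e1] at this
  have heXN : e * X ∈ N := by
    have := mul_mem (mul_mem heN hT2N) hfN
    have e1 : e * T2 * f = e * X := by
      rw [hT2, mul_add, mul_add, add_mul, add_mul, hee', hef', zero_mul, add_zero]
      rw [mul_assoc, hXf, hee', mul_assoc, commf b1 hb1Z, hef', add_zero]
    rwa [e1] at this
  have hfXN : f * X ∈ N := by
    have := mul_mem (mul_mem hfN hT2N) heN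
    have e1 : f * T2 * e = f * X := by
      rw [hT2, mul_add, mul_add, add_mul, add_mul, hfe', hff', zero_mul, zero_add]
      rw [mul_assoc, hXe, hff', mul_assoc, comme b2 hb2Z, hfe', add_zero]
    rwa [e1] at this
  have hXN : X ∈ N := by
    have := add_mem heXN hfXN
    rwa [← add_mul, hef1, one_mul] at this
  have h12N : e * b1 + f * b2 ∈ N := by
    have := sub_mem hT2N hXN
    have e1 : T2 - X = e * b1 + f * b2 := by rw [hT2]; abel
    rwa [e1] at this
  have heb1N : e * b1 ∈ N := by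
    have := mul_mem heN h12N
    rwa [mul_add, hee', hef', add_zero] at this
  have hfb2N : f * b2 ∈ N := by
    have := mul_mem hfN h12N
    rwa [mul_add, hfe', hff', zero_add] at this
  -- from a corner to the whole
  have full_e : ∀ b : H →L[ℂ] H, b * X = X * b → e * b ∈ N → b ∈ N := by
    intro b hb hbN
    have h3' := mul_mem (mul_mem hXN hbN) hXN
    have e1 : X * (e * b) * X = f * b := by
      rw [hXe', mul_assoc, mul_assoc, hb, hXX']
    rw [e1] at h3'
    have := add_mem hbN h3'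
    rwa [← add_mul, hef1, one_mul] at this
  have full_f : ∀ b : H →L[ℂ] H, b * X = X * b → f * b ∈ N → b ∈ N := by
    intro b hb hbN
    have h3' := mul_mem (mul_mem hXN hbN) hXN
    have e1 : X * (f * b) * X = e * b := by
      rw [hXf', mul_assoc, mul_assoc, hb, hXX']
    rw [e1] at h3'
    have := add_mem h3' hbN
    rwa [← add_mul, hef1, one_mul] at this
  have hb1N : b1 ∈ N := full_e b1 hb1X heb1N
  have hb2N : b2 ∈ N := full_f b2 hb2X hfb2N
  have hb3N : b3 ∈ N := full_e b3 hb3X heb3N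
  have hb4N : b4 ∈ N := full_f b4 hb4X hfb4N
  have hwN : w ∈ N := by
    rw [hw34]; exact add_mem hb3N (vn_smul_mem _ hb4N)
  have huN : ∀ j, u (1 + j) ∈ N := mem_of_tailSum_mem husa husq (fun i j hij => (h2 i j hij).1) hb1N
  have hvN : ∀ j, v (1 + j) ∈ N :=
    mem_of_tailSum_mem hvsa hvsq (fun i j hij => (h2 i j hij).2.2) hb2N
  have hQN : ∀ y ∈ M, y * Z = Z * y → y * X = X * y → y ∈ N :=
    hgen N (fun j => ⟨huN j, hvN j⟩) hwN
  -- corners
  have hcorner : ∀ y ∈ M, e * y * e ∈ N := by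
    intro y hy
    have hq : e * y * e + X * (e * y * e) * X ∈ N := by
      apply hQN
      · exact add_mem (mul_mem (mul_mem heM hy) heM)
          (mul_mem (mul_mem hXM (mul_mem (mul_mem heM hy) heM)) hXM)
      · rw [hZef]
        simp only [mul_assoc, mul_add, add_mul, mul_sub, sub_mul, hXe', hXe, hXf, hee', hef',
          hfe', hff', hee, hef, mul_zero, sub_zero, zero_sub, add_zero]
        rw [sub_eq_add_neg, zero_add]
      · simp only [mul_assoc, mul_add, add_mul, hXe', hXf', hXX, hXX', mul_one]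
        rw [add_comm]
    have := mul_mem heN hq
    have e1 : e * (e * y * e + X * (e * y * e) * X) = e * y * e := by
      simp only [mul_assoc, mul_add, hXe', hee', hef', add_zero]
    rwa [e1] at this
  intro y hy
  have e1 : y = e * y * e + (e * (y * X) * e) * X + X * (e * (X * y) * e)
      + X * (e * (X * y * X) * e) * X := by
    simp only [mul_assoc, hXe', hXX', hXe, hXX, mul_one]
    have e2 : e * (y * e) + e * (y * f) + f * (y * e) + f * (y * f) = y := by
      rw [← mul_add, ← mul_add, hef1, mul_one, add_assoc, ← mul_add, ← mul_add, hef1, mul_one,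
        ← add_mul, hef1, one_mul]
    exact e2.symm
  rw [e1]
  exact add_mem (add_mem (add_mem (hcorner y hy) (mul_mem (hcorner _ (mul_mem hy hXM)) hXN))
    (mul_mem hXN (hcorner _ (mul_mem hXM hy))))
    (mul_mem (mul_mem hXN (hcorner _ (mul_mem (mul_mem hXM hy) hXM))) hXN)

end Crest.Agent.R95
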