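import Crest.Agent.R95.Defs
import Crest.Agent.R95.Factor1
import Crest.Agent.R95.Factor5
import Crest.Agent.R95.Bridge
import Crest.Agent.R95.Red2
import Crest.Agent.R95.SingleGen

/-!
R95 (helper761): S0125 from `red2_main` applied to `Q = M ∩ {u 0, v 0}'` (same Hilbert space, same
trace vector sequence) and `single_gen_of_density`.
-/

set_option autoImplicit false

namespace Crest.Agent.R95

open Crest.OpAlg

variable {H : Type*} [NormedAddCommGroup H] [InnerProductSpace ℂ H] [CompleteSpace H]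

/-- `M ∩ {a, b}'` for selfadjoint `a, b` -/
noncomputable def sgComm (M : VonNeumannAlgebra H) (a b : H →L[ℂ] H) : VonNeumannAlgebra H :=
  commSet ((M.commutant : Set (H →L[ℂ] H)) ∪ {a, b})

theorem mem_sgComm {M : VonNeumannAlgebra H} {a b : H →L[ℂ] H} (ha : IsSelfAdjoint a)
    (hb : IsSelfAdjoint b) {x : H →L[ℂ] H} :
    x ∈ sgComm M a b ↔ x ∈ M ∧ a * x = x * a ∧ b * x = x * b := by
  rw [sgComm, mem_commSet]
  constructor
  · intro h
    refine ⟨mem_of_comm fun y hy => (h y (Or.inl hy)).1, (h a (Or.inr (by simp))).1,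
      (h b (Or.inr (by simp))).1⟩
  · rintro ⟨h1, h2, h3⟩ y (hy | hy | hy)
    · exact ⟨(comm_of_mem h1 hy).symm, (comm_of_mem h1 (star_mem hy)).symm⟩
    · rw [hy, ha.star_eq]; exact ⟨h2, h2⟩
    · rw [Set.mem_singleton_iff.1 hy, hb.star_eq]; exact ⟨h3, h3⟩

theorem sg_faithful_of_le {M N : VonNeumannAlgebra H} {ξ : ℕ → H} (hNM : N ≤ M)
    (hξ : IsFaithfulTracialVectorState M ξ) : IsFaithfulTracialVectorState N ξ :=
  ⟨hξ.1, fun x hx y hy => hξ.2.1 x (hNM hx) y (hNM hy), fun x hx h => hξ.2.2 x (hNM hx) h⟩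

/-- S0125 from the reduction `red2_main`, for a von Neumann algebra with a faithful tracial vector
state containing an infinite Pauli sequence. -/
theorem single_gen [TopologicalSpace.SeparableSpace H] {M : VonNeumannAlgebra H} {ξ : ℕ → H}
    {u v : ℕ → H →L[ℂ] H} (hξ : IsFaithfulTracialVectorState M ξ) (h : HasPauli M u v)
    (hRed : ∀ Q P : VonNeumannAlgebra H, P ≤ Q → IsFaithfulTracialVectorState Q ξ →
      (∃ u' v' : ℕ → H →L[ℂ] H, HasPauli P u' v') → Red2Hyp Q P ξ) :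
    ∃ x ∈ M, ∀ N : VonNeumannAlgebra H, x ∈ N → M ≤ N := by
  refine single_gen_of_density h ?_
  have hu : ∀ j, IsSelfAdjoint (u j) := fun j => (h.1 j).2.2.1
  have hv : ∀ j, IsSelfAdjoint (v j) := fun j => (h.1 j).2.2.2.1
  set Q := sgComm M (u 0) (v 0) with hQ
  have hQM : Q ≤ M := fun x hx => ((mem_sgComm (hu 0) (hv 0)).1 hx).1
  set S : Set (H →L[ℂ] H) := {x | ∃ j, x = u (1 + j) ∨ x = v (1 + j)} with hS
  set P := vnGen S with hP
  have hPQ : P ≤ Q := by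
    refine vnGen_le ?_
    rintro s ⟨j, rfl | rfl⟩
    · exact (mem_sgComm (hu 0) (hv 0)).2 ⟨(h.1 _).1, (h.2 0 (1 + j) (by omega)).1,
        ((h.2 (1 + j) 0 (by omega)).2.1).symm⟩
    · exact (mem_sgComm (hu 0) (hv 0)).2 ⟨(h.1 _).2.1, (h.2 0 (1 + j) (by omega)).2.1,
        (h.2 0 (1 + j) (by omega)).2.2⟩
  have hPauli : HasPauli P (fun j => u (1 + j)) (fun j => v (1 + j)) := by
    refine ⟨fun j => ?_, fun j k hjk => h.2 _ _ (by omega)⟩
    exact ⟨subset_vnGen S _ ⟨j, Or.inl rfl⟩, subset_vnGen S _ ⟨j, Or.inr rfl⟩, (h.1 _).2.2⟩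
  have hQξ : IsFaithfulTracialVectorState Q ξ := sg_faithful_of_le hQM hξ
  obtain ⟨-, hdens⟩ := red2_main hPQ hQξ (hRed Q P hPQ hQξ ⟨_, _, hPauli⟩)
  obtain ⟨w, hwQ, hwU, hw, -⟩ := hdens 1 (one_mem _) (one_mem _) 1 one_pos
  obtain ⟨hwM, hw0, hw0'⟩ := (mem_sgComm (hu 0) (hv 0)).1 hwQ
  refine ⟨w, hwM, hwU, hw0.symm, hw0'.symm, fun N hN hwN y hy hy0 hy0' => ?_⟩
  have hPN : P ≤ N := by
    refine vnGen_le ?_
    rintro s ⟨j, rfl | rfl⟩
    · exact (hN j).1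
    · exact (hN j).2
  exact hw N hPN hwN ((mem_sgComm (hu 0) (hv 0)).2 ⟨hy, hy0.symm, hy0'.symm⟩)

/-- S0125 modulo `Red2Hyp` -/
theorem s0125_of_red [TopologicalSpace.SeparableSpace H] {M : VonNeumannAlgebra H}
    (hM : IsTypeIIOneFactor M)
    (hRed : ∀ (Q P : VonNeumannAlgebra H) (ξ : ℕ → H), P ≤ Q → IsFaithfulTracialVectorState Q ξ →
      (∃ u' v' : ℕ → H →L[ℂ] H, HasPauli P u' v') → Red2Hyp Q P ξ) :
    ∃ x ∈ M, ∀ N : VonNeumannAlgebra H, x ∈ N → M ≤ N := by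
  obtain ⟨u, v, h⟩ := hasPauli_of_factor M hM
  obtain ⟨ξ, hξ⟩ := hM.2.2
  exact single_gen hξ h fun Q P => hRed Q P ξ

end Crest.Agent.R95
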