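import Crest.Agent.R95.Unitary
import Crest.Agent.R95.Clamp
import Crest.Agent.R95.Red2
import Crest.Agent.R95.S0125Glue
import Crest.Agent.R95.Factor5

/-!
R95 (helper95): final assembly of S0125 and S0126 from the core statement.
-/

set_option autoImplicit false

universe u

namespace Crest.Agent.R95

open Crest.OpAlg

variable {H : Type u} [NormedAddCommGroup H] [InnerProductSpace ℂ H] [CompleteSpace H]

theorem red2Hyp_of_core (hcore : CoreStatement.{u}) {M P : VonNeumannAlgebra H} {ξ : ℕ → H}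
    (hPM : P ≤ M) (hξ : IsFaithfulTracialVectorState M ξ)
    (hP : ∃ u v : ℕ → H →L[ℂ] H, HasPauli P u v) : Red2Hyp M P ξ := by
  obtain ⟨u, v, huv⟩ := hP
  have huvM : HasPauli M u v :=
    ⟨fun j => ⟨hPM (huv.1 j).1, hPM (huv.1 j).2.1, (huv.1 j).2.2⟩, huv.2⟩
  refine ⟨?_, ?_, ?_⟩
  · intro w hw hwu ε hε
    obtain ⟨z, X, hz, hX, hN, hmem⟩ := exists_cay_near (sqSum hξ) hwu hε
    exact ⟨z, hz, X, hmem M.toStarSubalgebra (isClosed_vn M) hw, hX, hN⟩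
  · intro N hNM R hR x hx hxsa hxR y hy hysa
    refine ⟨cl R y, cl_mem hy, isSelfAdjoint_cl R y, norm_cl_le hR y, ?_⟩
    have h := N2_sub_cl_le hξ hx (hNM hy) hxsa hysa hxR
    rw [N2_sub_comm, N2_sub_comm y x]
    exact h
  · intro R s0 hs0
    obtain ⟨κ, hκ, h⟩ := core_concrete_of hcore hξ huvM R s0 hs0
    refine ⟨κ, hκ, fun y0 hy0 hsa hR hs X hX hXsa ε hε => ?_⟩
    obtain ⟨Z, hZ, Y, hY, hZsa, hZX, hY1, hYk, hN⟩ := h y0 hy0 hsa hR hs X hX hXsa ε hε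
    exact ⟨Z, hZ, Y, hY, hZsa, hZX, hY1, hYk, fun N hPN hZN =>
      hN N (fun j => ⟨hPN (huv.1 j).1, hPN (huv.1 j).2.1⟩) hZN⟩

theorem s0126_of_core (hcore : CoreStatement.{u}) [TopologicalSpace.SeparableSpace H]
    (P M : VonNeumannAlgebra H) (hPM : P ≤ M) (hP : IsTypeIIOneFactor P)
    (ξ : ℕ → H) (hξ : IsFaithfulTracialVectorState M ξ) :
    (∃ O : ℕ → Set (H →L[ℂ] H),
      (∀ k : ℕ, ∀ u ∈ M, u ∈ unitary (H →L[ℂ] H) → u ∈ O k → ∃ δ : ℝ, 0 < δ ∧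
        ∀ v ∈ M, v ∈ unitary (H →L[ℂ] H) → Crest.OpAlg.traceNormSq ξ (v - u) < δ → v ∈ O k) ∧
      (∀ u ∈ M, u ∈ unitary (H →L[ℂ] H) →
        ((∀ N : VonNeumannAlgebra H, P ≤ N → u ∈ N → M ≤ N) ↔ ∀ k : ℕ, u ∈ O k))) ∧
    (∀ u ∈ M, u ∈ unitary (H →L[ℂ] H) → ∀ ε : ℝ, 0 < ε →
      ∃ v ∈ M, v ∈ unitary (H →L[ℂ] H) ∧ (∀ N : VonNeumannAlgebra H, P ≤ N → v ∈ N → M ≤ N) ∧
        Crest.OpAlg.traceNormSq ξ (v - u) < ε) :=
  red2_main hPM hξ (red2Hyp_of_core hcore hPM hξ (hasPauli_of_factor P hP))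

theorem s0125_of_core (hcore : CoreStatement.{u}) [TopologicalSpace.SeparableSpace H]
    (M : VonNeumannAlgebra H) (hM : IsTypeIIOneFactor M) :
    ∃ x ∈ M, ∀ N : VonNeumannAlgebra H, x ∈ N → M ≤ N :=
  s0125_of_red hM fun _ _ _ hPQ hξ hP => red2Hyp_of_core hcore hPQ hξ hP

end Crest.Agent.R95
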