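import Crest.Agent.R95.Defs

/-!
# R95: index combinatorics (helper440)

`card ι = d * N`, `d * d ≤ N`. Variables and constraints are both indexed by `ι`.
Every constraint `b` picks one variable `pt b l` in each block `l : Fin d`
(`blk : ι → Fin d` is the block of a variable); two distinct constraints share at most one
variable; every variable lies on exactly `d` constraints.
-/

set_option autoImplicit false

namespace Crest.Agent.R95

open Finset

theorem exists_lines {ι : Type*} [Fintype ι] [DecidableEq ι] (d N : ℕ) (hd : 0 < d)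
    (hN : d * d ≤ N) (hc : Fintype.card ι = d * N) :
    ∃ (pt : ι → Fin d → ι) (blk : ι → Fin d),
      (∀ b l, blk (pt b l) = l) ∧
      (∀ b b' l l', b ≠ b' → pt b l = pt b' l → pt b l' = pt b' l' → l = l') ∧
      (∀ w, (univ.filter (fun b => pt b (blk w) = w)).card = d) := by
  have hNpos : 0 < N := lt_of_lt_of_le (Nat.mul_pos hd hd) hN
  have : NeZero N := ⟨hNpos.ne'⟩
  have hcard : Fintype.card ι = Fintype.card (Fin d × ZMod N) := by
    rw [Fintype.card_prod, Fintype.card_fin, ZMod.card, hc]
  let e : ι ≃ Fin d × ZMod N := Fintype.equivOfCardEq hcard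
  refine ⟨fun b l => e.symm (l, (e b).2 + (l : ℕ) * ((e b).1 : ℕ)), fun w => (e w).1, ?_, ?_, ?_⟩
  · intro b l; simp
  · intro b b' l l' hb h1 h2
    have h1' := e.symm.injective h1
    have h2' := e.symm.injective h2
    simp only [Prod.mk.injEq, true_and] at h1' h2'
    by_contra hne
    apply hb
    -- subtract: (l - l') * (v - v') = 0 in ZMod N
    have h3 : ((((l : ℕ) : ℤ) - ((l' : ℕ) : ℤ)) * ((((e b).1 : ℕ) : ℤ) - (((e b').1 : ℕ) : ℤ)) : ℤ)
        = 0 := by
      have h4 : (((((l : ℕ) : ℤ) - ((l' : ℕ) : ℤ))
          * ((((e b).1 : ℕ) : ℤ) - (((e b').1 : ℕ) : ℤ)) : ℤ) : ZMod N) = 0 := by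
        push_cast
        linear_combination h1' - h2'
      rw [ZMod.intCast_zmod_eq_zero_iff_dvd] at h4
      refine Int.eq_zero_of_abs_lt_dvd h4 ?_
      have b1 : |((l : ℕ) : ℤ) - ((l' : ℕ) : ℤ)| < d := by
        rw [abs_lt]; constructor <;> have := l.2 <;> have := l'.2 <;> omega
      have b2 : |(((e b).1 : ℕ) : ℤ) - (((e b').1 : ℕ) : ℤ)| < d := by
        rw [abs_lt]; constructor <;> have := (e b).1.2 <;> have := (e b').1.2 <;> omega
      rw [abs_mul]
      calc _ < (d : ℤ) * d := by
            exact mul_lt_mul'' b1 b2 (abs_nonneg _) (abs_nonneg _)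
        _ ≤ N := by exact_mod_cast hN
    rcases mul_eq_zero.1 h3 with h | h
    · exact absurd (Fin.ext (by omega)) hne
    · have hv : (e b).1 = (e b').1 := Fin.ext (by omega)
      have hu : (e b).2 = (e b').2 := by
        rw [hv] at h1'
        exact add_right_cancel h1'
      exact e.injective (Prod.ext hv hu)
  · intro w
    have : (univ.filter (fun b => e.symm ((e w).1, (e b).2 + ((e w).1 : ℕ) * ((e b).1 : ℕ)) = w))
        = (univ : Finset (Fin d)).image
          (fun v => e.symm (v, (e w).2 - ((e w).1 : ℕ) * (v : ℕ))) := by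
      ext b
      simp only [mem_filter, mem_univ, true_and, mem_image]
      constructor
      · intro h
        refine ⟨(e b).1, ?_⟩
        have h' := (Equiv.symm_apply_eq e).1 h
        have h2 := congrArg Prod.snd h'
        simp only at h2
        rw [Equiv.symm_apply_eq]
        refine Prod.ext rfl ?_
        simp only
        rw [← h2]; ring
      · rintro ⟨v, rfl⟩
        rw [Equiv.symm_apply_eq]
        simp
    simp only
    rw [this, card_image_of_injective]
    · simp
    · intro v v' h
      have := e.symm.injective h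
      exact (Prod.mk.inj this).1

/-- double counting along lines -/
theorem sum_lines {ι : Type*} [Fintype ι] [DecidableEq ι] {d : ℕ} {pt : ι → Fin d → ι}
    {blk : ι → Fin d} (h1 : ∀ b l, blk (pt b l) = l)
    (h3 : ∀ w, (univ.filter (fun b => pt b (blk w) = w)).card = d) (g : ι → ℝ) :
    ∑ b, ∑ l, g (pt b l) = d * ∑ w, g w := by
  have e1 : ∀ b l, g (pt b l) = ∑ w, if pt b l = w then g w else 0 := by
    intro b l; simp
  simp_rw [e1]
  rw [Finset.sum_congr rfl (fun b _ => Finset.sum_comm), Finset.sum_comm, Finset.mul_sum]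
  refine Finset.sum_congr rfl fun w _ => ?_
  have e2 : ∀ b, (∑ l, if pt b l = w then g w else 0) = if pt b (blk w) = w then g w else 0 := by
    intro b
    rw [Finset.sum_eq_single (blk w)]
    · intro l _ hl
      rw [if_neg]
      rintro h; exact hl (by rw [← h, h1])
    · simp
  simp_rw [e2]
  rw [← Finset.sum_filter, Finset.sum_const, h3, nsmul_eq_mul]

end Crest.Agent.R95
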