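import Crest.Agent.R95.Trace
import Crest.Agent.R95.Cayley

/-!
# R95 Noise: independent mean zero perturbations of products of Cayley transforms
-/

set_option autoImplicit false

namespace Crest.Agent.R95

open Complex Finset

section Avg

variable {κ : Type} [Fintype κ] [DecidableEq κ]

/-- shift of the coordinate `b` by `x` -/
def shiftAt (b : κ) (x : ZMod 4) : (κ → ZMod 4) ≃ (κ → ZMod 4) where
  toFun ω := Function.update ω b (ω b + x)
  invFun ω := Function.update ω b (ω b - x)
  left_inv ω := by simp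
  right_inv ω := by simp

theorem sum_shift (b : κ) (Φ : (κ → ZMod 4) → ℝ) :
    ∑ ω, Φ ω = (1 / 4) * ∑ ω, ∑ x, Φ (Function.update ω b (ω b + x)) := by
  have h : ∀ x : ZMod 4, ∑ ω, Φ (Function.update ω b (ω b + x)) = ∑ ω, Φ ω := fun x =>
    Equiv.sum_comp (shiftAt b x) Φ
  rw [sum_comm, sum_congr rfl (fun x _ => h x), sum_const, card_univ, ZMod.card, nsmul_eq_mul]
  push_cast; ring

theorem sum_coord_zero (b : κ) (Ψ : (κ → ZMod 4) → ZMod 4 → ℝ)
    (hinv : ∀ ω x y, Ψ (Function.update ω b x) y = Ψ ω y) (h0 : ∀ ω, ∑ y, Ψ ω y = 0) :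
    ∑ ω, Ψ ω (ω b) = 0 := by
  rw [sum_shift b (fun ω => Ψ ω (ω b))]
  have : ∀ ω : κ → ZMod 4, ∑ x, Ψ (Function.update ω b (ω b + x))
      (Function.update ω b (ω b + x) b) = 0 := by
    intro ω
    have e : ∀ x : ZMod 4, Ψ (Function.update ω b (ω b + x))
      (Function.update ω b (ω b + x) b) = Ψ ω (ω b + x) := by
      intro x
      rw [hinv, Function.update_self]
    rw [sum_congr rfl (fun x _ => e x), ← h0 ω]
    exact Equiv.sum_comp (Equiv.addLeft (ω b)) (fun y => Ψ ω y)
  rw [sum_congr rfl (fun ω _ => this ω)]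
  simp

theorem sum_coord (b : κ) (g : ZMod 4 → ℝ) :
    ∑ ω : κ → ZMod 4, g (ω b) = (Fintype.card (κ → ZMod 4) : ℝ) * ((1 / 4) * ∑ y, g y) := by
  rw [sum_shift b (fun ω => g (ω b))]
  have : ∀ ω : κ → ZMod 4, ∑ x, g (Function.update ω b (ω b + x) b) = ∑ y, g y := by
    intro ω
    have e : ∀ x : ZMod 4, g (Function.update ω b (ω b + x) b) = g (ω b + x) := by
      intro x; rw [Function.update_self]
    rw [sum_congr rfl (fun x _ => e x)]
    exact Equiv.sum_comp (Equiv.addLeft (ω b)) g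
  rw [sum_congr rfl (fun ω _ => this ω), sum_const, card_univ, nsmul_eq_mul]
  ring

end Avg

variable {A : Type*} [CStarAlgebra A] (T : TracialState A)

theorem sum_nrm2_sum_sq {κ : Type} [Fintype κ] [DecidableEq κ] (s : Finset κ) (G : κ → ZMod 4 → A)
    (h0 : ∀ b ∈ s, ∑ x, G b x = 0) :
    ∑ ω : κ → ZMod 4, T.nrm2 (∑ b ∈ s, G b (ω b)) ^ 2 =
      (Fintype.card (κ → ZMod 4) : ℝ) * ∑ b ∈ s, (1 / 4) * ∑ x, T.nrm2 (G b x) ^ 2 := by
  induction s using Finset.induction_on with
  | empty => simp [T.nrm2_zero]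
  | insert b s hb ih =>
    have ih' := ih (fun c hc => h0 c (mem_insert_of_mem hc))
    have e : ∀ ω : κ → ZMod 4, T.nrm2 (∑ c ∈ insert b s, G c (ω c)) ^ 2
        = T.nrm2 (G b (ω b)) ^ 2 + 2 * (T.τ (star (G b (ω b)) * ∑ c ∈ s, G c (ω c))).re
          + T.nrm2 (∑ c ∈ s, G c (ω c)) ^ 2 := by
      intro ω
      rw [sum_insert hb, T.nrm2_add_sq]
    rw [sum_congr rfl (fun ω _ => e ω), sum_add_distrib, sum_add_distrib, ih', ← mul_sum]
    have h1 : ∑ ω : κ → ZMod 4, (T.τ (star (G b (ω b)) * ∑ c ∈ s, G c (ω c))).re = 0 := by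
      refine sum_coord_zero b (fun ω y => (T.τ (star (G b y) * ∑ c ∈ s, G c (ω c))).re) ?_ ?_
      · intro ω x y
        have : ∑ c ∈ s, G c (Function.update ω b x c) = ∑ c ∈ s, G c (ω c) := by
          refine sum_congr rfl (fun c hc => ?_)
          have : c ≠ b := fun h => hb (h ▸ hc)
          rw [Function.update_of_ne this]
        simp only [this]
      · intro ω
        rw [← Complex.re_sum, ← map_sum, ← sum_mul, ← star_sum, h0 b (mem_insert_self b s)]
        simp
    have h2 := sum_coord b (fun y => T.nrm2 (G b y) ^ 2)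
    rw [h1, h2, sum_insert hb]
    ring

theorem avg_nrm2_sum_sq {κ : Type} [Fintype κ] [DecidableEq κ] (G : κ → ZMod 4 → A)
    (h0 : ∀ b, ∑ x, G b x = 0) :
    avg (fun ω : κ → ZMod 4 => T.nrm2 (∑ b, G b (ω b)) ^ 2) =
      ∑ b, (1 / 4) * ∑ x, T.nrm2 (G b x) ^ 2 := by
  unfold avg
  rw [sum_nrm2_sum_sq T univ G (fun b _ => h0 b), ← mul_assoc, inv_mul_cancel₀, one_mul]
  exact_mod_cast Fintype.card_ne_zero

theorem pr_unitary {U : ℕ → A} (h : ∀ l, star (U l) * U l = 1) (h' : ∀ l, U l * star (U l) = 1)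
    (k : ℕ) : star (pr U k) * pr U k = 1 ∧ pr U k * star (pr U k) = 1 := by
  induction k with
  | zero => simp [pr]
  | succ k ih =>
    have e : pr U (k + 1) = pr U k * U k := rfl
    rw [e, star_mul]
    constructor
    · calc star (U k) * star (pr U k) * (pr U k * U k)
          = star (U k) * (star (pr U k) * pr U k) * U k := by noncomm_ring
        _ = 1 := by rw [ih.1, mul_one, h]
    · calc pr U k * U k * (star (U k) * star (pr U k))
          = pr U k * (U k * star (U k)) * star (pr U k) := by noncomm_ring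
        _ = 1 := by rw [h', mul_one, ih.2]

theorem pr_congr {g g' : ℕ → A} {d : ℕ} (h : ∀ l < d, g l = g' l) : pr g d = pr g' d := by
  induction d with
  | zero => rfl
  | succ k ih =>
    change pr g k * g k = pr g' k * g' k
    rw [ih (fun l hl => h l (by omega)), h k (by omega)]

theorem nrm2_of_star_mul {u : A} (h : star u * u = 1) : T.nrm2 u ^ 2 = 1 := by
  rw [T.nrm2_sq, h, T.one]; simp

theorem noise {κ : Type} [Fintype κ] [DecidableEq κ] (d : ℕ) (B : ℕ → Finset κ)
    (hB : ∀ l < d, ∀ j < d, l ≠ j → Disjoint (B l) (B j))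
    (a : ℕ → (κ → ZMod 4) → A) (ha : ∀ l ω, IsSelfAdjoint (a l ω))
    (hinv : ∀ l < d, ∀ j < d, ∀ b ∈ B j, ∀ ω x, a l (Function.update ω b x) = a l ω)
    (n : ℕ → κ → ZMod 4 → A) (hn : ∀ l b x, IsSelfAdjoint (n l b x))
    (hn0 : ∀ l < d, ∀ b ∈ B l, ∑ x, n l b x = 0) :
    avg (fun ω : κ → ZMod 4 =>
      T.nrm2 (pr (fun l => cay (a l ω + ∑ b ∈ B l, n l b (ω b))) d -
        pr (fun l => cay (a l ω)) d) ^ 2) ≤
      4 * ∑ l ∈ Finset.range d, ∑ b ∈ B l, (1 / 4) * ∑ x, T.nrm2 (n l b x) ^ 2 := by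
  classical
  set N : ℕ → (κ → ZMod 4) → A := fun l ω => ∑ b ∈ B l, n l b (ω b) with hN
  have hNsa : ∀ l ω, IsSelfAdjoint (N l ω) := by
    intro l ω
    change star (∑ b ∈ B l, n l b (ω b)) = ∑ b ∈ B l, n l b (ω b)
    rw [star_sum]
    exact sum_congr rfl (fun b _ => (hn l b (ω b)).star_eq)
  set F : ℕ → (κ → ZMod 4) → A := fun k ω => pr (fun l => cay (a l ω + N l ω)) k with hF
  set G : ℕ → (κ → ZMod 4) → A := fun k ω => pr (fun l => cay (a l ω)) k with hG
  have hFu : ∀ k ω, star (F k ω) * F k ω = 1 ∧ F k ω * star (F k ω) = 1 := fun k ω =>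
    pr_unitary (fun l => star_cay_mul ((ha l ω).add (hNsa l ω)))
      (fun l => mul_star_cay ((ha l ω).add (hNsa l ω))) k
  have hGu : ∀ k ω, star (G k ω) * G k ω = 1 ∧ G k ω * star (G k ω) = 1 := fun k ω =>
    pr_unitary (fun l => star_cay_mul (ha l ω)) (fun l => mul_star_cay (ha l ω)) k
  set Φ : ℕ → (κ → ZMod 4) → ℝ := fun k ω => (T.τ (star (G k ω) * F k ω)).re with hΦ
  -- the square of the distance
  have hdist : ∀ ω, T.nrm2 (F d ω - G d ω) ^ 2 = 2 - 2 * Φ d ω := by
    intro ω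
    rw [sub_eq_add_neg, T.nrm2_add_sq, T.nrm2_neg, nrm2_of_star_mul T (hFu d ω).1,
      nrm2_of_star_mul T (hGu d ω).1, mul_neg, map_neg, Complex.neg_re, T.star_mul_comm_re]
    ring
  -- the linear term
  set Lin : ℕ → (κ → ZMod 4) → ℝ := fun k ω =>
    (T.τ (star (cay (a k ω)) * (star (G k ω) * F k ω) *
      ((2 * I) • (res (a k ω) * N k ω * res (a k ω))) * 1)).re with hLin
  have hstep : ∀ k ω, Φ k ω + Lin k ω - 2 * T.nrm2 (N k ω) ^ 2 ≤ Φ (k + 1) ω := by
    intro k ω
    set g := cay (a k ω) with hg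
    set f := cay (a k ω + N k ω) with hf
    set X := star (G k ω) * F k ω with hX
    have e1 : star (G (k + 1) ω) * F (k + 1) ω = star g * X * f := by
      have : G (k + 1) ω = G k ω * g := rfl
      have h2 : F (k + 1) ω = F k ω * f := rfl
      rw [this, h2, star_mul, hX]; noncomm_ring
    have e2 : T.τ (star g * X * g) = T.τ X := by
      rw [T.tr (star g * X) g]
      have : g * (star g * X) = X := by
        rw [← mul_assoc, mul_star_cay (ha k ω), one_mul]
      rw [this]
    have h2 := cay_second T (ha k ω) (hNsa k ω) (star g * X) 1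
    have h3 : ‖star g * X‖ ≤ 1 := by
      refine norm_le_one_of_star_mul ?_
      rw [hX, star_mul, star_mul, star_star, star_star]
      calc star (F k ω) * G k ω * g * (star g * (star (G k ω) * F k ω))
          = star (F k ω) * (G k ω * (g * star g) * star (G k ω)) * F k ω := by noncomm_ring
        _ = 1 := by
          rw [mul_star_cay (ha k ω), mul_one, (hGu k ω).2, mul_one, (hFu k ω).1]
    have h4 : ‖T.τ (star g * X * (f - g - (2 * I) • (res (a k ω) * N k ω * res (a k ω))) * 1)‖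
        ≤ 2 * T.nrm2 (N k ω) ^ 2 := by
      refine h2.trans ?_
      have h5 : ‖(1 : A)‖ ≤ 1 := norm_one_le
      have h6 : 0 ≤ T.nrm2 (N k ω) ^ 2 := by positivity
      have h7 : ‖star g * X‖ * ‖(1 : A)‖ ≤ 1 := by
        nlinarith [norm_nonneg (star g * X), norm_nonneg (1 : A)]
      nlinarith
    have h5 := (abs_le.1 ((Complex.abs_re_le_norm _).trans h4)).1
    have e3 : T.τ (star g * X * (f - g - (2 * I) • (res (a k ω) * N k ω * res (a k ω))) * 1)
        = T.τ (star g * X * f) - T.τ (star g * X * g)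
          - T.τ (star g * X * ((2 * I) • (res (a k ω) * N k ω * res (a k ω))) * 1) := by
      rw [mul_one, mul_one, mul_sub, mul_sub, map_sub, map_sub]
    rw [e3, e2] at h5
    simp only [Complex.sub_re] at h5
    have e4 : Φ (k + 1) ω = (T.τ (star g * X * f)).re := by rw [hΦ]; simp only [e1]
    have e5 : Φ k ω = (T.τ X).re := rfl
    have e6 : Lin k ω = (T.τ (star g * X * ((2 * I) • (res (a k ω) * N k ω * res (a k ω))) * 1)).re :=
      rfl
    rw [e4, e5, e6]
    linarith
  -- the linear term averages to zero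
  have hLin0 : ∀ k < d, ∑ ω, Lin k ω = 0 := by
    intro k hk
    have e1 : ∀ ω, Lin k ω = ∑ b ∈ B k, (T.τ (star (cay (a k ω)) * (star (G k ω) * F k ω) *
        ((2 * I) • (res (a k ω) * n k b (ω b) * res (a k ω))) * 1)).re := by
      intro ω
      rw [hLin]
      simp only [hN]
      rw [mul_sum, sum_mul, smul_sum, mul_sum, sum_mul, map_sum, Complex.re_sum]
    rw [sum_congr rfl (fun ω _ => e1 ω), sum_comm]
    refine sum_eq_zero (fun b hb => ?_)
    refine sum_coord_zero b (fun ω y => (T.τ (star (cay (a k ω)) * (star (G k ω) * F k ω) *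
        ((2 * I) • (res (a k ω) * n k b y * res (a k ω))) * 1)).re) ?_ ?_
    · intro ω x y
      have ea : ∀ j < d, a j (Function.update ω b x) = a j ω := fun j hj => hinv j hj k hk b hb ω x
      have eN : ∀ j < k, N j (Function.update ω b x) = N j ω := by
        intro j hj
        rw [hN]
        refine sum_congr rfl (fun c hc => ?_)
        have hne : c ≠ b := by
          intro h
          subst h
          exact Finset.disjoint_left.1 (hB j (by omega) k hk (by omega)) hc hb
        rw [Function.update_of_ne hne]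
      have eG : G k (Function.update ω b x) = G k ω :=
        pr_congr (fun l hl => by rw [ea l (by omega)])
      have eF : F k (Function.update ω b x) = F k ω :=
        pr_congr (fun l hl => by rw [ea l (by omega), eN l hl])
      simp only [eG, eF, ea k hk]
    · intro ω
      rw [← Complex.re_sum, ← map_sum, ← sum_mul, ← mul_sum, ← smul_sum, ← sum_mul, ← mul_sum,
        hn0 k hk b hb]
      simp
  -- telescoping
  have htel : ∀ k ≤ d, (Fintype.card (κ → ZMod 4) : ℝ) - 2 * ∑ l ∈ range k, ∑ ω, T.nrm2 (N l ω) ^ 2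
      ≤ ∑ ω, Φ k ω := by
    intro k
    induction k with
    | zero =>
      intro _
      have : ∀ ω, Φ 0 ω = 1 := by
        intro ω
        have : Φ 0 ω = (T.τ (star (1 : A) * 1)).re := rfl
        rw [this, star_one, mul_one, T.one]; simp
      rw [sum_congr rfl (fun ω _ => this ω)]
      simp
    | succ k ih =>
      intro hk
      have h1 := ih (by omega)
      have h2 : ∑ ω, (Φ k ω + Lin k ω - 2 * T.nrm2 (N k ω) ^ 2) ≤ ∑ ω, Φ (k + 1) ω :=
        sum_le_sum (fun ω _ => hstep k ω)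
      rw [sum_sub_distrib, sum_add_distrib, hLin0 k (by omega), ← mul_sum] at h2
      rw [sum_range_succ]
      linarith
  have hfin := htel d le_rfl
  have hcard : (0 : ℝ) < Fintype.card (κ → ZMod 4) := by exact_mod_cast Fintype.card_pos
  have hNs : ∀ l ∈ range d, ∑ ω, T.nrm2 (N l ω) ^ 2
      = (Fintype.card (κ → ZMod 4) : ℝ) * ∑ b ∈ B l, (1 / 4) * ∑ x, T.nrm2 (n l b x) ^ 2 := by
    intro l hl
    exact sum_nrm2_sum_sq T (B l) (n l) (hn0 l (mem_range.1 hl))
  rw [sum_congr rfl hNs, ← mul_sum] at hfin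
  have htot : ∑ ω, T.nrm2 (F d ω - G d ω) ^ 2
      = 2 * (Fintype.card (κ → ZMod 4) : ℝ) - 2 * ∑ ω, Φ d ω := by
    rw [sum_congr rfl (fun ω _ => hdist ω), sum_sub_distrib, ← mul_sum, sum_const, card_univ,
      nsmul_eq_mul]
    ring
  unfold avg
  change (Fintype.card (κ → ZMod 4) : ℝ)⁻¹ * ∑ ω, T.nrm2 (F d ω - G d ω) ^ 2 ≤ _
  rw [htot, inv_mul_le_iff₀ hcard]
  linarith

end Crest.Agent.R95
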