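import Crest.Agent.R95.Defs

/-!
# R95 Spec (helper795): exact statements used by Core.lean.
Every owner: please prove exactly these statements (same names, same implicit/explicit arguments) in
your own module (Trace / Cayley / Noise / PauliAlg / Moment), namespace `Crest.Agent.R95`.
THIS FILE IS A SPECIFICATION ONLY (all sorry, in namespace `Crest.Agent.R95.Spec`), never import it in
final files.
-/

set_option autoImplicit false

namespace Crest.Agent.R95.Spec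

open Complex Crest.Agent.R95

variable {A : Type*} [CStarAlgebra A] (T : TracialState A)

/-! ## Trace.lean  (in the real file these are `TracialState.xxx`, e.g. `T.nrm2_nonneg a`) -/

theorem nrm2_nonneg (a : A) : 0 ≤ T.nrm2 a := sorry
theorem nrm2_sq (a : A) : T.nrm2 a ^ 2 = (T.τ (star a * a)).re := sorry
theorem norm_tau_star_mul_le (a b : A) : ‖T.τ (star a * b)‖ ≤ T.nrm2 a * T.nrm2 b := sorry
theorem norm_tau_mul_le (a b : A) : ‖T.τ (a * b)‖ ≤ T.nrm2 a * T.nrm2 b := sorry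
theorem nrm2_star (a : A) : T.nrm2 (star a) = T.nrm2 a := sorry
theorem nrm2_mul_le_left (a b : A) : T.nrm2 (a * b) ≤ ‖a‖ * T.nrm2 b := sorry
theorem nrm2_mul_le_right (a b : A) : T.nrm2 (a * b) ≤ T.nrm2 a * ‖b‖ := sorry
theorem nrm2_add_le (a b : A) : T.nrm2 (a + b) ≤ T.nrm2 a + T.nrm2 b := sorry
theorem nrm2_sub_le (a b : A) : T.nrm2 (a - b) ≤ T.nrm2 a + T.nrm2 b := sorry
theorem nrm2_neg (a : A) : T.nrm2 (-a) = T.nrm2 a := sorry
theorem nrm2_zero : T.nrm2 (0 : A) = 0 := sorry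
theorem nrm2_smul (c : ℂ) (a : A) : T.nrm2 (c • a) = ‖c‖ * T.nrm2 a := sorry
theorem nrm2_sum_le {κ : Type*} (s : Finset κ) (g : κ → A) :
    T.nrm2 (∑ i ∈ s, g i) ≤ ∑ i ∈ s, T.nrm2 (g i) := sorry
theorem nrm2_le_norm (a : A) : T.nrm2 a ≤ ‖a‖ := sorry
theorem norm_tau_le (a : A) : ‖T.τ a‖ ≤ ‖a‖ := sorry
theorem nrm2_add_sq (a b : A) :
    T.nrm2 (a + b) ^ 2 = T.nrm2 a ^ 2 + 2 * (T.τ (star a * b)).re + T.nrm2 b ^ 2 := sorry

/-! ## Cayley.lean -/

theorem isUnit_one_sub {a : A} (ha : IsSelfAdjoint a) : IsUnit (1 - I • a) := sorry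
theorem res_mul {a : A} (ha : IsSelfAdjoint a) : res a * (1 - I • a) = 1 := sorry
theorem mul_res {a : A} (ha : IsSelfAdjoint a) : (1 - I • a) * res a = 1 := sorry
theorem norm_res_le {a : A} (ha : IsSelfAdjoint a) : ‖res a‖ ≤ 1 := sorry
theorem star_res {a : A} (ha : IsSelfAdjoint a) : star (res a) = res (-a) := sorry
theorem cay_eq {a : A} (ha : IsSelfAdjoint a) : cay a = -1 + (2 : ℂ) • res a := sorry
theorem star_cay_mul {a : A} (ha : IsSelfAdjoint a) : star (cay a) * cay a = 1 := sorry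
theorem mul_star_cay {a : A} (ha : IsSelfAdjoint a) : cay a * star (cay a) = 1 := sorry
theorem norm_cay_le {a : A} (ha : IsSelfAdjoint a) : ‖cay a‖ ≤ 1 := sorry
theorem star_cay {a : A} (ha : IsSelfAdjoint a) : star (cay a) = cay (-a) := sorry
theorem cay_sub {a n : A} (ha : IsSelfAdjoint a) (hn : IsSelfAdjoint n) :
    cay (a + n) - cay a = (2 * I) • (res (a + n) * n * res a) := sorry
theorem nrm2_cay_sub_le {a b : A} (ha : IsSelfAdjoint a) (hb : IsSelfAdjoint b) :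
    T.nrm2 (cay a - cay b) ≤ 2 * T.nrm2 (a - b) := sorry
theorem cay_second {a n : A} (ha : IsSelfAdjoint a) (hn : IsSelfAdjoint n) (U V : A) :
    ‖T.τ (U * (cay (a + n) - cay a - (2 * I) • (res a * n * res a)) * V)‖ ≤
      2 * ‖U‖ * ‖V‖ * T.nrm2 n ^ 2 := sorry
theorem cay_own {a b : A} (ha : IsSelfAdjoint a) (hb : IsSelfAdjoint b) :
    T.nrm2 (cay (a + (1 / 2 : ℂ) • b) - cay ((1 / 2 : ℂ) • b) * cay a) ≤
      3 * ‖b‖ * T.nrm2 a + ‖b‖ ^ 2 := sorry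
theorem commute_res {a f : A} (ha : IsSelfAdjoint a) (h : f * a = a * f) :
    f * res a = res a * f := sorry
theorem commute_cay {a f : A} (ha : IsSelfAdjoint a) (h : f * a = a * f) :
    f * cay a = cay a * f := sorry
theorem cay_conj {a w : A} (ha : IsSelfAdjoint a) (h1 : star w * w = 1) (h2 : w * star w = 1) :
    star w * cay a * w = cay (star w * a * w) := sorry
theorem res_mem {a : A} (ha : IsSelfAdjoint a) (S : StarSubalgebra ℂ A) (hS : IsClosed (S : Set A))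
    (h : a ∈ S) : res a ∈ S := sorry
theorem cay_mem {a : A} (ha : IsSelfAdjoint a) (S : StarSubalgebra ℂ A) (hS : IsClosed (S : Set A))
    (h : a ∈ S) : cay a ∈ S := sorry
theorem mem_of_cay_mem {a : A} (ha : IsSelfAdjoint a) (S : StarSubalgebra ℂ A)
    (hS : IsClosed (S : Set A)) (h : cay a ∈ S) : a ∈ S := sorry
theorem cay_pow {b : A} (hb : IsSelfAdjoint b) (d : ℕ) (hd : 1 ≤ d) :
    ‖cay b ^ d - 1 - (2 * d * I : ℂ) • b‖ ≤ 4 * (d : ℝ) ^ 2 * ‖b‖ ^ 2 := sorry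

/-! ## Noise.lean -/

/-- orthogonality of independent mean zero terms -/
theorem avg_nrm2_sum_sq {κ : Type} [Fintype κ] [DecidableEq κ] (G : κ → ZMod 4 → A)
    (h0 : ∀ b, ∑ x, G b x = 0) :
    avg (fun ω : κ → ZMod 4 => T.nrm2 (∑ b, G b (ω b)) ^ 2) =
      ∑ b, (1 / 4) * ∑ x, T.nrm2 (G b x) ^ 2 := sorry

theorem noise {κ : Type} [Fintype κ] [DecidableEq κ] (d : ℕ) (B : ℕ → Finset κ)
    (hB : ∀ l < d, ∀ j < d, l ≠ j → Disjoint (B l) (B j))
    (a : ℕ → (κ → ZMod 4) → A) (ha : ∀ l ω, IsSelfAdjoint (a l ω))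
    (hinv : ∀ l < d, ∀ j < d, ∀ b ∈ B j, ∀ ω x, a l (Function.update ω b x) = a l ω)
    (n : ℕ → κ → ZMod 4 → A) (hn : ∀ l b x, IsSelfAdjoint (n l b x))
    (hn0 : ∀ l < d, ∀ b ∈ B l, ∑ x, n l b x = 0) :
    avg (fun ω : κ → ZMod 4 =>
      T.nrm2 (pr (fun l => cay (a l ω + ∑ b ∈ B l, n l b (ω b))) d -
        pr (fun l => cay (a l ω)) d) ^ 2) ≤
      4 * ∑ l ∈ Finset.range d, ∑ b ∈ B l, (1 / 4) * ∑ x, T.nrm2 (n l b x) ^ 2 := sorry

/-! ## PauliAlg.lean  (in the real file: namespace PauliSys, `F.E_inQ Y` etc.) -/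

section Pauli

variable {ι : Type} [Fintype ι] [DecidableEq ι] (F : PauliSys A ι)

theorem E_inQ (Y : A) : F.InQ (F.E Y) := sorry
theorem E_ff (g h : ι) : F.E (F.f g * F.f h) = if g = h then 1 else 0 := sorry
theorem decomp (X : A) : X = ∑ i, F.f i * F.E (F.f i * X) := sorry
theorem coord (δ : ι → A) (hδ : ∀ i, F.InQ (δ i)) (j : ι) :
    F.E (F.f j * ∑ i, F.f i * δ i) = δ j := sorry
theorem E_add (X Y : A) : F.E (X + Y) = F.E X + F.E Y := sorry
theorem E_smul (c : ℂ) (Y : A) : F.E (c • Y) = c • F.E Y := sorry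
theorem E_sa {X : A} (hX : IsSelfAdjoint X) (i : ι) : IsSelfAdjoint (F.E (F.f i * X)) := sorry
theorem E_comm {X : A} (hX : IsSelfAdjoint X) (i : ι) : F.E (X * F.f i) = F.E (F.f i * X) := sorry
theorem norm_E_le (Y : A) : ‖F.E Y‖ ≤ ‖Y‖ := sorry
theorem tau_E (q Y : A) (hq : F.InQ q) : T.τ (q * Y) = T.τ (q * F.E Y) := sorry
theorem nrm2_sum_sq (δ : ι → A) (hδ : ∀ i, F.InQ (δ i)) :
    T.nrm2 (∑ i, F.f i * δ i) ^ 2 = ∑ i, T.nrm2 (δ i) ^ 2 := sorry
theorem sum_sq {y : A} (hy : IsSelfAdjoint y) :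
    ∑ i, F.E (F.f i * y) * F.E (F.f i * y) = F.E (y * y) := sorry
theorem InQ.add {p q : A} (hp : F.InQ p) (hq : F.InQ q) : F.InQ (p + q) := sorry
theorem InQ.mul {p q : A} (hp : F.InQ p) (hq : F.InQ q) : F.InQ (p * q) := sorry
theorem InQ.smul {p : A} (c : ℂ) (hp : F.InQ p) : F.InQ (c • p) := sorry
theorem InQ.star {p : A} (hp : F.InQ p) : F.InQ (star p) := sorry
theorem InQ.one : F.InQ (1 : A) := sorry
theorem InQ.sum {κ : Type*} (s : Finset κ) (g : κ → A) (h : ∀ i ∈ s, F.InQ (g i)) :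
    F.InQ (∑ i ∈ s, g i) := sorry
theorem InQ.res {p : A} (hsa : IsSelfAdjoint p) (hp : F.InQ p) : F.InQ (res p) := sorry
theorem InQ.cay {p : A} (hsa : IsSelfAdjoint p) (hp : F.InQ p) : F.InQ (cay p) := sorry

end Pauli

/-- existence of Pauli systems of arbitrarily large size from commuting anticommuting pairs -/
theorem exists_pauliSys (u v : ℕ → A)
    (h1 : ∀ j, IsSelfAdjoint (u j) ∧ IsSelfAdjoint (v j) ∧ u j * u j = 1 ∧ v j * v j = 1 ∧
      u j * v j = -(v j * u j))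
    (h2 : ∀ j k, j ≠ k → u j * u k = u k * u j ∧ u j * v k = v k * u j ∧ v j * v k = v k * v j)
    (m : ℕ) :
    ∃ (ι : Type) (_ : Fintype ι) (_ : DecidableEq ι) (F : PauliSys A ι), m ≤ Fintype.card ι ∧
      ∀ S : StarSubalgebra ℂ A, (∀ j, u j ∈ S ∧ v j ∈ S) → ∀ i, F.f i ∈ S := sorry

/-! ## Moment.lean -/

/-- sign of a Bool -/
def sg (b : Bool) : ℝ := if b then 1 else -1

theorem avg_nrm2_signs {ι : Type} [Fintype ι] [DecidableEq ι] (w : ι → A) :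
    avg (fun ζ : ι → Bool => T.nrm2 (∑ i, (sg (ζ i) : ℂ) • w i) ^ 2) = ∑ i, T.nrm2 (w i) ^ 2 := sorry

theorem avg_fourth {ι : Type} [Fintype ι] [DecidableEq ι] (w : ι → A)
    (hw : ∀ i, IsSelfAdjoint (w i)) :
    avg (fun ζ : ι → Bool => (T.τ ((∑ i, (sg (ζ i) : ℂ) • w i) ^ 4)).re) ≤
      3 * (T.τ ((∑ i, w i * w i) ^ 2)).re := sorry

/-- bounded odd function `a (1 + a²)⁻¹` -/
noncomputable def gam (a : A) : A := (1 / (2 * I) : ℂ) • (res a - res (-a))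

theorem gam_sa {a : A} (ha : IsSelfAdjoint a) : IsSelfAdjoint (gam a) := sorry
theorem norm_gam_le {a : A} (ha : IsSelfAdjoint a) : ‖gam a‖ ≤ 1 := sorry
theorem tau_gam {η : A} (hη : IsSelfAdjoint η) (σ : ℝ) (hσ : 0 < σ) :
    σ * T.nrm2 η ^ 2 - σ ^ 3 * (T.τ (η ^ 4)).re ≤ (T.τ (gam ((σ : ℂ) • η) * η)).re := sorry

end Crest.Agent.R95.Spec
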