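import Crest.Agent.R95.Bridge

/-!
R95 (helper364): (i) unitaries of the form `z • cay X` are 2-norm dense in the unitaries;
(ii) clamping a self-adjoint element does not increase the 2-distance to bounded elements.
-/

set_option autoImplicit false

open scoped InnerProductSpace ENNReal ComplexConjugate
open Filter Topology Complex

namespace Crest.Agent.R95

open Crest.OpAlg

section scalar

/-- the scalar function -/
noncomputable def Fs (z : ℂ) (δ : ℝ) (w : ℂ) : ℝ :=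
  (conj z * w).im / (max 0 (1 + (conj z * w).re) + δ)

theorem continuous_Fs (z : ℂ) {δ : ℝ} (hδ : 0 < δ) : Continuous (Fs z δ) := by
  unfold Fs
  refine Continuous.div (by fun_prop) (by fun_prop) fun w => ?_
  have : 0 ≤ max 0 (1 + (conj z * w).re) := le_max_left _ _
  positivity

/-- the error function -/
noncomputable def hs (z : ℂ) (δ : ℝ) (w : ℂ) : ℂ :=
  z * ((1 + I * (Fs z δ w : ℂ)) / (1 - I * (Fs z δ w : ℂ))) - w

theorem one_sub_ne (F : ℝ) : (1 - I * (F : ℂ)) ≠ 0 := by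
  intro h
  have := congrArg Complex.re h
  simp at this

theorem continuous_hs (z : ℂ) {δ : ℝ} (hδ : 0 < δ) : Continuous (hs z δ) := by
  unfold hs
  have h := continuous_Fs z hδ
  have h2 : Continuous fun w => (Fs z δ w : ℂ) := Complex.continuous_ofReal.comp h
  refine (continuous_const.mul (Continuous.div (by fun_prop) (by fun_prop) fun w => ?_)).sub
    continuous_id
  exact one_sub_ne _

theorem norm_hs_le {z w : ℂ} (hz : ‖z‖ = 1) (hw : ‖w‖ = 1) {δ : ℝ} (hδ : 0 < δ) :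
    ‖hs z δ w‖ ≤ 2 * (δ / (‖z + w‖ ^ 2 / 2 + δ)) := by
  set v := conj z * w with hv
  have hzz : z * conj z = 1 := by rw [Complex.mul_conj, Complex.normSq_eq_norm_sq, hz]; simp
  have hzv : z * v = w := by rw [hv, ← mul_assoc, hzz, one_mul]
  have hvn : ‖v‖ = 1 := by rw [hv, norm_mul, Complex.norm_conj, hz, hw, one_mul]
  have hvsq : v.re ^ 2 + v.im ^ 2 = 1 := by
    have := Complex.normSq_eq_norm_sq v
    rw [hvn, Complex.normSq_apply] at this
    nlinarith
  have hc0 : 0 ≤ 1 + v.re := by nlinarith [sq_nonneg (v.re + 1), sq_nonneg v.im]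
  have hc : ‖z + w‖ ^ 2 / 2 = 1 + v.re := by
    have h1 : z + w = z * (1 + v) := by rw [mul_add, mul_one, hzv]
    rw [h1, norm_mul, hz, one_mul, ← Complex.normSq_eq_norm_sq, Complex.normSq_apply]
    simp only [add_re, one_re, add_im, one_im, zero_add]
    nlinarith
  have hF : Fs z δ w = v.im / (1 + v.re + δ) := by
    rw [Fs, ← hv, max_eq_right hc0]
  have hcδ : (0 : ℝ) < 1 + v.re + δ := by linarith
  have hident : (1 + I * (Fs z δ w : ℂ)) - v * (1 - I * (Fs z δ w : ℂ)) =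
      (1 - v) * ((δ / (1 + v.re + δ) : ℝ) : ℂ) := by
    rw [hF]
    have hFm : v.im / (1 + v.re + δ) * (1 + v.re + δ) = v.im := div_mul_cancel₀ _ hcδ.ne'
    have hDm : δ / (1 + v.re + δ) * (1 + v.re + δ) = δ := div_mul_cancel₀ _ hcδ.ne'
    generalize v.im / (1 + v.re + δ) = F at *
    generalize δ / (1 + v.re + δ) = D at *
    apply Complex.ext
    · simp
      refine mul_right_cancel₀ hcδ.ne' ?_
      linear_combination (-v.im) * hFm - (1 - v.re) * hDm - hvsq
    · simp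
      refine mul_right_cancel₀ hcδ.ne' ?_
      linear_combination (1 + v.re) * hFm + v.im * hDm
  have hh : hs z δ w = z * (((1 - v) * ((δ / (1 + v.re + δ) : ℝ) : ℂ)) /
      (1 - I * (Fs z δ w : ℂ))) := by
    rw [← hident, hs]
    have := one_sub_ne (Fs z δ w)
    generalize (Fs z δ w : ℂ) = F at *
    rw [sub_div, mul_div_cancel_right₀ _ this, mul_sub, hzv]
  rw [hh, norm_mul, hz, one_mul, norm_div, norm_mul, hc, Complex.norm_real,
    Real.norm_of_nonneg (by positivity)]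
  have h1 : ‖1 - v‖ ≤ 2 := by
    calc ‖1 - v‖ ≤ ‖(1 : ℂ)‖ + ‖v‖ := norm_sub_le _ _
      _ = 2 := by rw [hvn]; norm_num
  have h2 : 1 ≤ ‖1 - I * (Fs z δ w : ℂ)‖ := by
    have : |(1 - I * (Fs z δ w : ℂ)).re| ≤ ‖1 - I * (Fs z δ w : ℂ)‖ := Complex.abs_re_le_norm _
    simpa using this
  have h3 : 0 ≤ δ / (1 + v.re + δ) := by positivity
  calc ‖1 - v‖ * (δ / (1 + v.re + δ)) / ‖1 - I * (Fs z δ w : ℂ)‖
      ≤ ‖1 - v‖ * (δ / (1 + v.re + δ)) := div_le_self (by positivity) h2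
    _ ≤ _ := by gcongr

end scalar

section cfc

variable {A : Type*} [CStarAlgebra A]

theorem res_eq_of_mul_both {a b : A} (h1 : (1 - I • a) * b = 1) (h2 : b * (1 - I • a) = 1) :
    res a = b := by
  have := Ring.inverse_unit (⟨1 - I • a, b, h1, h2⟩ : Aˣ)
  exact this

theorem isSelfAdjoint_cfc_ofReal (f : ℂ → ℝ) (u : A) :
    IsSelfAdjoint (cfc (fun w => (f w : ℂ)) u) := by
  rw [IsSelfAdjoint, ← cfc_star]
  simp

theorem res_cfc {f : ℂ → ℝ} (hf : Continuous f) (u : A) [hu : IsStarNormal u] :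
    res (cfc (fun w => (f w : ℂ)) u) = cfc (fun w => (1 - I * (f w : ℂ))⁻¹) u := by
  have hf' : Continuous fun w => (f w : ℂ) := Complex.continuous_ofReal.comp hf
  have hinv : Continuous fun w => (1 - I * (f w : ℂ))⁻¹ :=
    Continuous.inv₀ (by fun_prop) fun w => one_sub_ne _
  have h1 : 1 - I • cfc (fun w => (f w : ℂ)) u = cfc (fun w => 1 - I * (f w : ℂ)) u := by
    rw [cfc_sub (fun _ => 1) (fun w => I * (f w : ℂ)) u, cfc_const_one ℂ u,
      cfc_const_mul I (fun w => (f w : ℂ)) u]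
  apply res_eq_of_mul_both
  · rw [h1, ← cfc_mul _ _ u (by fun_prop) hinv.continuousOn]
    rw [← cfc_const_one ℂ u]
    congr 1
    ext w
    exact mul_inv_cancel₀ (one_sub_ne _)
  · rw [h1, ← cfc_mul _ _ u hinv.continuousOn (by fun_prop)]
    rw [← cfc_const_one ℂ u]
    congr 1
    ext w
    exact inv_mul_cancel₀ (one_sub_ne _)

theorem cay_cfc {f : ℂ → ℝ} (hf : Continuous f) (u : A) [hu : IsStarNormal u] :
    cay (cfc (fun w => (f w : ℂ)) u) =
      cfc (fun w => (1 + I * (f w : ℂ)) / (1 - I * (f w : ℂ))) u := by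
  have hf' : Continuous fun w => (f w : ℂ) := Complex.continuous_ofReal.comp hf
  have hinv : Continuous fun w => (1 - I * (f w : ℂ))⁻¹ :=
    Continuous.inv₀ (by fun_prop) fun w => one_sub_ne _
  have h1 : 1 + I • cfc (fun w => (f w : ℂ)) u = cfc (fun w => 1 + I * (f w : ℂ)) u := by
    rw [cfc_add u (fun _ => 1) (fun w => I * (f w : ℂ)), cfc_const_one ℂ u,
      cfc_const_mul I (fun w => (f w : ℂ)) u]
  change (1 + I • cfc (fun w => (f w : ℂ)) u) * res (cfc (fun w => (f w : ℂ)) u) = _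
  rw [res_cfc hf, h1, ← cfc_mul _ _ u (by fun_prop) hinv.continuousOn]
  rfl

end cfc

section unitary

variable {H : Type*} [NormedAddCommGroup H] [InnerProductSpace ℂ H] [CompleteSpace H]

omit [CompleteSpace H] in
theorem norm_tr_le {ξ : ℕ → H} (hξ : SqSum ξ) (x : H →L[ℂ] H) :
    ‖tr ξ x‖ ≤ ‖x‖ * N2 ξ (1 : H →L[ℂ] H) ^ 2 := by
  rw [tr_eq_inner hξ]
  refine (norm_inner_le_norm _ _).trans ?_
  rw [norm_io, norm_io]
  have := N2_mul_left hξ x 1
  rw [mul_one] at this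
  nlinarith [N2_nonneg (ξ := ξ) (1 : H →L[ℂ] H)]

/-- distinct points on the circle -/
theorem exists_circle_points (m : ℕ) : ∃ (z : Fin m → ℂ) (η : ℝ), 0 < η ∧ (∀ j, ‖z j‖ = 1) ∧
    ∀ j k, j ≠ k → η ≤ ‖z j - z k‖ := by
  let z : Fin m → ℂ := fun j => Complex.exp (((1 / ((j : ℕ) + 1 : ℝ) : ℝ) : ℂ) * I)
  have hz : ∀ j, ‖z j‖ = 1 := fun j => Complex.norm_exp_ofReal_mul_I _
  have hpos : ∀ j : Fin m, (0 : ℝ) < 1 / ((j : ℕ) + 1 : ℝ) := fun j => by positivity
  have hle : ∀ j : Fin m, 1 / ((j : ℕ) + 1 : ℝ) ≤ 1 := fun j => by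
    rw [div_le_one (by positivity)]; simp
  have hinj : ∀ j k : Fin m, j ≠ k → z j ≠ z k := by
    intro j k hjk h
    apply hjk
    have hpi := Real.pi_gt_three
    have h1 := Complex.exp_inj_of_neg_pi_lt_of_le_pi (x := ((1 / ((j : ℕ) + 1 : ℝ) : ℝ) : ℂ) * I)
      (y := ((1 / ((k : ℕ) + 1 : ℝ) : ℝ) : ℂ) * I)
      (by simp only [mul_im, ofReal_re, I_im, mul_one, ofReal_im, I_re, mul_zero, add_zero]
          linarith [hpos j])
      (by simp only [mul_im, ofReal_re, I_im, mul_one, ofReal_im, I_re, mul_zero, add_zero]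
          linarith [hle j])
      (by simp only [mul_im, ofReal_re, I_im, mul_one, ofReal_im, I_re, mul_zero, add_zero]
          linarith [hpos k])
      (by simp only [mul_im, ofReal_re, I_im, mul_one, ofReal_im, I_re, mul_zero, add_zero]
          linarith [hle k]) h
    have h2 := mul_right_cancel₀ I_ne_zero h1
    have h3 : (1 / ((j : ℕ) + 1 : ℝ) : ℝ) = 1 / ((k : ℕ) + 1 : ℝ) := by exact_mod_cast h2
    rw [div_eq_div_iff (by positivity) (by positivity)] at h3
    have h4 : ((j : ℕ) : ℝ) = (k : ℕ) := by linarith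
    exact Fin.ext (by exact_mod_cast h4)
  have h5 : ∀ᶠ η : ℝ in 𝓝[>] 0, ∀ j k : Fin m, j ≠ k → η ≤ ‖z j - z k‖ := by
    rw [eventually_all]
    intro j
    rw [eventually_all]
    intro k
    by_cases hjk : j = k
    · exact Eventually.of_forall fun _ h => absurd hjk h
    · have : 0 < ‖z j - z k‖ := norm_pos_iff.2 (sub_ne_zero.2 (hinj j k hjk))
      filter_upwards [Ioo_mem_nhdsGT this] with η hη _ using hη.2.le
  obtain ⟨η, h6, h7⟩ := (h5.and self_mem_nhdsWithin).exists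
  exact ⟨z, η, h7, hz, h6⟩

/-- **(i)** unitaries of the form `z • cay X` are dense in the unitaries in the 2-norm; `X` lies in
every closed star subalgebra containing `u`. -/
theorem exists_cay_near {ξ : ℕ → H} (hξ : SqSum ξ) {u : H →L[ℂ] H}
    (hu : u ∈ unitary (H →L[ℂ] H)) {ε : ℝ} (hε : 0 < ε) :
    ∃ (z : ℂ) (X : H →L[ℂ] H), ‖z‖ = 1 ∧ IsSelfAdjoint X ∧ N2 ξ (z • cay X - u) < ε ∧
      ∀ S : StarSubalgebra ℂ (H →L[ℂ] H), IsClosed (S : Set (H →L[ℂ] H)) → u ∈ S → X ∈ S := by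
  have hnorm : IsStarNormal u := ⟨by
    have h := Unitary.mem_iff.1 hu
    exact h.1.trans h.2.symm⟩
  set K := N2 ξ (1 : H →L[ℂ] H) ^ 2 with hK
  have hK0 : 0 ≤ K := by positivity
  obtain ⟨m, hm⟩ := exists_nat_gt (5 * K / ε ^ 2)
  have hm0 : 0 < m := by
    have : (0 : ℝ) < m := lt_of_le_of_lt (by positivity) hm
    exact_mod_cast this
  obtain ⟨z, η, hη, hz, hsep⟩ := exists_circle_points m
  -- choose δ
  obtain ⟨δ, hδ, hδm⟩ : ∃ δ : ℝ, 0 < δ ∧ m * (2 * (δ / (η ^ 2 / 8))) ^ 2 ≤ 1 := by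
    have h1 : Tendsto (fun δ : ℝ => m * (2 * (δ / (η ^ 2 / 8))) ^ 2) (𝓝 0)
        (𝓝 (m * (2 * (0 / (η ^ 2 / 8))) ^ 2)) := by
      apply Continuous.tendsto
      fun_prop
    rw [zero_div, mul_zero, zero_pow two_ne_zero, mul_zero] at h1
    have h2 : ∀ᶠ δ : ℝ in 𝓝[>] 0, m * (2 * (δ / (η ^ 2 / 8))) ^ 2 ≤ 1 :=
      (h1.eventually (eventually_le_nhds one_pos)).filter_mono nhdsWithin_le_nhds
    obtain ⟨δ, h3, h4⟩ := (h2.and self_mem_nhdsWithin).exists
    exact ⟨δ, h4, h3⟩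
  let X : Fin m → H →L[ℂ] H := fun j => cfc (fun w => (Fs (z j) δ w : ℂ)) u
  let Y : Fin m → H →L[ℂ] H := fun j => cfc (hs (z j) δ) u
  have hY : ∀ j, z j • cay (X j) - u = Y j := by
    intro j
    have h1 := continuous_Fs (z j) hδ
    have h2 : Continuous fun w => (Fs (z j) δ w : ℂ) := Complex.continuous_ofReal.comp h1
    have h3 : Continuous fun w => (1 + I * (Fs (z j) δ w : ℂ)) / (1 - I * (Fs (z j) δ w : ℂ)) :=
      Continuous.div (by fun_prop) (by fun_prop) fun w => one_sub_ne _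
    change z j • cay (cfc (fun w => (Fs (z j) δ w : ℂ)) u) - u = cfc (hs (z j) δ) u
    rw [cay_cfc h1, ← cfc_const_mul (z j) _ u h3.continuousOn]
    rw [show hs (z j) δ = fun w => z j * ((1 + I * (Fs (z j) δ w : ℂ)) /
      (1 - I * (Fs (z j) δ w : ℂ))) - id w from rfl]
    have h4 : Continuous fun w => z j * ((1 + I * (Fs (z j) δ w : ℂ)) /
      (1 - I * (Fs (z j) δ w : ℂ))) := continuous_const.mul h3
    rw [cfc_sub (fun w => z j * ((1 + I * (Fs (z j) δ w : ℂ)) /
      (1 - I * (Fs (z j) δ w : ℂ)))) id u h4.continuousOn continuousOn_id, cfc_id ℂ u]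
  -- sum of squares
  have hsum : ∑ j, N2 ξ (Y j) ^ 2 ≤ 5 * K := by
    have h1 : ((∑ j, N2 ξ (Y j) ^ 2 : ℝ) : ℂ) =
        tr ξ (cfc (∑ j, fun w => star (hs (z j) δ w) * hs (z j) δ w) u) := by
      rw [cfc_sum_univ _ _ fun j => by
        have := continuous_hs (z j) hδ
        fun_prop, tr_sum hξ]
      push_cast
      refine Finset.sum_congr rfl fun j _ => ?_
      have h := continuous_hs (z j) hδ
      rw [cfc_mul _ _ u (by fun_prop) (by fun_prop), cfc_star]
      rw [tr_star_mul_self hξ]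
      push_cast; rfl
    have h2 : ‖cfc (∑ j, fun w => star (hs (z j) δ w) * hs (z j) δ w) u‖ ≤ 5 := by
      refine norm_cfc_le (by norm_num) fun w hw => ?_
      have hw1 : ‖w‖ = 1 := spectrum.norm_eq_one_of_unitary hu hw
      rw [Finset.sum_apply]
      refine (norm_sum_le _ _).trans ?_
      have h3 : ∀ j, ‖star (hs (z j) δ w) * hs (z j) δ w‖ = ‖hs (z j) δ w‖ ^ 2 := by
        intro j
        rw [norm_mul, norm_star]; ring
      simp only [h3]
      -- at most one `j` is near `-w`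
      have h4 : ∀ j, ‖hs (z j) δ w‖ ≤ 2 := by
        intro j
        refine (norm_hs_le (hz j) hw1 hδ).trans ?_
        have : δ / (‖z j + w‖ ^ 2 / 2 + δ) ≤ 1 := by
          rw [div_le_one (by positivity)]
          have : 0 ≤ ‖z j + w‖ ^ 2 / 2 := by positivity
          linarith
        linarith
      have h5 : ∀ j, η / 2 ≤ ‖z j + w‖ → ‖hs (z j) δ w‖ ^ 2 ≤ (2 * (δ / (η ^ 2 / 8))) ^ 2 := by
        intro j hj
        refine pow_le_pow_left₀ (norm_nonneg _) ((norm_hs_le (hz j) hw1 hδ).trans ?_) 2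
        gcongr
        have : (η / 2) ^ 2 ≤ ‖z j + w‖ ^ 2 := pow_le_pow_left₀ (by positivity) hj 2
        nlinarith
      by_cases hex : ∃ j₀, ‖z j₀ + w‖ < η / 2
      · obtain ⟨j₀, hj₀⟩ := hex
        have h6 : ∀ j ≠ j₀, η / 2 ≤ ‖z j + w‖ := by
          intro j hj
          by_contra hcon
          push Not at hcon
          have h7 := hsep j j₀ hj
          have h8 : ‖z j - z j₀‖ ≤ ‖z j + w‖ + ‖z j₀ + w‖ := by
            have : z j - z j₀ = (z j + w) - (z j₀ + w) := by ring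
            rw [this]; exact norm_sub_le _ _
          linarith
        rw [← Finset.add_sum_erase _ _ (Finset.mem_univ j₀)]
        have h9 : ∑ j ∈ Finset.univ.erase j₀, ‖hs (z j) δ w‖ ^ 2 ≤
            ∑ j ∈ Finset.univ.erase j₀, (2 * (δ / (η ^ 2 / 8))) ^ 2 :=
          Finset.sum_le_sum fun j hj => h5 j (h6 j (Finset.ne_of_mem_erase hj))
        have h10 : ∑ j ∈ (Finset.univ : Finset (Fin m)).erase j₀, (2 * (δ / (η ^ 2 / 8))) ^ 2 ≤ 1 := by
          rw [Finset.sum_const, nsmul_eq_mul]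
          refine le_trans ?_ hδm
          gcongr
          refine (Finset.card_le_univ _).trans ?_
          simp
        have h11 : ‖hs (z j₀) δ w‖ ^ 2 ≤ 4 := by
          have := pow_le_pow_left₀ (norm_nonneg _) (h4 j₀) 2
          linarith
        linarith
      · push Not at hex
        have h9 : ∑ j, ‖hs (z j) δ w‖ ^ 2 ≤ ∑ j : Fin m, (2 * (δ / (η ^ 2 / 8))) ^ 2 :=
          Finset.sum_le_sum fun j _ => h5 j (hex j)
        have h10 : ∑ j : Fin m, (2 * (δ / (η ^ 2 / 8))) ^ 2 ≤ 1 := by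
          rw [Finset.sum_const, nsmul_eq_mul]
          simpa using hδm
        linarith
    have h3 := norm_tr_le hξ (cfc (∑ j, fun w => star (hs (z j) δ w) * hs (z j) δ w) u)
    rw [← h1, Complex.norm_real, Real.norm_eq_abs] at h3
    calc ∑ j, N2 ξ (Y j) ^ 2 ≤ |∑ j, N2 ξ (Y j) ^ 2| := le_abs_self _
      _ ≤ _ := h3
      _ ≤ 5 * K := by rw [← hK]; gcongr
  -- pick the best
  obtain ⟨j, hj⟩ : ∃ j, N2 ξ (Y j) ^ 2 < ε ^ 2 := by
    by_contra hcon
    push Not at hcon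
    have h1 : ∑ j : Fin m, ε ^ 2 ≤ ∑ j, N2 ξ (Y j) ^ 2 := Finset.sum_le_sum fun j _ => hcon j
    rw [Finset.sum_const, Finset.card_univ, Fintype.card_fin, nsmul_eq_mul] at h1
    rw [div_lt_iff₀ (by positivity)] at hm
    linarith
  refine ⟨z j, X j, hz j, isSelfAdjoint_cfc_ofReal _ _, ?_, ?_⟩
  · rw [hY j]
    exact lt_of_pow_lt_pow_left₀ 2 hε.le hj
  · intro S hS huS
    exact cfc_mem (𝕜' := ℂ) (hs := hS) _ huS

end unitary

end Crest.Agent.R95
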